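import Mathlib

/-!
# Row 232 (S0358): dimension reduction in `L_p`; common definitions and the interface `Prop`s

Conventions.  `n` points, `e : Fin n × Fin n` an ordered pair, `ℓ e > 0` arbitrary lengths
(also on the diagonal), `grad ℓ g e = (g e.1 - g e.2) / ℓ e`.
All probability spaces are finite: `Ω : Type`, `[Fintype Ω]`, weights `w : Ω → ℝ`.
-/

set_option autoImplicit false

namespace Crest.Agent.H27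

open scoped BigOperators
open Finset

/-- discrete gradient of `g` along the ordered pair `e` with respect to the lengths `ℓ`. -/
noncomputable def grad {n : ℕ} (ℓ : Fin n × Fin n → ℝ) (g : Fin n → ℝ) (e : Fin n × Fin n) : ℝ :=
  (g e.1 - g e.2) / ℓ e

/-- low part of a real number at level `k`. -/
noncomputable def lowp (k : ℕ) (t : ℝ) : ℝ := if |t| ≤ 2 ^ k then t else 0

/-- level of a real number: the least `k : ℕ` with `|t| ≤ 2 ^ k`. -/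
noncomputable def lev (t : ℝ) : ℕ := sInf {k : ℕ | |t| ≤ 2 ^ k}

/-- `ξ_k` : `|g_k|` where `|f| > 2^k`, and `|f - g_k|` where `|f| ≤ 2^k`. -/
noncomputable def xi {Ω : Type} (f : Ω → ℝ) (g : ℕ → Ω → ℝ) (k : ℕ) (ω : Ω) : ℝ :=
  if (2 : ℝ) ^ k < |f ω| then |g k ω| else |f ω - g k ω|

/-! ### The linear operator `G` -/

/-- (T3) electrical potential operator of a weighted complete graph with its `ℓ¹` localization. -/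
def ExistsG : Prop :=
  ∀ (n : ℕ), 2 ≤ n → ∀ (ℓ ν : Fin n × Fin n → ℝ), (∀ e, 0 < ℓ e) → (∀ e, 0 < ν e) →
    ∑ e, ν e = 1 →
    ∃ G : (Fin n × Fin n → ℝ) →ₗ[ℝ] (Fin n → ℝ),
      (∀ (g : Fin n → ℝ) (x y : Fin n), G (grad ℓ g) x - G (grad ℓ g) y = g x - g y) ∧
      (∀ a : Fin n × Fin n → ℝ, ∑ e, ν e * (grad ℓ (G a) e) ^ 2 ≤ ∑ e, ν e * (a e) ^ 2) ∧
      (∑ e, ν e * ∑ f, |grad ℓ (G (Pi.single f 1)) e| ≤ 4 * Real.log n + 1)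

/-- (T3a) existence of the potential operator (weak form of the discrete Poisson equation). -/
def ExistsGLin : Prop :=
  ∀ (n : ℕ), 2 ≤ n → ∀ (ℓ ν : Fin n × Fin n → ℝ), (∀ e, 0 < ℓ e) → (∀ e, 0 < ν e) →
    ∃ G : (Fin n × Fin n → ℝ) →ₗ[ℝ] (Fin n → ℝ),
      (∀ (a : Fin n × Fin n → ℝ) (h : Fin n → ℝ),
        ∑ e, ν e * grad ℓ (G a) e * grad ℓ h e = ∑ e, ν e * a e * grad ℓ h e) ∧
      (∀ (g : Fin n → ℝ) (x y : Fin n), G (grad ℓ g) x - G (grad ℓ g) y = g x - g y)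

/-- (T3b) the average `ℓ¹` localization of electrical potentials (entropy argument). -/
def L1Bound : Prop :=
  ∀ (n : ℕ), 2 ≤ n → ∀ (ℓ ν : Fin n × Fin n → ℝ), (∀ e, 0 < ℓ e) → (∀ e, 0 < ν e) →
    ∑ e, ν e = 1 →
    ∀ g : Fin n × Fin n → Fin n → ℝ,
      (∀ (f : Fin n × Fin n) (h : Fin n → ℝ),
        ∑ e, ν e * grad ℓ (g f) e * grad ℓ h e = ν f * grad ℓ h f) →
      ∑ e, ν e * ∑ f, |grad ℓ (g f) e| ≤ 4 * Real.log n + 1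

/-- (T4) the uniform version obtained from `ExistsG` by Hahn-Banach / minimax. -/
def LemmaA : Prop :=
  ∀ (n : ℕ), 2 ≤ n → ∀ (ℓ : Fin n × Fin n → ℝ), (∀ e, 0 < ℓ e) →
    ∀ (ι : Type) [Fintype ι] (F : ι → Fin n × Fin n → ℝ), (∀ e, ∑ k, (F k e) ^ 2 ≤ 1) →
    ∃ G : (Fin n × Fin n → ℝ) →ₗ[ℝ] (Fin n → ℝ),
      (∀ (g : Fin n → ℝ) (x y : Fin n), G (grad ℓ g) x - G (grad ℓ g) y = g x - g y) ∧
      (∀ e, ∑ f, |grad ℓ (G (Pi.single f 1)) e| ≤ 3 * (4 * Real.log n + 1)) ∧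
      (∀ e, ∑ k, (grad ℓ (G (F k)) e) ^ 2 ≤ 3)

/-! ### Real analysis on one pair -/

/-- (T5a) -/
def GammaLt (q : ℝ) : Prop :=
  ∀ C₀ : ℝ, 0 < C₀ → ∃ C : ℝ, 0 < C ∧ ∀ (Ω : Type) [Fintype Ω] (w : Ω → ℝ), (∀ ω, 0 ≤ w ω) →
    ∀ (K : ℕ) (f : Ω → ℝ) (g : ℕ → Ω → ℝ) (β : ℝ), 1 ≤ β →
      (∑ ω, w ω * |f ω| ^ q ≤ 1) →
      (∑ k ∈ range K, (2 : ℝ) ^ (-(k : ℝ) * (2 - q)) * ∑ ω, w ω * (g k ω) ^ 2 ≤ C₀) →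
      (∑ k ∈ range K, (2 : ℝ) ^ ((k : ℝ) * (q - 1)) * ∑ ω, w ω * |f ω - g k ω| ≤ C₀ * β) →
      ∑ ω, w ω * (∑ k ∈ range K, xi f g k ω) ^ q ≤ C * β ^ (2 - q)

/-- (T5b) -/
def GammaGt (q : ℝ) : Prop :=
  ∀ C₀ : ℝ, 0 < C₀ → ∃ C : ℝ, 0 < C ∧ ∀ (Ω : Type) [Fintype Ω] (w : Ω → ℝ), (∀ ω, 0 ≤ w ω) →
    ∀ (K : ℕ) (f : Ω → ℝ) (g : ℕ → Ω → ℝ) (β : ℝ), 1 ≤ β →
      (∑ ω, w ω * |f ω| ^ q ≤ 1) →
      (∀ k ω, |g k ω| ≤ β * 2 ^ k) →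
      (∑ k ∈ range K, (2 : ℝ) ^ ((k : ℝ) * (q - 2)) * ∑ ω, w ω * (f ω - g k ω) ^ 2 ≤ C₀) →
      ∑ ω, w ω * (∑ k ∈ range K, xi f g k ω) ^ q ≤ C * β ^ (q - 2) ∧
      ∑ k ∈ range K, (2 : ℝ) ^ ((k : ℝ) * (q - 2)) * ∑ ω, w ω * (xi f g k ω) ^ 2 ≤ C

/-- (T5c) geometric sums over levels for one real number. -/
def LevelSums (q : ℝ) : Prop :=
  ∃ C : ℝ, 0 < C ∧ ∀ (K : ℕ) (t : ℝ),
    (1 < q → ∑ k ∈ range K, (2 : ℝ) ^ ((k : ℝ) * (q - 1)) * |t - lowp k t| ≤ C * |t| ^ q) ∧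
    (q < 2 → 0 < q → ∑ k ∈ range K, (2 : ℝ) ^ (-(k : ℝ) * (2 - q)) * (lowp k t) ^ 2 ≤ C * |t| ^ q) ∧
    (2 < q → ∑ k ∈ range K, (2 : ℝ) ^ ((k : ℝ) * (q - 2)) * (t - lowp k t) ^ 2 ≤ C * |t| ^ q)

/-- (T6a) smooth windows in the logarithmic scale. -/
def ExistsEta : Prop :=
  ∀ (q : ℝ), 1 ≤ q → ∀ (J : ℕ), 0 < J →
    ∃ η : ℕ → ℕ → ℝ, (∀ l j, 0 ≤ η l j ∧ η l j ≤ 1) ∧
      (∀ L j, j < L * J → ∑ l ∈ range (L + 1), (η l j) ^ q = 1) ∧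
      (∀ l j, η l j ≠ 0 → j < (l + 1) * J ∧ (1 ≤ l → (l - 1) * J < j)) ∧
      (∀ l j, |η l j - η l (j + 1)| ≤ 10 / J) ∧
      (∀ l j, η l j ≠ η l (j + 1) → l = j / J ∨ l = j / J + 1)

/-- (T6) the windows theorem. -/
def Windows (q : ℝ) : Prop :=
  ∀ ε : ℝ, 0 < ε → ∃ C : ℝ, 0 < C ∧ ∀ (n : ℕ), 2 ≤ n →
    ∀ (Ω : Type) [Fintype Ω] (w : Ω → ℝ), (∀ ω, 0 ≤ w ω) →
    ∀ (X : Fin n → Ω → ℝ) (ℓ : Fin n × Fin n → ℝ), (∀ e, 0 < ℓ e) →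
      (∀ e, ∑ ω, w ω * |grad ℓ (fun i => X i ω) e| ^ q ≤ 1) →
      ∀ (K J L : ℕ), (∀ e ω, |grad ℓ (fun i => X i ω) e| ≤ 2 ^ K) → 0 < J → K < L * J →
      C * (Real.log n) ^ |1 - 2 / q| ≤ J →
      ∃ (x : ℕ → Fin n → Ω → ℝ) (a c : ℕ → Fin n × Fin n → Ω → ℝ),
        (∀ l e ω, grad ℓ (fun i => x l i ω) e = a l e ω + c l e ω) ∧
        (∀ l e ω, |grad ℓ (fun i => x l i ω) e| ≤ 3 * (4 * Real.log n + 1) * 2 ^ ((l + 1) * J)) ∧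
        (∀ e ω, ∑ l ∈ range (L + 1), |a l e ω| ^ q = |grad ℓ (fun i => X i ω) e| ^ q) ∧
        (∀ l e ω, a l e ω ≠ 0 → 1 ≤ l →
          (2 : ℝ) ^ ((l - 1) * J) < |grad ℓ (fun i => X i ω) e|) ∧
        (∀ e, ∑ l ∈ range (L + 1), ∑ ω, w ω * |c l e ω| ^ q ≤ ε) ∧
        (2 < q → ∀ e, ∑ l ∈ range (L + 1),
          (2 : ℝ) ^ ((((l - 1) * J : ℕ) : ℝ) * ((q - 2) * q / 2)) *
            (∑ ω, w ω * (c l e ω) ^ 2) ^ (q / 2) ≤ ε)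

/-! ### Hashing: sums of `N` independent signed copies -/

/-- sign of a Boolean -/
noncomputable def sg (b : Bool) : ℝ := if b then 1 else -1

/-- weight of a sample of `N` signed copies -/
noncomputable def hW {Ω : Type} (w : Ω → ℝ) (N : ℕ) (θ : Fin N → Ω × Bool) : ℝ :=
  ∏ a, (w (θ a).1 / 2)

/-- the signed sum -/
noncomputable def hS {Ω : Type} (z : Ω → ℝ) (N : ℕ) (θ : Fin N → Ω × Bool) : ℝ :=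
  ∑ a, sg (θ a).2 * z (θ a).1

/-- expectation of `F` of the signed sum of `N` independent copies of `z` -/
noncomputable def hE {Ω : Type} [Fintype Ω] (w : Ω → ℝ) (N : ℕ) (F : ℝ → ℝ) (z : Ω → ℝ) : ℝ :=
  ∑ θ : Fin N → Ω × Bool, hW w N θ * F (hS z N θ)

/-- (T7) all hashing facts for the exponent `q`. -/
structure HashFacts (q : ℝ) : Prop where
  /-- total mass -/
  mass : ∀ (Ω : Type) [Fintype Ω] (w : Ω → ℝ), ∑ ω, w ω = 1 → ∀ N : ℕ,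
    ∑ θ : Fin N → Ω × Bool, hW w N θ = 1
  /-- contraction for `q ≤ 2` -/
  contr : q ≤ 2 → ∀ (Ω : Type) [Fintype Ω] (w : Ω → ℝ), (∀ ω, 0 ≤ w ω) → ∑ ω, w ω = 1 →
    ∀ (N : ℕ) (z : Ω → ℝ), hE w N (fun t => |t| ^ q) z ≤ N * ∑ ω, w ω * |z ω| ^ q
  /-- lower bound for sparse functions -/
  lower : ∀ (Ω : Type) [Fintype Ω] (w : Ω → ℝ), (∀ ω, 0 ≤ w ω) → ∑ ω, w ω = 1 →
    ∀ (N : ℕ) (z : Ω → ℝ) (π : ℝ), (∑ ω, w ω * (if z ω = 0 then 0 else 1) ≤ π) → π ≤ 1 →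
      N * (1 - N * π) * ∑ ω, w ω * |z ω| ^ q ≤ hE w N (fun t => |t| ^ q) z
  /-- precise upper bound for sparse functions, `q ≥ 2` -/
  upper : 2 ≤ q → ∃ C : ℝ, 0 < C ∧ ∀ (Ω : Type) [Fintype Ω] (w : Ω → ℝ), (∀ ω, 0 ≤ w ω) →
    ∑ ω, w ω = 1 → ∀ (N : ℕ) (z : Ω → ℝ) (π : ℝ),
      (∑ ω, w ω * (if z ω = 0 then 0 else 1) ≤ π) → N * π ≤ 1 →
      hE w N (fun t => |t| ^ q) z ≤ (1 + C * (N * π)) * N * ∑ ω, w ω * |z ω| ^ q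
  /-- Rosenthal inequality, `q ≥ 2` -/
  rosenthal : 2 ≤ q → ∃ C : ℝ, 0 < C ∧ ∀ (Ω : Type) [Fintype Ω] (w : Ω → ℝ), (∀ ω, 0 ≤ w ω) →
    ∑ ω, w ω = 1 → ∀ (N : ℕ) (z : Ω → ℝ),
      hE w N (fun t => |t| ^ q) z ≤
        C * (N * ∑ ω, w ω * |z ω| ^ q + (N * ∑ ω, w ω * (z ω) ^ 2) ^ (q / 2))
  /-- Minkowski -/
  mink : 1 ≤ q → ∀ (Ω : Type) [Fintype Ω] (w : Ω → ℝ), (∀ ω, 0 ≤ w ω) →
    ∀ (N : ℕ) (y z : Ω → ℝ),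
      (hE w N (fun t => |t| ^ q) (fun ω => y ω + z ω)) ^ (1 / q) ≤
        (hE w N (fun t => |t| ^ q) y) ^ (1 / q) + (hE w N (fun t => |t| ^ q) z) ^ (1 / q)
  /-- exponential moments -/
  cosh : ∀ (Ω : Type) [Fintype Ω] (w : Ω → ℝ), (∀ ω, 0 ≤ w ω) → ∑ ω, w ω = 1 →
    ∀ (N : ℕ) (z : Ω → ℝ), (∀ ω, |z ω| ≤ 1) →
      hE w N Real.cosh z ≤ Real.exp (N * ∑ ω, w ω * (z ω) ^ 2)

/-! ### Sampling -/

/-- (T8) a random sample of polynomially many coordinates works for all pairs. -/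
def Sampling (q : ℝ) : Prop :=
  ∀ A : ℝ, 1 ≤ A → ∃ C : ℝ, 1 ≤ C ∧
    ∀ (Θ : Type) [Fintype Θ] (W : Θ → ℝ), (∀ θ, 0 ≤ W θ) → ∑ θ, W θ = 1 →
    ∀ (n : ℕ), 2 ≤ n → ∀ (ℓ : Fin n × Fin n → ℝ), (∀ e, 0 < ℓ e) → ∀ (φ : Fin n → Θ → ℝ)
      (T δ : ℝ), 1 ≤ T → 0 < δ → δ ≤ 1 →
      (∀ e, ∑ θ, W θ * Real.cosh (grad ℓ (fun i => φ i θ) e / T) ≤ A) →
      ∃ S : ℕ, 0 < S ∧ (S : ℝ) ≤ (C * (T + Real.log n + 1 / δ)) ^ C ∧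
        ∃ θ : Fin S → Θ, ∀ e,
          |(1 / S : ℝ) * ∑ s, |grad ℓ (fun i => φ i (θ s)) e| ^ q
            - ∑ θ, W θ * |grad ℓ (fun i => φ i θ) e| ^ q| ≤ δ

/-! ### The finite embedding theorem -/

/-- (T9) -/
def FiniteEmbedding (q : ℝ) : Prop :=
  ∀ ε : ℝ, 0 < ε → ∃ C : ℝ, 0 < C ∧ ∀ (n : ℕ), 2 ≤ n →
    ∀ (Ω : Type) [Fintype Ω] (w : Ω → ℝ), (∀ ω, 0 ≤ w ω) → ∑ ω, w ω = 1 →
    ∀ (X : Fin n → Ω → ℝ) (ℓ : Fin n × Fin n → ℝ), (∀ e, 0 < ℓ e) →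
      (∀ i j, i ≠ j → ∑ ω, w ω * |grad ℓ (fun i => X i ω) (i, j)| ^ q = 1) →
      (∀ e ω, |grad ℓ (fun i => X i ω) e| ≤ (n : ℝ) ^ 2) →
      ∃ d : ℕ, (d : ℝ) ≤ Real.exp (C * (Real.log n) ^ |1 - 2 / q|) ∧
        ∃ y : Fin n → Fin d → ℝ, ∀ i j, i ≠ j →
          |∑ k, |grad ℓ (fun i => y i k) (i, j)| ^ q - 1| ≤ ε

end Crest.Agent.H27
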