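import Crest.Agent.H27.Defs

set_option autoImplicit false
set_option linter.unusedVariables false

namespace Crest.Agent.H27

open scoped BigOperators ENNReal
open Finset MeasureTheory

lemma exists_simple {α : Type*} [MeasurableSpace α] (μ : Measure α) (p : ℝ≥0∞) [Fact (1 ≤ p)]
    (hp : p ≠ ⊤) (n : ℕ) (x : Fin n → Lp ℝ p μ) (δ : ℝ) (hδ : 0 < δ) :
    ∃ (V : Finset (Fin n → ℝ)) (m : (Fin n → ℝ) → ℝ) (r : Fin n → Fin n → ℝ),
      (∀ v, 0 ≤ m v) ∧ (∀ i j, 0 ≤ r i j) ∧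
      (∀ i j, r i j ^ p.toReal = ∑ v ∈ V, m v * |v i - v j| ^ p.toReal) ∧
      ∀ i j, |r i j - ‖x i - x j‖| ≤ 2 * δ := by
  have hp1 : 1 ≤ p := Fact.out
  have hp0 : p ≠ 0 := (lt_of_lt_of_le one_pos hp1).ne'
  have hP0 : 0 < p.toReal := ENNReal.toReal_pos hp0 hp
  have hex : ∀ i, ∃ s : Lp.simpleFunc ℝ p μ, dist (x i) (s : Lp ℝ p μ) < δ := fun i =>
    (Lp.simpleFunc.denseRange hp).exists_dist_lt (x i) hδ
  choose s hs using hex
  let t : Fin n → SimpleFunc α ℝ := fun i => Lp.simpleFunc.toSimpleFunc (s i)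
  let g : SimpleFunc α (Fin n → ℝ) :=
    { toFun := fun a i => t i a
      measurableSet_fiber' := by
        intro v
        have : (fun a i => t i a) ⁻¹' {v} = ⋂ i, (t i) ⁻¹' {v i} := by
          ext a; simp [funext_iff]
        rw [this]
        exact MeasurableSet.iInter fun i => (t i).measurableSet_fiber (v i)
      finite_range' := by
        refine (Set.Finite.pi' (t := fun i => Set.range (t i))
          (fun i => (t i).finite_range)).subset ?_
        rintro v ⟨a, rfl⟩ i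
        exact ⟨a, rfl⟩ }
  refine ⟨g.range, fun v => (μ (g ⁻¹' {v})).toReal, fun i j => ‖(s i : Lp ℝ p μ) - s j‖,
    fun v => ENNReal.toReal_nonneg, fun i j => norm_nonneg _, ?_, ?_⟩
  · intro i j
    set f : Lp ℝ p μ := (s i : Lp ℝ p μ) - s j with hf
    have hae : (f : α → ℝ) =ᵐ[μ] fun a => g a i - g a j := by
      have h1 := Lp.coeFn_sub (s i : Lp ℝ p μ) (s j : Lp ℝ p μ)
      have h2 := Lp.simpleFunc.toSimpleFunc_eq_toFun (s i)
      have h3 := Lp.simpleFunc.toSimpleFunc_eq_toFun (s j)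
      filter_upwards [h1, h2, h3] with a h1 h2 h3
      rw [hf, h1, Pi.sub_apply, ← h2, ← h3]
      rfl
    let F : (Fin n → ℝ) → ℝ≥0∞ := fun v => ‖v i - v j‖ₑ ^ p.toReal
    have hI : ∫⁻ a, ‖(f : α → ℝ) a‖ₑ ^ p.toReal ∂μ = ∑ v ∈ g.range, F v * μ (g ⁻¹' {v}) := by
      rw [← SimpleFunc.map_lintegral, ← SimpleFunc.lintegral_eq_lintegral]
      refine lintegral_congr_ae ?_
      filter_upwards [hae] with a ha
      rw [ha]; rfl
    have hfin : ∫⁻ a, ‖(f : α → ℝ) a‖ₑ ^ p.toReal ∂μ ≠ ⊤ := by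
      have h1 := Lp.eLpNorm_ne_top f
      rw [eLpNorm_eq_lintegral_rpow_enorm_toReal hp0 hp] at h1
      intro h
      rw [h] at h1
      exact h1 (ENNReal.top_rpow_of_pos (by positivity))
    show ‖f‖ ^ p.toReal = _
    rw [Lp.norm_def, eLpNorm_eq_lintegral_rpow_enorm_toReal hp0 hp, ← ENNReal.toReal_rpow,
      ← Real.rpow_mul ENNReal.toReal_nonneg, one_div_mul_cancel hP0.ne', Real.rpow_one]
    rw [hI] at hfin ⊢
    rw [ENNReal.toReal_sum]
    · refine sum_congr rfl fun v _ => ?_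
      rw [ENNReal.toReal_mul, mul_comm]
      congr 1
      simp only [F]
      rw [← ENNReal.toReal_rpow]
      simp
    · intro v hv h
      exact hfin (ENNReal.sum_eq_top.2 ⟨v, hv, h⟩)
  · intro i j
    have h1 := abs_norm_sub_norm_le ((s i : Lp ℝ p μ) - s j) (x i - x j)
    refine h1.trans ?_
    have h2 : ((s i : Lp ℝ p μ) - s j) - (x i - x j) = (x j - s j) - (x i - s i) := by abel
    rw [h2]
    have h3 := norm_sub_le (x j - s j) (x i - s i)
    have h4 := hs i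
    have h5 := hs j
    rw [dist_eq_norm] at h4 h5
    linarith

/-- change of density on a finite distribution -/
lemma change_density (P : ℝ) (hP : 1 ≤ P) (n : ℕ) (hn : 2 ≤ n) (V : Finset (Fin n → ℝ))
    (m : (Fin n → ℝ) → ℝ) (r : Fin n → Fin n → ℝ) (hm : ∀ v, 0 ≤ m v)
    (hr : ∀ i j, i ≠ j → 0 < r i j)
    (hrP : ∀ i j, r i j ^ P = ∑ v ∈ V, m v * |v i - v j| ^ P) :
    ∃ (Ω : Type) (_ : Fintype Ω) (w : Ω → ℝ) (X : Fin n → Ω → ℝ) (ℓ : Fin n × Fin n → ℝ),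
      (∀ ω, 0 ≤ w ω) ∧ ∑ ω, w ω = 1 ∧ (∀ e, 0 < ℓ e) ∧
      (∀ i j, i ≠ j → ∑ ω, w ω * |grad ℓ (fun i => X i ω) (i, j)| ^ P = 1) ∧
      (∀ e ω, |grad ℓ (fun i => X i ω) e| ≤ (n : ℝ) ^ 2) ∧
      (∀ i j, i ≠ j → ℓ (i, j) = r i j) := by
  have hP0 : 0 < P := by linarith
  set O : Finset (Fin n × Fin n) := (univ : Finset (Fin n)).offDiag with hO
  set M : ℝ := (O.card : ℝ) with hM
  have hOne : O.Nonempty := ⟨(⟨0, by omega⟩, ⟨1, by omega⟩), by simp [hO]⟩
  have hM1 : 1 ≤ M := by rw [hM]; exact_mod_cast hOne.card_pos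
  have hMn : M ≤ (n:ℝ) ^ 2 := by
    rw [hM, hO, offDiag_card]
    simp only [card_univ, Fintype.card_fin]
    have : n * n - n ≤ n ^ 2 := by rw [sq]; exact Nat.sub_le _ _
    exact_mod_cast this
  let ℓ : Fin n × Fin n → ℝ := fun e => if e.1 = e.2 then 1 else r e.1 e.2
  have hℓ : ∀ e, 0 < ℓ e := by
    intro e
    by_cases h : e.1 = e.2
    · simp [ℓ, h]
    · simp only [ℓ, h, if_false]; exact hr _ _ h
  have hℓr : ∀ i j, i ≠ j → ℓ (i, j) = r i j := by intro i j h; simp [ℓ, h]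
  let h : (Fin n → ℝ) → ℝ := fun v => (1 / M) * ∑ e ∈ O, |v e.1 - v e.2| ^ P / (ℓ e) ^ P
  have hterm0 : ∀ (v : Fin n → ℝ) (e : Fin n × Fin n), 0 ≤ |v e.1 - v e.2| ^ P / (ℓ e) ^ P :=
    fun v e => div_nonneg (Real.rpow_nonneg (abs_nonneg _) _) (Real.rpow_nonneg (hℓ e).le _)
  have hh0 : ∀ v, 0 ≤ h v := fun v => mul_nonneg (by positivity) (sum_nonneg fun e _ => hterm0 v e)
  have hterm : ∀ (v : Fin n → ℝ) (e : Fin n × Fin n), e ∈ O →
      |v e.1 - v e.2| ^ P / (ℓ e) ^ P ≤ M * h v := by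
    intro v e he
    have : M * h v = ∑ e ∈ O, |v e.1 - v e.2| ^ P / (ℓ e) ^ P := by
      simp only [h]
      field_simp
    rw [this]
    exact single_le_sum (f := fun e => |v e.1 - v e.2| ^ P / (ℓ e) ^ P)
      (fun e _ => hterm0 v e) he
  -- formula for the gradient
  have hgrad : ∀ (v : Fin n → ℝ) (e : Fin n × Fin n), e ∈ O →
      h v * |grad ℓ (fun i => v i / (h v) ^ (1 / P)) e| ^ P = |v e.1 - v e.2| ^ P / (ℓ e) ^ P := by
    intro v e he
    rcases eq_or_lt_of_le (hh0 v) with h0 | h0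
    · rw [← h0, zero_mul]
      have := hterm v e he
      rw [← h0, mul_zero] at this
      exact le_antisymm (hterm0 v e) this
    · have e1 : grad ℓ (fun i => v i / (h v) ^ (1 / P)) e =
          (v e.1 - v e.2) / ℓ e * ((h v) ^ (1 / P))⁻¹ := by
        unfold grad; ring
      have e2 : ((h v) ^ (1 / P)) ^ P = h v := by
        rw [← Real.rpow_mul h0.le, one_div_mul_cancel hP0.ne', Real.rpow_one]
      have e3 : 0 < (h v) ^ (1 / P) := Real.rpow_pos_of_pos h0 _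
      rw [e1, abs_mul, abs_div, abs_of_pos (hℓ e), abs_of_pos (inv_pos.2 e3),
        Real.mul_rpow (div_nonneg (abs_nonneg _) (hℓ e).le) (inv_pos.2 e3).le,
        Real.div_rpow (abs_nonneg _) (hℓ e).le,
        Real.inv_rpow e3.le, e2]
      field_simp
  refine ⟨↥V, inferInstance, fun v => m v.1 * h v.1, fun i v => v.1 i / (h v.1) ^ (1 / P), ℓ,
    fun v => mul_nonneg (hm _) (hh0 _), ?_, hℓ, ?_, ?_, hℓr⟩
  · rw [Finset.sum_coe_sort V (fun v => m v * h v)]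
    have e1 : ∀ e ∈ O, ∑ v ∈ V, m v * (|v e.1 - v e.2| ^ P / (ℓ e) ^ P) = 1 := by
      intro e he
      have hne : e.1 ≠ e.2 := by simpa [hO] using he
      have e2 : ∑ v ∈ V, m v * (|v e.1 - v e.2| ^ P / (ℓ e) ^ P) =
          (∑ v ∈ V, m v * |v e.1 - v e.2| ^ P) / (ℓ e) ^ P := by
        rw [Finset.sum_div]
        exact sum_congr rfl fun v _ => by ring
      rw [e2, ← hrP, ← hℓr _ _ hne]
      exact div_self (Real.rpow_pos_of_pos (hℓ _) _).ne'
    calc ∑ v ∈ V, m v * h v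
        = ∑ v ∈ V, (1 / M) * ∑ e ∈ O, m v * (|v e.1 - v e.2| ^ P / (ℓ e) ^ P) := by
          refine sum_congr rfl fun v _ => ?_
          simp only [h]
          rw [← mul_sum]; ring
      _ = (1 / M) * ∑ e ∈ O, ∑ v ∈ V, m v * (|v e.1 - v e.2| ^ P / (ℓ e) ^ P) := by
          rw [← mul_sum, sum_comm]
      _ = (1 / M) * ∑ e ∈ O, 1 := by rw [sum_congr rfl e1]
      _ = 1 := by
          rw [sum_const, nsmul_eq_mul, mul_one, ← hM]
          field_simp
  · intro i j hij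
    have he : (i, j) ∈ O := by simp [hO, hij]
    rw [Finset.sum_coe_sort V (fun v => m v * h v *
      |grad ℓ (fun i => v i / (h v) ^ (1 / P)) (i, j)| ^ P)]
    calc ∑ v ∈ V, m v * h v * |grad ℓ (fun i => v i / (h v) ^ (1 / P)) (i, j)| ^ P
        = ∑ v ∈ V, (m v * |v i - v j| ^ P) / (ℓ (i, j)) ^ P := by
          refine sum_congr rfl fun v _ => ?_
          rw [mul_assoc, hgrad v (i, j) he]; ring
      _ = (∑ v ∈ V, m v * |v i - v j| ^ P) / (ℓ (i, j)) ^ P := by rw [Finset.sum_div]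
      _ = 1 := by
          rw [← hrP, ← hℓr _ _ hij]
          exact div_self (Real.rpow_pos_of_pos (hℓ _) _).ne'
  · intro e v
    by_cases hne : e.1 = e.2
    · have : grad ℓ (fun i => v.1 i / (h v.1) ^ (1 / P)) e = 0 := by
        unfold grad; rw [hne]; simp
      rw [this, abs_zero]; positivity
    · have he : e ∈ O := by simp [hO, hne]
      refine le_trans ?_ hMn
      rcases eq_or_lt_of_le (hh0 v.1) with h0 | h0
      · have : grad ℓ (fun i => v.1 i / (h v.1) ^ (1 / P)) e = 0 := by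
          unfold grad
          rw [← h0, Real.zero_rpow (one_div_pos.2 hP0).ne']; simp
        rw [this, abs_zero]; linarith
      · have h1 := hterm v.1 e he
        rw [← hgrad v.1 e he, mul_comm M] at h1
        have h2 : |grad ℓ (fun i => v.1 i / (h v.1) ^ (1 / P)) e| ^ P ≤ M :=
          le_of_mul_le_mul_left h1 h0
        by_contra hcon
        push Not at hcon
        have h3 : M < |grad ℓ (fun i => v.1 i / (h v.1) ^ (1 / P)) e| ^ P := by
          refine lt_of_lt_of_le hcon ?_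
          exact Real.self_le_rpow_of_one_le (by linarith) hP
        linarith

theorem reduce_finite {α : Type*} [MeasurableSpace α] (μ : Measure α) (p : ℝ≥0∞)
    [Fact (1 ≤ p)] (hp : p ≠ ⊤) (n : ℕ) (hn : 2 ≤ n) (x : Fin n → Lp ℝ p μ)
    (hx : Function.Injective x) (ε : ℝ) (hε : 0 < ε) (hε1 : ε < 1) :
    ∃ (Ω : Type) (_ : Fintype Ω) (w : Ω → ℝ) (X : Fin n → Ω → ℝ) (ℓ : Fin n × Fin n → ℝ),
      (∀ ω, 0 ≤ w ω) ∧ ∑ ω, w ω = 1 ∧ (∀ e, 0 < ℓ e) ∧
      (∀ i j, i ≠ j → ∑ ω, w ω * |grad ℓ (fun i => X i ω) (i, j)| ^ p.toReal = 1) ∧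
      (∀ e ω, |grad ℓ (fun i => X i ω) e| ≤ (n : ℝ) ^ 2) ∧
      (∀ i j, i ≠ j → (1 - ε) * ‖x i - x j‖ ≤ ℓ (i, j) ∧ ℓ (i, j) ≤ (1 + ε) * ‖x i - x j‖) := by
  have hp1 : 1 ≤ p := Fact.out
  have hP : 1 ≤ p.toReal := by
    have := ENNReal.toReal_mono hp hp1
    simpa using this
  obtain ⟨e₀, he₀, hmin⟩ := ((univ : Finset (Fin n)).offDiag).exists_min_image
    (fun e => ‖x e.1 - x e.2‖) ⟨(⟨0, by omega⟩, ⟨1, by omega⟩), by simp⟩
  set d := ‖x e₀.1 - x e₀.2‖ with hd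
  have hd0 : 0 < d := by
    rw [hd, norm_pos_iff, sub_ne_zero]
    intro h
    have := hx h
    simp at he₀
    exact he₀ this
  obtain ⟨V, m, r, hm, hr0, hrP, hrx⟩ := exists_simple μ p hp n x (ε * d / 2) (by positivity)
  have hdl : ∀ i j, i ≠ j → d ≤ ‖x i - x j‖ := fun i j hij => hmin (i, j) (by simp [hij])
  have hr : ∀ i j, i ≠ j → 0 < r i j := by
    intro i j hij
    have h1 := abs_le.1 (hrx i j)
    have h2 := hdl i j hij
    nlinarith [h1.1]
  obtain ⟨Ω, hΩ, w, X, ℓ, hw, hw1, hℓ, hX, hXn, hℓr⟩ := change_density p.toReal hP n hn V m r hm hr hrP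
  refine ⟨Ω, hΩ, w, X, ℓ, hw, hw1, hℓ, hX, hXn, fun i j hij => ?_⟩
  rw [hℓr i j hij]
  have h1 := abs_le.1 (hrx i j)
  have h2 := hdl i j hij
  constructor <;> nlinarith [h1.1, h1.2]

end Crest.Agent.H27
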