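import Crest.Agent.H27.Defs
import Crest.Agent.H27.T2

set_option autoImplicit false
set_option linter.unusedVariables false

namespace Crest.Agent.H27

open scoped BigOperators ENNReal
open Finset MeasureTheory
universe u

lemma exponent_compare {a b : ℝ} (hab : a ≤ b) {n : ℕ} (hn : 2 ≤ n) :
    (Real.log n) ^ a ≤ (Real.log 2) ^ (a - b) * (Real.log n) ^ b := by
  have h2 : 0 < Real.log 2 := Real.log_pos (by norm_num)
  have hn2 : Real.log 2 ≤ Real.log n := Real.log_le_log (by norm_num) (by exact_mod_cast hn)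
  have hn0 : 0 < Real.log n := by linarith
  calc (Real.log n) ^ a = (Real.log n) ^ (a - b) * (Real.log n) ^ b := by
        rw [← Real.rpow_add hn0]; ring_nf
    _ ≤ (Real.log 2) ^ (a - b) * (Real.log n) ^ b := by
        gcongr ?_ * _
        exact Real.rpow_le_rpow_of_nonpos h2 hn2 (by linarith)

theorem s0358_of (p : ℝ≥0∞) [Fact (1 ≤ p)] (hp1 : 1 < p) (hptop : p ≠ ⊤) (hp2 : p ≠ 2)
    (hFE : FiniteEmbedding p.toReal) (D : ℝ) (hD : 1 < D) :
    ∃ C : ℝ, ∀ (n : ℕ), 2 ≤ n →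
      ∀ (α : Type u) [MeasurableSpace α] (μ : Measure α) (x : Fin n → Lp ℝ p μ),
        Function.Injective x →
        ∃ d : ℕ, (d : ℝ) ≤ Real.exp (C * Real.log n ^ (if p.toReal < 2 then 2 - p.toReal else 1 - 2 / p.toReal)) ∧
          ∃ (y : Fin n → PiLp p (fun _ : Fin d => ℝ)) (s : ℝ), 0 < s ∧
            ∀ i j, s * ‖x i - x j‖ ≤ ‖y i - y j‖ ∧ ‖y i - y j‖ ≤ D * s * ‖x i - x j‖ := by
  set P := p.toReal with hP
  have hP1 : 1 < P := by
    have := (ENNReal.toReal_lt_toReal ENNReal.one_ne_top hptop).2 hp1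
    simpa using this
  have hP0 : 0 < P := by linarith
  set ε : ℝ := (D - 1) / (2 * D + 3) with hε
  have hε0 : 0 < ε := div_pos (by linarith) (by linarith)
  have hε1 : ε < 1 / 2 := by
    rw [hε, div_lt_div_iff₀ (by linarith) (by norm_num)]; linarith
  have hεD : ε * (2 * D + 3) = D - 1 := by
    rw [hε]; field_simp
  obtain ⟨C, hC, hF⟩ := hFE ε hε0
  -- the exponent
  set g := if P < 2 then 2 - P else 1 - 2 / P with hg
  have hexp : |1 - 2 / P| ≤ g := by
    rw [hg]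
    split_ifs with h
    · have h1 : 1 - 2 / P ≤ 0 := by
        rw [sub_nonpos, le_div_iff₀ hP0]; linarith
      rw [abs_of_nonpos h1]
      have h2 : 2 / P ≤ 3 - P := by
        rw [div_le_iff₀ hP0]; nlinarith
      linarith
    · have h1 : 0 ≤ 1 - 2 / P := by
        rw [sub_nonneg, div_le_one hP0]; linarith
      rw [abs_of_nonneg h1]
  refine ⟨C * (Real.log 2) ^ (|1 - 2 / P| - g), ?_⟩
  intro n hn α _ μ x hx
  obtain ⟨Ω, hΩ, w, X, ℓ, hw, hw1, hℓ, hX, hXn, hℓx⟩ :=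
    reduce_finite μ p hptop n hn x hx ε hε0 (by linarith)
  obtain ⟨d, hd, y, hy⟩ := hF n hn Ω w hw hw1 X ℓ hℓ hX hXn
  refine ⟨d, hd.trans (Real.exp_le_exp.2 ?_), fun i => WithLp.toLp p (y i), (1 - ε) ^ 2,
    by have : 0 < 1 - ε := by linarith
       positivity, ?_⟩
  · rw [mul_assoc]
    exact mul_le_mul_of_nonneg_left (exponent_compare hexp hn) hC.le
  intro i j
  by_cases hij : i = j
  · subst hij; simp
  have hx0 : 0 ≤ ‖x i - x j‖ := norm_nonneg _
  obtain ⟨hl1, hl2⟩ := hℓx i j hij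
  have hy' := abs_le.1 (hy i j hij)
  set Sg := ∑ k, |grad ℓ (fun i => y i k) (i, j)| ^ P with hSg
  have hSg0 : 0 ≤ Sg := sum_nonneg fun k _ => Real.rpow_nonneg (abs_nonneg _) _
  have hnorm : ‖WithLp.toLp p (y i) - WithLp.toLp p (y j)‖ = ℓ (i, j) * Sg ^ (1 / P) := by
    rw [PiLp.norm_eq_sum (by rw [← hP]; exact hP0), ← hP]
    have e1 : ∀ k, ‖(WithLp.toLp p (y i) - WithLp.toLp p (y j)) k‖ ^ P =
        (ℓ (i, j)) ^ P * |grad ℓ (fun i => y i k) (i, j)| ^ P := by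
      intro k
      rw [← Real.mul_rpow (hℓ _).le (abs_nonneg _)]
      congr 1
      unfold grad
      rw [abs_div, abs_of_pos (hℓ (i, j)), mul_div_cancel₀ _ (hℓ (i, j)).ne']
      simp
    rw [sum_congr rfl fun k _ => e1 k, ← mul_sum, Real.mul_rpow (Real.rpow_nonneg (hℓ _).le _) hSg0,
      ← Real.rpow_mul (hℓ _).le, mul_one_div_cancel hP0.ne', Real.rpow_one]
  have hlow : 1 - ε ≤ Sg ^ (1 / P) := by
    calc 1 - ε = (1 - ε) ^ (1:ℝ) := (Real.rpow_one _).symm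
      _ ≤ (1 - ε) ^ (1 / P) := by
          refine Real.rpow_le_rpow_of_exponent_ge (by linarith) (by linarith) ?_
          rw [div_le_one hP0]; exact hP1.le
      _ ≤ Sg ^ (1 / P) := Real.rpow_le_rpow (by linarith) (by linarith [hy'.1]) (by positivity)
  have hupp : Sg ^ (1 / P) ≤ 1 + ε := by
    calc Sg ^ (1 / P) ≤ (1 + ε) ^ (1 / P) :=
          Real.rpow_le_rpow hSg0 (by linarith [hy'.2]) (by positivity)
      _ ≤ (1 + ε) ^ (1:ℝ) := by
          refine Real.rpow_le_rpow_of_exponent_le (by linarith) ?_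
          rw [div_le_one hP0]; exact hP1.le
      _ = 1 + ε := Real.rpow_one _
  rw [hnorm]
  have hS0 : 0 ≤ Sg ^ (1 / P) := Real.rpow_nonneg hSg0 _
  constructor
  · calc (1 - ε) ^ 2 * ‖x i - x j‖ = ((1 - ε) * ‖x i - x j‖) * (1 - ε) := by ring
      _ ≤ ℓ (i, j) * Sg ^ (1 / P) :=
          mul_le_mul hl1 hlow (by linarith) (hℓ _).le
  · have hkey : (1 + ε) * (1 + ε) ≤ D * (1 - ε) ^ 2 := by nlinarith
    calc ℓ (i, j) * Sg ^ (1 / P) ≤ ((1 + ε) * ‖x i - x j‖) * (1 + ε) :=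
          mul_le_mul hl2 hupp hS0 (by positivity)
      _ = ((1 + ε) * (1 + ε)) * ‖x i - x j‖ := by ring
      _ ≤ (D * (1 - ε) ^ 2) * ‖x i - x j‖ := by gcongr

end Crest.Agent.H27
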