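import Mathlib
import Crest.Agent.H27.Defs

/-! Row 232 (T3a): the potential operator. -/

set_option autoImplicit false

namespace Crest.Agent.H27

open scoped BigOperators
open Finset

namespace T3a

variable {n : ℕ} (ℓ ν : Fin n × Fin n → ℝ)

/-- gradient as a linear map -/
noncomputable def gradL : (Fin n → ℝ) →ₗ[ℝ] (Fin n × Fin n → ℝ) where
  toFun g := fun e => grad ℓ g e
  map_add' u v := by funext e; simp only [grad, Pi.add_apply]; ring
  map_smul' c v := by funext e; simp only [grad, Pi.smul_apply, smul_eq_mul, RingHom.id_apply]; ring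

/-- divergence as a linear map -/
noncomputable def divL : (Fin n × Fin n → ℝ) →ₗ[ℝ] (Fin n → ℝ) where
  toFun a := fun x => ∑ e, ν e * a e * grad ℓ (Pi.single x 1) e
  map_add' u v := by
    funext x
    simp only [Pi.add_apply]
    rw [← Finset.sum_add_distrib]
    apply Finset.sum_congr rfl; intro e _; ring
  map_smul' c v := by
    funext x
    simp only [Pi.smul_apply, smul_eq_mul, RingHom.id_apply]
    rw [Finset.mul_sum]
    apply Finset.sum_congr rfl; intro e _; ring

theorem grad_eq_sum (h : Fin n → ℝ) (e : Fin n × Fin n) :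
    grad ℓ h e = ∑ x, h x * grad ℓ (Pi.single x 1) e := by
  unfold grad
  have h1 : ∀ y : Fin n, h y = ∑ x, h x * (Pi.single x (1:ℝ) : Fin n → ℝ) y := by
    intro y
    rw [Finset.sum_eq_single y]
    · simp
    · intro x _ hxy; rw [Pi.single_eq_of_ne (Ne.symm hxy)]; simp
    · intro hh; exact absurd (Finset.mem_univ y) hh
  conv_lhs => rw [h1 e.1, h1 e.2]
  rw [← Finset.sum_sub_distrib, Finset.sum_div]
  apply Finset.sum_congr rfl; intro x _; ring

theorem pair_div (a : Fin n × Fin n → ℝ) (h : Fin n → ℝ) :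
    ∑ x, h x * divL ℓ ν a x = ∑ e, ν e * a e * grad ℓ h e := by
  have h1 : ∀ x, h x * divL ℓ ν a x = ∑ e, ν e * a e * (h x * grad ℓ (Pi.single x 1) e) := by
    intro x
    show h x * (∑ e, ν e * a e * grad ℓ (Pi.single x 1) e) = _
    rw [Finset.mul_sum]
    apply Finset.sum_congr rfl; intro e _; ring
  simp only [h1]
  rw [Finset.sum_comm]
  apply Finset.sum_congr rfl; intro e _
  rw [← Finset.mul_sum, ← grad_eq_sum]

/-- sum as a multiple of the constant vector -/
noncomputable def sumL (n : ℕ) : (Fin n → ℝ) →ₗ[ℝ] (Fin n → ℝ) where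
  toFun g := fun _ => ∑ x, g x
  map_add' u v := by funext x; simp only [Pi.add_apply, Finset.sum_add_distrib]
  map_smul' c v := by
    funext x
    simp only [Pi.smul_apply, smul_eq_mul, RingHom.id_apply, Finset.mul_sum]

noncomputable def TL : (Fin n → ℝ) →ₗ[ℝ] (Fin n → ℝ) :=
  divL ℓ ν ∘ₗ gradL ℓ + sumL n

theorem pair_T (g h : Fin n → ℝ) :
    ∑ x, h x * TL ℓ ν g x = ∑ e, ν e * grad ℓ g e * grad ℓ h e + (∑ x, h x) * ∑ x, g x := by
  have h1 : ∀ x, h x * TL ℓ ν g x = h x * divL ℓ ν (gradL ℓ g) x + h x * ∑ x, g x := by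
    intro x
    show h x * (divL ℓ ν (gradL ℓ g) x + ∑ x, g x) = _
    ring
  simp only [h1]
  rw [Finset.sum_add_distrib, pair_div, ← Finset.sum_mul]
  rfl

variable {ℓ ν}

theorem T_inj (hn : 0 < n) (hℓ : ∀ e, 0 < ℓ e) (hν : ∀ e, 0 < ν e) :
    Function.Injective (TL ℓ ν) := by
  rw [← LinearMap.ker_eq_bot, LinearMap.ker_eq_bot']
  intro g hg
  have h1 := pair_T ℓ ν g g
  rw [hg] at h1
  simp only [Pi.zero_apply, mul_zero, Finset.sum_const_zero] at h1
  have h2 : ∀ e ∈ (Finset.univ : Finset (Fin n × Fin n)), 0 ≤ ν e * grad ℓ g e * grad ℓ g e := by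
    intro e _
    rw [mul_assoc]
    exact mul_nonneg (hν e).le (mul_self_nonneg _)
  have h3 : 0 ≤ (∑ x, g x) * ∑ x, g x := mul_self_nonneg _
  have h4 : ∑ e, ν e * grad ℓ g e * grad ℓ g e = 0 := by
    have := Finset.sum_nonneg h2
    linarith
  have h5 : ∑ x, g x = 0 := by
    have : (∑ x, g x) * ∑ x, g x = 0 := by linarith
    exact mul_self_eq_zero.1 this
  rw [Finset.sum_eq_zero_iff_of_nonneg h2] at h4
  have h6 : ∀ x y, g x = g y := by
    intro x y
    have h7 := h4 (x, y) (Finset.mem_univ _)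
    rw [mul_assoc] at h7
    have h8 := (mul_eq_zero.1 h7).resolve_left (hν (x, y)).ne'
    have h9 := mul_self_eq_zero.1 h8
    unfold grad at h9
    rw [div_eq_zero_iff] at h9
    have := h9.resolve_right (hℓ (x, y)).ne'
    simpa [sub_eq_zero] using this
  funext x
  have h7 : ∑ y, g y = n * g x := by
    rw [Finset.sum_congr rfl (fun y _ => h6 y x)]
    simp
  rw [h7] at h5
  have hn' : (n:ℝ) ≠ 0 := by exact_mod_cast hn.ne'
  simpa [hn'] using h5

end T3a

open T3a in
theorem existsGLin : ExistsGLin := by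
  intro n hn ℓ ν hℓ hν
  have hnpos : 0 < n := by omega
  have hinj := T_inj hnpos hℓ hν
  set Te := LinearEquiv.ofInjectiveEndo (TL ℓ ν) hinj with hTe
  have hTeT : ∀ g, TL ℓ ν (Te.symm g) = g := fun g => by
    have := Te.apply_symm_apply g
    exact this
  refine ⟨Te.symm.toLinearMap ∘ₗ divL ℓ ν, ?_, ?_⟩
  · intro a h
    set g : Fin n → ℝ := (Te.symm.toLinearMap ∘ₗ divL ℓ ν) a with hg
    have hT : TL ℓ ν g = divL ℓ ν a := hTeT _
    have h1 : ∀ h : Fin n → ℝ, ∑ e, ν e * a e * grad ℓ h e =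
        ∑ e, ν e * grad ℓ g e * grad ℓ h e + (∑ x, h x) * ∑ x, g x := by
      intro h
      rw [← pair_T, hT, pair_div]
    have h2 := h1 (fun _ => 1)
    have h3 : ∀ e, grad ℓ (fun _ => (1:ℝ)) e = 0 := by intro e; unfold grad; simp
    simp only [h3, mul_zero, Finset.sum_const_zero, zero_add] at h2
    have h4 : ∑ x, g x = 0 := by
      have h5 : (∑ x : Fin n, (1:ℝ)) = n := by simp
      rw [h5] at h2
      have hn' : (n:ℝ) ≠ 0 := by exact_mod_cast hnpos.ne'
      exact (mul_eq_zero.1 h2.symm).resolve_left hn'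
    have h5 := h1 h
    rw [h4, mul_zero, add_zero] at h5
    exact h5.symm
  · intro g x y
    set c : ℝ := (∑ x, g x) / n with hc
    have hn' : (n:ℝ) ≠ 0 := by exact_mod_cast hnpos.ne'
    have h1 : TL ℓ ν (fun x => g x - c) = divL ℓ ν (grad ℓ g) := by
      funext x
      show divL ℓ ν (gradL ℓ (fun x => g x - c)) x + ∑ x, (g x - c) = _
      have h2 : gradL ℓ (fun x => g x - c) = grad ℓ g := by
        funext e
        show grad ℓ (fun x => g x - c) e = grad ℓ g e
        unfold grad; ring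
      have h3 : ∑ x, (g x - c) = 0 := by
        rw [Finset.sum_sub_distrib]
        simp only [Finset.sum_const, Finset.card_univ, Fintype.card_fin, nsmul_eq_mul]
        rw [hc]; field_simp; ring
      rw [h2, h3, add_zero]
    have h2 : (Te.symm.toLinearMap ∘ₗ divL ℓ ν) (grad ℓ g) = fun x => g x - c := by
      apply hinj
      rw [h1]
      exact hTeT _
    rw [h2]; ring

end Crest.Agent.H27
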