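import Mathlib
import Crest.Agent.H27.Defs

/-! Row 232 (T3b): the average `ℓ¹` localization of electrical potentials (entropy argument). -/

set_option autoImplicit false

namespace Crest.Agent.H27

open scoped BigOperators
open Finset Matrix

namespace T3b

/-- scalar entropy inequality -/
theorem sqrt_sub_sq_le {a b : ℝ} (ha : 0 ≤ a) (hb : 0 < b) :
    (Real.sqrt a - Real.sqrt b) ^ 2 ≤ a * Real.log a - a * Real.log b - a + b := by
  rcases ha.eq_or_lt with h | h
  · subst h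
    simp [Real.sq_sqrt hb.le]
  · have h1 : Real.log (Real.sqrt (b / a)) ≤ Real.sqrt (b / a) - 1 :=
      Real.log_le_sub_one_of_pos (Real.sqrt_pos.2 (div_pos hb h))
    rw [Real.log_sqrt (div_pos hb h).le, Real.log_div hb.ne' h.ne'] at h1
    have h2 : a * Real.sqrt (b / a) = Real.sqrt a * Real.sqrt b := by
      rw [Real.sqrt_div hb.le]
      have h3 : a = Real.sqrt a * Real.sqrt a := (Real.mul_self_sqrt ha).symm
      have h4 : Real.sqrt a ≠ 0 := (Real.sqrt_pos.2 h).ne'
      calc a * (Real.sqrt b / Real.sqrt a) = (Real.sqrt a * Real.sqrt a) * (Real.sqrt b / Real.sqrt a) := by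
            rw [← h3]
        _ = Real.sqrt a * Real.sqrt b := by field_simp
    have h5 : (Real.sqrt a - Real.sqrt b) ^ 2 = a + b - 2 * (Real.sqrt a * Real.sqrt b) := by
      rw [sub_sq, Real.sq_sqrt ha, Real.sq_sqrt hb.le]; ring
    rw [h5, ← h2]
    nlinarith

section Markov

variable {n : ℕ} (m : Fin n → ℝ) (q : Fin n → Fin n → ℝ) (δ : ℝ)

/-- transition matrix -/
noncomputable def PM : Matrix (Fin n) (Fin n) ℝ := fun x y =>
  (if x = y then 1 - δ * (∑ z, q x z) / m x else 0) + δ / m x * q x y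

structure Hyp : Prop where
  mpos : ∀ x, 0 < m x
  msum : ∑ x, m x = 1
  qsymm : ∀ x y, q x y = q y x
  qpos : ∀ x y, 0 < q x y
  δpos : 0 < δ
  small : ∀ x, δ * (∑ z, q x z) ≤ m x

variable {m q δ}

namespace Hyp

variable (H : Hyp m q δ)

include H

theorem P_pos (x y : Fin n) : 0 < PM m q δ x y := by
  unfold PM
  have h1 := H.mpos x
  have h2 : 0 < δ / m x * q x y := mul_pos (div_pos H.δpos h1) (H.qpos x y)
  split_ifs
  · have : δ * (∑ z, q x z) / m x ≤ 1 := by
      rw [div_le_one h1]; exact H.small x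
    linarith
  · linarith

theorem P_row (x : Fin n) : ∑ y, PM m q δ x y = 1 := by
  unfold PM
  rw [Finset.sum_add_distrib, Finset.sum_ite_eq univ x, if_pos (Finset.mem_univ x),
    ← Finset.mul_sum]
  have h1 := (H.mpos x).ne'
  field_simp
  ring

theorem P_rev (x y : Fin n) : m x * PM m q δ x y = m y * PM m q δ y x := by
  have h1 := (H.mpos x).ne'
  have h2 := (H.mpos y).ne'
  unfold PM
  by_cases h : x = y
  · subst h; rfl
  · rw [if_neg h, if_neg (Ne.symm h), H.qsymm y x]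
    field_simp
    ring

theorem P_ge (x y : Fin n) : δ * q x y ≤ m x * PM m q δ x y := by
  have h1 := H.mpos x
  unfold PM
  have h2 : δ * (∑ z, q x z) / m x ≤ 1 := by
    rw [div_le_one h1]; exact H.small x
  have h3 : m x * (δ / m x * q x y) = δ * q x y := by field_simp
  rw [mul_add, h3]
  split_ifs
  · have : 0 ≤ m x * (1 - δ * (∑ z, q x z) / m x) := mul_nonneg h1.le (by linarith)
    linarith
  · simp

theorem Pk_row (k : ℕ) (x : Fin n) : ∑ y, (PM m q δ ^ k) x y = 1 := by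
  induction k generalizing x with
  | zero => simp [Matrix.one_apply]
  | succ k ih =>
    rw [pow_succ']
    simp only [Matrix.mul_apply]
    rw [Finset.sum_comm]
    simp only [← Finset.mul_sum, ih, mul_one]
    exact H.P_row x

theorem Pk_nonneg (k : ℕ) (x y : Fin n) : 0 ≤ (PM m q δ ^ k) x y := by
  induction k generalizing x y with
  | zero => simp only [pow_zero, Matrix.one_apply]; split_ifs <;> norm_num
  | succ k ih =>
    rw [pow_succ']
    simp only [Matrix.mul_apply]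
    exact Finset.sum_nonneg fun z _ => mul_nonneg (H.P_pos x z).le (ih z y)

theorem Pk_rev (k : ℕ) (x y : Fin n) : m x * (PM m q δ ^ k) x y = m y * (PM m q δ ^ k) y x := by
  induction k generalizing x y with
  | zero =>
    simp only [pow_zero, Matrix.one_apply]
    by_cases h : x = y
    · subst h; rfl
    · rw [if_neg h, if_neg (Ne.symm h)]; simp
  | succ k ih =>
    rw [pow_succ']
    conv_rhs => rw [← pow_succ', pow_succ]
    simp only [Matrix.mul_apply]
    rw [Finset.mul_sum, Finset.mul_sum]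
    apply Finset.sum_congr rfl
    intro z _
    have h1 := H.P_rev x z
    have h2 := ih z y
    calc m x * (PM m q δ x z * (PM m q δ ^ k) z y) = (m x * PM m q δ x z) * (PM m q δ ^ k) z y := by ring
      _ = PM m q δ z x * (m z * (PM m q δ ^ k) z y) := by rw [h1]; ring
      _ = m y * ((PM m q δ ^ k) y z * PM m q δ z x) := by rw [h2]; ring

theorem Pk_col (k : ℕ) (y : Fin n) : ∑ x, m x * (PM m q δ ^ k) x y = m y := by
  simp only [H.Pk_rev k _ y]
  rw [← Finset.mul_sum, H.Pk_row, mul_one]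

/-- sup norm contraction -/
theorem sup_contr (k : ℕ) {u : Fin n → ℝ} {C : ℝ} (hu : ∀ x, |u x| ≤ C) (x : Fin n) :
    |((PM m q δ ^ k) *ᵥ u) x| ≤ C := by
  unfold Matrix.mulVec dotProduct
  calc |∑ y, (PM m q δ ^ k) x y * u y| ≤ ∑ y, |(PM m q δ ^ k) x y * u y| :=
        Finset.abs_sum_le_sum_abs _ _
    _ ≤ ∑ y, (PM m q δ ^ k) x y * C := by
        apply Finset.sum_le_sum
        intro y _
        rw [abs_mul, abs_of_nonneg (H.Pk_nonneg k x y)]
        exact mul_le_mul_of_nonneg_left (hu y) (H.Pk_nonneg k x y)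
    _ = C := by rw [← Finset.sum_mul, H.Pk_row, one_mul]

/-- oscillation contraction -/
theorem osc_step {c₀ : ℝ} (hc : ∀ x y, c₀ ≤ PM m q δ x y) {u : Fin n → ℝ} {D : ℝ} (hD : 0 ≤ D)
    (hu : ∀ x y, u x - u y ≤ D) (x x' : Fin n) :
    (PM m q δ *ᵥ u) x - (PM m q δ *ᵥ u) x' ≤ (1 - c₀) * D := by
  unfold Matrix.mulVec dotProduct
  set P := PM m q δ
  have h1 : ∑ y, P x y * u y - ∑ y, P x' y * u y =
      ∑ y, ∑ y', P x y * P x' y' * (u y - u y') := by
    have e1 : ∑ y, P x y * u y = ∑ y, ∑ y', P x y * P x' y' * u y := by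
      apply Finset.sum_congr rfl
      intro y _
      have : ∑ y', P x y * P x' y' * u y = P x y * u y * ∑ y', P x' y' := by
        rw [Finset.mul_sum]; apply Finset.sum_congr rfl; intro y' _; ring
      rw [this, H.P_row, mul_one]
    have e2 : ∑ y', P x' y' * u y' = ∑ y, ∑ y', P x y * P x' y' * u y' := by
      rw [Finset.sum_comm]
      apply Finset.sum_congr rfl
      intro y' _
      have : ∑ y, P x y * P x' y' * u y' = P x' y' * u y' * ∑ y, P x y := by
        rw [Finset.mul_sum]; apply Finset.sum_congr rfl; intro y _; ring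
      rw [this, H.P_row, mul_one]
    rw [e1, e2, ← Finset.sum_sub_distrib]
    apply Finset.sum_congr rfl
    intro y _
    rw [← Finset.sum_sub_distrib]
    apply Finset.sum_congr rfl
    intro y' _
    ring
  rw [h1]
  calc ∑ y, ∑ y', P x y * P x' y' * (u y - u y')
      ≤ ∑ y, ∑ y', P x y * P x' y' * (D * (1 - if y = y' then 1 else 0)) := by
        apply Finset.sum_le_sum; intro y _
        apply Finset.sum_le_sum; intro y' _
        apply mul_le_mul_of_nonneg_left _ (mul_nonneg (H.P_pos x y).le (H.P_pos x' y').le)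
        split_ifs with h
        · subst h; simp
        · simpa using hu y y'
    _ = D * (1 - ∑ y, P x y * P x' y) := by
        have e3 : ∀ y, ∑ y', P x y * P x' y' * (D * (1 - if y = y' then 1 else 0)) =
            D * P x y - D * (P x y * P x' y) := by
          intro y
          have : ∀ y', P x y * P x' y' * (D * (1 - if y = y' then 1 else 0)) =
              D * P x y * P x' y' - (if y = y' then D * (P x y * P x' y') else 0) := by
            intro y'; split_ifs <;> ring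
          simp only [this]
          rw [Finset.sum_sub_distrib, ← Finset.mul_sum, H.P_row, mul_one,
            Finset.sum_ite_eq univ y, if_pos (Finset.mem_univ y)]
        simp only [e3]
        rw [Finset.sum_sub_distrib, ← Finset.mul_sum, ← Finset.mul_sum, H.P_row]
        ring
    _ ≤ D * (1 - c₀) := by
        apply mul_le_mul_of_nonneg_left _ hD
        have : c₀ ≤ ∑ y, P x y * P x' y := by
          calc c₀ = ∑ y, P x y * c₀ := by rw [← Finset.sum_mul, H.P_row, one_mul]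
            _ ≤ _ := Finset.sum_le_sum fun y _ =>
                mul_le_mul_of_nonneg_left (hc x' y) (H.P_pos x y).le
        linarith
    _ = (1 - c₀) * D := by ring

theorem osc_pow {c₀ : ℝ} (hc : ∀ x y, c₀ ≤ PM m q δ x y) (hc1 : c₀ ≤ 1) {u : Fin n → ℝ} {D : ℝ}
    (hD : 0 ≤ D) (hu : ∀ x y, u x - u y ≤ D) (k : ℕ) (x x' : Fin n) :
    ((PM m q δ ^ k) *ᵥ u) x - ((PM m q δ ^ k) *ᵥ u) x' ≤ (1 - c₀) ^ k * D := by
  induction k generalizing x x' with
  | zero => simpa using hu x x'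
  | succ k ih =>
    have h1 : 0 ≤ (1 - c₀) ^ k * D := mul_nonneg (pow_nonneg (by linarith) k) hD
    have h2 := H.osc_step hc h1 ih x x'
    rw [Matrix.mulVec_mulVec, ← pow_succ'] at h2
    calc _ ≤ (1 - c₀) * ((1 - c₀) ^ k * D) := h2
      _ = _ := by rw [pow_succ]; ring

/-- entropy dissipation -/
theorem ent_diss {u : Fin n → ℝ} (hu : ∀ x, 0 ≤ u x) (hu1 : ∑ x, m x * u x = 1) :
    δ * ∑ x, ∑ y, q x y * (Real.sqrt (u y) - Real.sqrt ((PM m q δ *ᵥ u) x)) ^ 2 ≤
      ∑ x, m x * (u x * Real.log (u x)) -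
        ∑ x, m x * ((PM m q δ *ᵥ u) x * Real.log ((PM m q δ *ᵥ u) x)) := by
  set P := PM m q δ with hP
  set v := P *ᵥ u with hv
  have hvx : ∀ x, v x = ∑ y, P x y * u y := fun x => rfl
  have hvpos : ∀ x, 0 < v x := by
    intro x
    rw [hvx]
    obtain ⟨y, hy⟩ : ∃ y, 0 < u y := by
      by_contra hcon
      push Not at hcon
      have : ∑ x, m x * u x = 0 := by
        apply Finset.sum_eq_zero
        intro y _
        rw [le_antisymm (hcon y) (hu y), mul_zero]
      rw [this] at hu1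
      exact zero_ne_one hu1
    exact Finset.sum_pos' (fun y _ => mul_nonneg (H.P_pos x y).le (hu y))
      ⟨y, Finset.mem_univ y, mul_pos (H.P_pos x y) hy⟩
  have hcol : ∀ y, ∑ x, m x * P x y = m y := by
    intro y
    have := H.Pk_col 1 y
    simpa using this
  have e1 : ∑ x, m x * (u x * Real.log (u x)) =
      ∑ x, ∑ y, m x * P x y * (u y * Real.log (u y)) := by
    rw [Finset.sum_comm]
    apply Finset.sum_congr rfl
    intro y _
    rw [← Finset.sum_mul, hcol]
  have e2 : ∑ x, m x * (v x * Real.log (v x)) =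
      ∑ x, ∑ y, m x * P x y * (u y * Real.log (v x)) := by
    apply Finset.sum_congr rfl
    intro x _
    have : ∑ y, m x * P x y * (u y * Real.log (v x)) = m x * ((∑ y, P x y * u y) * Real.log (v x)) := by
      rw [Finset.sum_mul, Finset.mul_sum]
      apply Finset.sum_congr rfl; intro y _; ring
    rw [this, ← hvx]
  have e3 : ∑ x, ∑ y, m x * P x y * (v x - u y) = 0 := by
    have a1 : ∑ x, ∑ y, m x * P x y * (v x - u y) =
        ∑ x, ∑ y, m x * P x y * v x - ∑ x, ∑ y, m x * P x y * u y := by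
      rw [← Finset.sum_sub_distrib]
      apply Finset.sum_congr rfl; intro x _
      rw [← Finset.sum_sub_distrib]
      apply Finset.sum_congr rfl; intro y _; ring
    have a2 : ∑ x, ∑ y, m x * P x y * v x = ∑ x, m x * v x := by
      apply Finset.sum_congr rfl; intro x _
      have : ∑ y, m x * P x y * v x = m x * v x * ∑ y, P x y := by
        rw [Finset.mul_sum]; apply Finset.sum_congr rfl; intro y _; ring
      rw [this, H.P_row, mul_one]
    have a3 : ∑ x, ∑ y, m x * P x y * u y = ∑ x, m x * v x := by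
      apply Finset.sum_congr rfl; intro x _
      rw [hvx, Finset.mul_sum]
      apply Finset.sum_congr rfl; intro y _; ring
    rw [a1, a2, a3, sub_self]
  have e4 : ∑ x, m x * (u x * Real.log (u x)) - ∑ x, m x * (v x * Real.log (v x)) =
      ∑ x, ∑ y, m x * P x y *
        (u y * Real.log (u y) - u y * Real.log (v x) - u y + v x) := by
    rw [e1, e2, ← add_zero (∑ x, ∑ y, m x * P x y * (u y * Real.log (u y)) -
      ∑ x, ∑ y, m x * P x y * (u y * Real.log (v x))), ← e3, ← Finset.sum_sub_distrib,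
      ← Finset.sum_add_distrib]
    apply Finset.sum_congr rfl; intro x _
    rw [← Finset.sum_sub_distrib, ← Finset.sum_add_distrib]
    apply Finset.sum_congr rfl; intro y _; ring
  rw [e4, Finset.mul_sum]
  apply Finset.sum_le_sum; intro x _
  rw [Finset.mul_sum]
  apply Finset.sum_le_sum; intro y _
  have h1 := sqrt_sub_sq_le (hu y) (hvpos x)
  have h2 := H.P_ge x y
  have h3 := sq_nonneg (Real.sqrt (u y) - Real.sqrt (v x))
  calc δ * (q x y * (Real.sqrt (u y) - Real.sqrt (v x)) ^ 2)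
      = (δ * q x y) * (Real.sqrt (u y) - Real.sqrt (v x)) ^ 2 := by ring
    _ ≤ (m x * P x y) * (Real.sqrt (u y) - Real.sqrt (v x)) ^ 2 := mul_le_mul_of_nonneg_right h2 h3
    _ ≤ _ := mul_le_mul_of_nonneg_left h1 (mul_nonneg (H.mpos x).le (H.P_pos x y).le)

theorem ent_nonneg {u : Fin n → ℝ} (hu : ∀ x, 0 ≤ u x) (hu1 : ∑ x, m x * u x = 1) :
    0 ≤ ∑ x, m x * (u x * Real.log (u x)) := by
  have h1 : ∑ x, m x * (u x - 1) = 0 := by
    simp only [mul_sub, mul_one]
    rw [Finset.sum_sub_distrib, hu1, H.msum, sub_self]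
  rw [← h1]
  apply Finset.sum_le_sum; intro x _
  apply mul_le_mul_of_nonneg_left _ (H.mpos x).le
  rcases (hu x).eq_or_lt with h | h
  · rw [← h]; norm_num
  · have h2 := Real.log_le_sub_one_of_pos (inv_pos.2 h)
    rw [Real.log_inv] at h2
    have h3 : u x * (u x)⁻¹ = 1 := mul_inv_cancel₀ h.ne'
    nlinarith

/-- entropy of the reference measure -/
theorem ent_zero_le (hn : 0 < n) : ∑ y, m y * Real.log (1 / m y) ≤ Real.log n := by
  have hn' : (0:ℝ) < n := by exact_mod_cast hn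
  have h1 : ∑ y, m y * Real.log (1 / m y) - Real.log n = ∑ y, m y * Real.log (1 / (n * m y)) := by
    have : Real.log n = ∑ y, m y * Real.log n := by rw [← Finset.sum_mul, H.msum, one_mul]
    rw [this, ← Finset.sum_sub_distrib]
    apply Finset.sum_congr rfl; intro y _
    have hy := H.mpos y
    rw [Real.log_div one_ne_zero hy.ne', Real.log_div one_ne_zero (mul_pos hn' hy).ne',
      Real.log_mul hn'.ne' hy.ne']
    ring
  have h2 : ∑ y, m y * Real.log (1 / (n * m y)) ≤ ∑ y : Fin n, (1 / (n:ℝ) - m y) := by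
    apply Finset.sum_le_sum; intro y _
    have hy := H.mpos y
    have h3 := Real.log_le_sub_one_of_pos (show (0:ℝ) < 1 / (n * m y) by positivity)
    calc m y * Real.log (1 / (n * m y)) ≤ m y * (1 / (n * m y) - 1) :=
          mul_le_mul_of_nonneg_left h3 hy.le
      _ = 1 / n - m y := by field_simp
  have h3 : ∑ y : Fin n, (1 / (n:ℝ) - m y) = 0 := by
    rw [Finset.sum_sub_distrib, H.msum]
    simp
    field_simp
    simp
  linarith

/-- kernel symmetry of `S_a = P^a + P^(a+1)` -/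
theorem S_rev (a : ℕ) (x y : Fin n) :
    m x * (PM m q δ ^ a + PM m q δ ^ (a + 1)) x y =
      m y * (PM m q δ ^ a + PM m q δ ^ (a + 1)) y x := by
  simp only [Matrix.add_apply, mul_add]
  rw [H.Pk_rev a x y, H.Pk_rev (a + 1) x y]

end Hyp

/-- algebraic identity -/
theorem two_sum_pow (P : Matrix (Fin n) (Fin n) ℝ) (N : ℕ) :
    (2:ℝ) • ∑ k ∈ range (2 * N), P ^ k =
      1 - P ^ (2 * N) + ∑ a ∈ range N, (P ^ a + P ^ (a + 1)) * (P ^ a + P ^ (a + 1)) := by
  induction N with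
  | zero => simp
  | succ N ih =>
    rw [show 2 * (N + 1) = 2 * N + 1 + 1 by ring, Finset.sum_range_succ, Finset.sum_range_succ,
      smul_add, smul_add, ih, Finset.sum_range_succ, mul_add, add_mul, add_mul,
      ← pow_add, ← pow_add, ← pow_add, ← pow_add]
    have e1 : N + N = 2 * N := by ring
    have e2 : N + 1 + N = 2 * N + 1 := by ring
    have e3 : N + (N + 1) = 2 * N + 1 := by ring
    have e4 : N + 1 + (N + 1) = 2 * N + 1 + 1 := by ring
    rw [e1, e2, e3, e4, two_smul, two_smul]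
    abel

/-- gradient-type functional, abstract Cauchy-Schwarz -/
theorem D_sq_le (H : Hyp m q δ) {r s : Fin n → Fin n → ℝ} (hr : ∀ x y, 0 ≤ r x y)
    (hs : ∀ x y, 0 ≤ s x y) (hrs : ∀ x y, (r x y) ^ 2 ≤ q x y * s x y)
    (hs1 : ∀ y, ∑ x, s x y = 2 * m y) (hs2 : ∀ x, ∑ y, s x y = 2 * m x)
    {u : Fin n → ℝ} (hu : ∀ x, 0 ≤ u x) (hu1 : ∑ x, m x * u x = 1)
    (hPu1 : ∑ x, m x * (PM m q δ *ᵥ u) x = 1) (hPu : ∀ x, 0 ≤ (PM m q δ *ᵥ u) x) :
    (∑ x, ∑ y, r x y * |u y - (PM m q δ *ᵥ u) x|) ^ 2 ≤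
      8 * (∑ x, ∑ y, q x y * (Real.sqrt (u y) - Real.sqrt ((PM m q δ *ᵥ u) x)) ^ 2) := by
  set v := PM m q δ *ᵥ u with hv
  have e1 : ∀ x y, r x y * |u y - v x| ≤
      (Real.sqrt (q x y) * |Real.sqrt (u y) - Real.sqrt (v x)|) *
        (Real.sqrt (s x y) * (Real.sqrt (u y) + Real.sqrt (v x))) := by
    intro x y
    have h1 : |u y - v x| = |Real.sqrt (u y) - Real.sqrt (v x)| *
        (Real.sqrt (u y) + Real.sqrt (v x)) := by
      have h2 : 0 ≤ Real.sqrt (u y) + Real.sqrt (v x) := by positivity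
      rw [← abs_of_nonneg h2, ← abs_mul]
      congr 1
      have a1 := Real.mul_self_sqrt (hu y)
      have a2 := Real.mul_self_sqrt (hPu x)
      nlinarith
    have h3 : r x y ≤ Real.sqrt (q x y) * Real.sqrt (s x y) := by
      rw [← Real.sqrt_mul (H.qpos x y).le]
      exact Real.le_sqrt_of_sq_le (hrs x y)
    rw [h1]
    calc r x y * (|Real.sqrt (u y) - Real.sqrt (v x)| * (Real.sqrt (u y) + Real.sqrt (v x)))
        ≤ (Real.sqrt (q x y) * Real.sqrt (s x y)) *
          (|Real.sqrt (u y) - Real.sqrt (v x)| * (Real.sqrt (u y) + Real.sqrt (v x))) :=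
          mul_le_mul_of_nonneg_right h3 (by positivity)
      _ = _ := by ring
  have h0 : 0 ≤ ∑ x, ∑ y, r x y * |u y - v x| :=
    Finset.sum_nonneg fun x _ => Finset.sum_nonneg fun y _ => mul_nonneg (hr x y) (abs_nonneg _)
  have h1 : ∑ x, ∑ y, r x y * |u y - v x| ≤
      ∑ z : Fin n × Fin n, (Real.sqrt (q z.1 z.2) * |Real.sqrt (u z.2) - Real.sqrt (v z.1)|) *
        (Real.sqrt (s z.1 z.2) * (Real.sqrt (u z.2) + Real.sqrt (v z.1))) := by
    rw [Fintype.sum_prod_type]
    exact Finset.sum_le_sum fun x _ => Finset.sum_le_sum fun y _ => e1 x y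
  have h2 := Finset.sum_mul_sq_le_sq_mul_sq (Finset.univ : Finset (Fin n × Fin n))
    (fun z => Real.sqrt (q z.1 z.2) * |Real.sqrt (u z.2) - Real.sqrt (v z.1)|)
    (fun z => Real.sqrt (s z.1 z.2) * (Real.sqrt (u z.2) + Real.sqrt (v z.1)))
  have h3 : ∑ z : Fin n × Fin n, (Real.sqrt (q z.1 z.2) * |Real.sqrt (u z.2) - Real.sqrt (v z.1)|) ^ 2 =
      ∑ x, ∑ y, q x y * (Real.sqrt (u y) - Real.sqrt (v x)) ^ 2 := by
    rw [Fintype.sum_prod_type]
    apply Finset.sum_congr rfl; intro x _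
    apply Finset.sum_congr rfl; intro y _
    rw [mul_pow, Real.sq_sqrt (H.qpos x y).le, sq_abs]
  have h4 : ∑ z : Fin n × Fin n, (Real.sqrt (s z.1 z.2) *
      (Real.sqrt (u z.2) + Real.sqrt (v z.1))) ^ 2 ≤ 8 := by
    rw [Fintype.sum_prod_type]
    calc ∑ x, ∑ y, (Real.sqrt (s x y) * (Real.sqrt (u y) + Real.sqrt (v x))) ^ 2
        ≤ ∑ x, ∑ y, (2 * (s x y * u y) + 2 * (s x y * v x)) := by
          apply Finset.sum_le_sum; intro x _
          apply Finset.sum_le_sum; intro y _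
          rw [mul_pow, Real.sq_sqrt (hs x y)]
          have a1 := Real.sq_sqrt (hu y)
          have a2 := Real.sq_sqrt (hPu x)
          have a3 : (Real.sqrt (u y) + Real.sqrt (v x)) ^ 2 ≤ 2 * u y + 2 * v x := by
            nlinarith [sq_nonneg (Real.sqrt (u y) - Real.sqrt (v x))]
          calc s x y * (Real.sqrt (u y) + Real.sqrt (v x)) ^ 2 ≤ s x y * (2 * u y + 2 * v x) :=
                mul_le_mul_of_nonneg_left a3 (hs x y)
            _ = _ := by ring
      _ = 8 := by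
          have b1 : ∑ x, ∑ y, (2 * (s x y * u y) + 2 * (s x y * v x)) =
              2 * (∑ x, ∑ y, s x y * u y) + 2 * (∑ x, ∑ y, s x y * v x) := by
            simp only [Finset.mul_sum, Finset.sum_add_distrib]
          have b2 : ∑ x, ∑ y, s x y * u y = 2 := by
            rw [Finset.sum_comm]
            simp only [← Finset.sum_mul, hs1]
            have : ∀ y, 2 * m y * u y = 2 * (m y * u y) := fun y => by ring
            simp only [this]
            rw [← Finset.mul_sum, hu1]; ring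
          have b3 : ∑ x, ∑ y, s x y * v x = 2 := by
            simp only [← Finset.sum_mul, hs2]
            have : ∀ y, 2 * m y * v y = 2 * (m y * v y) := fun y => by ring
            simp only [this]
            rw [← Finset.mul_sum, hPu1]; ring
          rw [b1, b2, b3]; norm_num
  have h5 : 0 ≤ ∑ x, ∑ y, q x y * (Real.sqrt (u y) - Real.sqrt (v x)) ^ 2 :=
    Finset.sum_nonneg fun x _ => Finset.sum_nonneg fun y _ =>
      mul_nonneg (H.qpos x y).le (sq_nonneg _)
  calc (∑ x, ∑ y, r x y * |u y - v x|) ^ 2 ≤ _ := pow_le_pow_left₀ h0 h1 2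
    _ ≤ _ := h2
    _ ≤ (∑ x, ∑ y, q x y * (Real.sqrt (u y) - Real.sqrt (v x)) ^ 2) * 8 := by
        rw [h3]
        exact mul_le_mul_of_nonneg_left h4 h5
    _ = _ := by ring

end Markov

section Main

variable {n : ℕ} (ℓ ν : Fin n × Fin n → ℝ)

noncomputable def cc (x y : Fin n) : ℝ := ν (x, y) / (ℓ (x, y)) ^ 2

noncomputable def qf (x y : Fin n) : ℝ := cc ℓ ν x y + cc ℓ ν y x

noncomputable def sf (x y : Fin n) : ℝ := ν (x, y) + ν (y, x)

noncomputable def rf (x y : Fin n) : ℝ := ν (x, y) / ℓ (x, y) + ν (y, x) / ℓ (y, x)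

noncomputable def mf (x : Fin n) : ℝ := (1 / 2) * ∑ y, sf ν x y

/-- the gradient functional -/
noncomputable def Df (v : Fin n → ℝ) : ℝ := ∑ e, ν e * |grad ℓ v e|

/-- the divergence density -/
noncomputable def bf (f : Fin n × Fin n) (x : Fin n) : ℝ :=
  (ν f / ℓ f) * ((if x = f.1 then 1 else 0) - (if x = f.2 then 1 else 0))

variable {ℓ ν} (hℓ : ∀ e, 0 < ℓ e) (hν : ∀ e, 0 < ν e)

include hℓ hν

theorem cc_pos (x y : Fin n) : 0 < cc ℓ ν x y := div_pos (hν _) (pow_pos (hℓ _) 2)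

theorem qf_pos (x y : Fin n) : 0 < qf ℓ ν x y := add_pos (cc_pos hℓ hν x y) (cc_pos hℓ hν y x)

omit hℓ hν in
theorem qf_symm (x y : Fin n) : qf ℓ ν x y = qf ℓ ν y x := by unfold qf; ring

omit hℓ hν in
theorem sf_symm (x y : Fin n) : sf ν x y = sf ν y x := by unfold sf; ring

omit hℓ in
theorem sf_pos (x y : Fin n) : 0 < sf ν x y := add_pos (hν _) (hν _)

theorem rf_nonneg (x y : Fin n) : 0 ≤ rf ℓ ν x y :=
  add_nonneg (div_nonneg (hν _).le (hℓ _).le) (div_nonneg (hν _).le (hℓ _).le)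

theorem rf_sq_le (x y : Fin n) : (rf ℓ ν x y) ^ 2 ≤ qf ℓ ν x y * sf ν x y := by
  unfold rf qf sf cc
  have a := hν (x, y)
  have b := hν (y, x)
  have c := hℓ (x, y)
  have d := hℓ (y, x)
  set A := ν (x, y)
  set B := ν (y, x)
  set C := ℓ (x, y)
  set D := ℓ (y, x)
  have h : (A / C ^ 2 + B / D ^ 2) * (A + B) - (A / C + B / D) ^ 2 = A * B * (1 / C - 1 / D) ^ 2 := by
    field_simp
    ring
  have h2 : 0 ≤ A * B * (1 / C - 1 / D) ^ 2 := by positivity
  linarith

omit hℓ hν in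
theorem sum_sf (y : Fin n) : ∑ x, sf ν x y = 2 * mf ν y := by
  unfold mf
  rw [← mul_assoc]
  norm_num
  exact Finset.sum_congr rfl fun x _ => sf_symm x y

omit hℓ hν in
theorem sum_sf' (x : Fin n) : ∑ y, sf ν x y = 2 * mf ν x := by
  unfold mf
  rw [← mul_assoc]
  norm_num

omit hℓ in
theorem mf_pos (x : Fin n) : 0 < mf ν x := by
  unfold mf
  apply mul_pos (by norm_num)
  exact Finset.sum_pos (fun y _ => sf_pos hν x y) ⟨x, Finset.mem_univ x⟩

omit hℓ hν in
theorem mf_sum (h1 : ∑ e, ν e = 1) : ∑ x, mf ν x = 1 := by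
  unfold mf sf
  rw [← Finset.mul_sum]
  simp only [Finset.sum_add_distrib]
  have e1 : ∑ x, ∑ y, ν (x, y) = 1 := by rw [← Fintype.sum_prod_type]; exact h1
  have e2 : ∑ x, ∑ y, ν (y, x) = 1 := by rw [Finset.sum_comm]; exact e1
  rw [e1, e2]; norm_num

theorem Df_eq (v : Fin n → ℝ) : Df ℓ ν v = ∑ x, ∑ y, ν (x, y) / ℓ (x, y) * |v x - v y| := by
  unfold Df grad
  rw [Fintype.sum_prod_type]
  apply Finset.sum_congr rfl; intro x _
  apply Finset.sum_congr rfl; intro y _
  rw [abs_div, abs_of_pos (hℓ _)]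
  ring

theorem Df_add_le (u v : Fin n → ℝ) :
    Df ℓ ν (u + v) ≤ ∑ x, ∑ y, rf ℓ ν x y * |u y - v x| := by
  rw [Df_eq hℓ hν]
  have e1 : ∑ x, ∑ y, rf ℓ ν x y * |u y - v x| =
      ∑ x, ∑ y, ν (x, y) / ℓ (x, y) * |u y - v x| +
        ∑ x, ∑ y, ν (x, y) / ℓ (x, y) * |u x - v y| := by
    unfold rf
    simp only [add_mul, Finset.sum_add_distrib]
    congr 1
    rw [Finset.sum_comm]
  rw [e1, ← Finset.sum_add_distrib]
  apply Finset.sum_le_sum; intro x _
  rw [← Finset.sum_add_distrib]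
  apply Finset.sum_le_sum; intro y _
  rw [← mul_add]
  apply mul_le_mul_of_nonneg_left _ (div_nonneg (hν _).le (hℓ _).le)
  have h : (u + v) x - (u + v) y = (u x - v y) - (u y - v x) := by
    simp only [Pi.add_apply]; ring
  rw [h]
  have := abs_sub (u x - v y) (u y - v x)
  linarith

omit hν in
theorem abs_grad_le {v : Fin n → ℝ} {D : ℝ} (hv : ∀ x y, v x - v y ≤ D) (e : Fin n × Fin n) :
    |grad ℓ v e| ≤ D / ℓ e := by
  unfold grad
  rw [abs_div, abs_of_pos (hℓ e)]
  apply div_le_div_of_nonneg_right _ (hℓ e).le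
  rw [abs_le]
  have h1 := hv e.1 e.2
  have h2 := hv e.2 e.1
  constructor <;> linarith

omit hℓ hν in
theorem grad_add (u v : Fin n → ℝ) (e : Fin n × Fin n) :
    grad ℓ (u + v) e = grad ℓ u e + grad ℓ v e := by
  unfold grad; simp only [Pi.add_apply]; ring

omit hℓ hν in
theorem grad_smul (c : ℝ) (v : Fin n → ℝ) (e : Fin n × Fin n) :
    grad ℓ (c • v) e = c * grad ℓ v e := by
  unfold grad; simp only [Pi.smul_apply, smul_eq_mul]; ring

omit hℓ hν in
theorem grad_sum {ι : Type*} (s : Finset ι) (v : ι → Fin n → ℝ) (e : Fin n × Fin n) :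
    grad ℓ (fun x => ∑ i ∈ s, v i x) e = ∑ i ∈ s, grad ℓ (v i) e := by
  unfold grad
  rw [← Finset.sum_sub_distrib, Finset.sum_div]

/-- the hypothesis on the potentials in local form -/
theorem local_eq {g : Fin n → ℝ} {f : Fin n × Fin n}
    (hg : ∀ h : Fin n → ℝ, ∑ e, ν e * grad ℓ g e * grad ℓ h e = ν f * grad ℓ h f) (x : Fin n) :
    ∑ y, qf ℓ ν x y * (g x - g y) = bf ℓ ν f x := by
  have h := hg (Pi.single x 1)
  have e0 : ∀ a : Fin n, (Pi.single x (1:ℝ) : Fin n → ℝ) a = if x = a then 1 else 0 := by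
    intro a
    by_cases h : x = a
    · subst h; simp
    · rw [if_neg h, Pi.single_eq_of_ne (Ne.symm h)]
  have e1 : ν f * grad ℓ (Pi.single x 1) f = bf ℓ ν f x := by
    unfold grad bf
    rw [e0, e0]; ring
  have e2 : ∑ e, ν e * grad ℓ g e * grad ℓ (Pi.single x 1) e =
      ∑ a, ∑ b, cc ℓ ν a b * (g a - g b) * ((if x = a then 1 else 0) - (if x = b then 1 else 0)) := by
    rw [Fintype.sum_prod_type]
    apply Finset.sum_congr rfl; intro a _
    apply Finset.sum_congr rfl; intro b _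
    unfold grad cc
    simp only [e0]
    have := (hℓ (a, b)).ne'
    field_simp
  have e3 : ∑ a, ∑ b, cc ℓ ν a b * (g a - g b) *
      ((if x = a then 1 else 0) - (if x = b then 1 else 0)) =
      ∑ b, cc ℓ ν x b * (g x - g b) - ∑ a, cc ℓ ν a x * (g a - g x) := by
    have : ∀ a b, cc ℓ ν a b * (g a - g b) * ((if x = a then 1 else 0) - (if x = b then 1 else 0)) =
        (if x = a then cc ℓ ν a b * (g a - g b) else 0) -
          (if x = b then cc ℓ ν a b * (g a - g b) else 0) := by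
      intro a b; split_ifs <;> ring
    simp only [this, Finset.sum_sub_distrib]
    congr 1
    · rw [Finset.sum_comm]
      apply Finset.sum_congr rfl; intro b _
      rw [Finset.sum_ite_eq univ x, if_pos (Finset.mem_univ x)]
    · apply Finset.sum_congr rfl; intro a _
      rw [Finset.sum_ite_eq univ x, if_pos (Finset.mem_univ x)]
  rw [e1, e2, e3] at h
  rw [← h, ← Finset.sum_sub_distrib]
  apply Finset.sum_congr rfl; intro y _
  unfold qf; ring

/-- the density `u_a^y` -/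
noncomputable def uf (m : Fin n → ℝ) (P : Matrix (Fin n) (Fin n) ℝ) (a : ℕ) (y x : Fin n) : ℝ :=
  (P ^ a) x y / m y

omit hℓ hν in
theorem uf_succ (m : Fin n → ℝ) (P : Matrix (Fin n) (Fin n) ℝ) (a : ℕ) (y : Fin n) :
    P *ᵥ uf m P a y = uf m P (a + 1) y := by
  funext x
  unfold uf Matrix.mulVec dotProduct
  rw [pow_succ']
  simp only [Matrix.mul_apply]
  rw [Finset.sum_div]
  apply Finset.sum_congr rfl; intro z _; ring

omit hℓ hν in
theorem uf_nonneg {m : Fin n → ℝ} {q : Fin n → Fin n → ℝ} {δ : ℝ} (H : Hyp m q δ) (a : ℕ)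
    (y x : Fin n) : 0 ≤ uf m (PM m q δ) a y x :=
  div_nonneg (H.Pk_nonneg a x y) (H.mpos y).le

omit hℓ hν in
theorem uf_sum {m : Fin n → ℝ} {q : Fin n → Fin n → ℝ} {δ : ℝ} (H : Hyp m q δ) (a : ℕ)
    (y : Fin n) : ∑ x, m x * uf m (PM m q δ) a y x = 1 := by
  unfold uf
  have : ∀ x, m x * ((PM m q δ ^ a) x y / m y) = m x * (PM m q δ ^ a) x y / m y := fun x => by ring
  simp only [this]
  rw [← Finset.sum_div, H.Pk_col a y, div_self (H.mpos y).ne']

noncomputable def Ef (m : Fin n → ℝ) (u : Fin n → ℝ) : ℝ := ∑ x, m x * (u x * Real.log (u x))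

theorem D_uf_sq {δ : ℝ} (H : Hyp (mf ν) (qf ℓ ν) δ) (a : ℕ) (y : Fin n) :
    (Df ℓ ν (uf (mf ν) (PM (mf ν) (qf ℓ ν) δ) a y + uf (mf ν) (PM (mf ν) (qf ℓ ν) δ) (a + 1) y)) ^ 2 ≤
      8 / δ * (Ef (mf ν) (uf (mf ν) (PM (mf ν) (qf ℓ ν) δ) a y) -
        Ef (mf ν) (uf (mf ν) (PM (mf ν) (qf ℓ ν) δ) (a + 1) y)) := by
  set P := PM (mf ν) (qf ℓ ν) δ with hP
  set u := uf (mf ν) P a y with hu
  have hPu : P *ᵥ u = uf (mf ν) P (a + 1) y := uf_succ _ _ a y
  rw [← hPu]
  have hu0 : ∀ x, 0 ≤ u x := uf_nonneg H a y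
  have hu1 : ∑ x, mf ν x * u x = 1 := uf_sum H a y
  have hPu0 : ∀ x, 0 ≤ (P *ᵥ u) x := by rw [hPu]; exact uf_nonneg H (a + 1) y
  have hPu1 : ∑ x, mf ν x * (P *ᵥ u) x = 1 := by rw [hPu]; exact uf_sum H (a + 1) y
  have h1 := Df_add_le hℓ hν u (P *ᵥ u)
  have h2 := D_sq_le H (rf_nonneg hℓ hν) (fun x y => (sf_pos hν x y).le) (rf_sq_le hℓ hν)
    sum_sf sum_sf' hu0 hu1 hPu1 hPu0
  have h3 := H.ent_diss hu0 hu1
  have h0 : 0 ≤ Df ℓ ν (u + P *ᵥ u) := by
    unfold Df
    exact Finset.sum_nonneg fun e _ => mul_nonneg (hν e).le (abs_nonneg _)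
  have hδ := H.δpos
  calc (Df ℓ ν (u + P *ᵥ u)) ^ 2 ≤ _ := pow_le_pow_left₀ h0 h1 2
    _ ≤ _ := h2
    _ = 8 / δ * (δ * ∑ x, ∑ y, qf ℓ ν x y * (Real.sqrt (u y) - Real.sqrt ((P *ᵥ u) x)) ^ 2) := by
        rw [← mul_assoc, div_mul_cancel₀ _ hδ.ne']
    _ ≤ _ := by
        apply mul_le_mul_of_nonneg_left _ (by positivity)
        exact h3

omit hℓ hν in
/-- kernel formula -/
theorem S_sq_apply {δ : ℝ} (H : Hyp (mf ν) (qf ℓ ν) δ) (hℓ : ∀ e, 0 < ℓ e) (a : ℕ)
    (f : Fin n × Fin n) (x : Fin n) :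
    (((PM (mf ν) (qf ℓ ν) δ ^ a + PM (mf ν) (qf ℓ ν) δ ^ (a + 1)) *
      (PM (mf ν) (qf ℓ ν) δ ^ a + PM (mf ν) (qf ℓ ν) δ ^ (a + 1))) *ᵥ
        (fun z => bf ℓ ν f z / mf ν z)) x =
      ∑ y, (ν f * mf ν y * grad ℓ (uf (mf ν) (PM (mf ν) (qf ℓ ν) δ) a y +
        uf (mf ν) (PM (mf ν) (qf ℓ ν) δ) (a + 1) y) f) *
        (uf (mf ν) (PM (mf ν) (qf ℓ ν) δ) a y +
          uf (mf ν) (PM (mf ν) (qf ℓ ν) δ) (a + 1) y) x := by
  set P := PM (mf ν) (qf ℓ ν) δ with hP
  set S := P ^ a + P ^ (a + 1) with hS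
  set β : Fin n → ℝ := fun z => bf ℓ ν f z / mf ν z with hβ
  have hv : ∀ y z, (uf (mf ν) P a y + uf (mf ν) P (a + 1) y) z = S z y / mf ν y := by
    intro y z
    simp only [Pi.add_apply, uf, hS, Matrix.add_apply]
    ring
  have hSβ : ∀ y, (S *ᵥ β) y = ν f * grad ℓ (uf (mf ν) P a y + uf (mf ν) P (a + 1) y) f := by
    intro y
    have e1 : (S *ᵥ β) y = ∑ z, S z y / mf ν y * bf ℓ ν f z := by
      show ∑ z, S y z * (bf ℓ ν f z / mf ν z) = _
      apply Finset.sum_congr rfl; intro z _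
      have h1 := H.S_rev a y z
      have h2 := (H.mpos y).ne'
      have h3 := (H.mpos z).ne'
      have h4 : S y z / mf ν z = S z y / mf ν y := by
        rw [div_eq_div_iff h3 h2]
        have : mf ν y * S y z = mf ν z * S z y := h1
        linarith
      calc S y z * (bf ℓ ν f z / mf ν z) = (S y z / mf ν z) * bf ℓ ν f z := by ring
        _ = _ := by rw [h4]
    rw [e1]
    unfold bf grad
    rw [hv, hv]
    have e2 : ∀ z, S z y / mf ν y * (ν f / ℓ f * ((if z = f.1 then 1 else 0) -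
        (if z = f.2 then 1 else 0))) =
        (if z = f.1 then S z y / mf ν y * (ν f / ℓ f) else 0) -
          (if z = f.2 then S z y / mf ν y * (ν f / ℓ f) else 0) := by
      intro z; split_ifs <;> ring
    simp only [e2]
    rw [Finset.sum_sub_distrib, Finset.sum_ite_eq' univ f.1, Finset.sum_ite_eq' univ f.2,
      if_pos (Finset.mem_univ _), if_pos (Finset.mem_univ _)]
    ring
  rw [← Matrix.mulVec_mulVec]
  show ∑ y, S x y * (S *ᵥ β) y = _
  apply Finset.sum_congr rfl; intro y _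
  rw [hSβ, hv]
  have h2 := (H.mpos y).ne'
  field_simp

/-- one step of the bilinear bound -/
theorem bil_le {δ : ℝ} (H : Hyp (mf ν) (qf ℓ ν) δ) (a : ℕ) :
    ∑ e, ν e * ∑ f, |grad ℓ (((PM (mf ν) (qf ℓ ν) δ ^ a + PM (mf ν) (qf ℓ ν) δ ^ (a + 1)) *
      (PM (mf ν) (qf ℓ ν) δ ^ a + PM (mf ν) (qf ℓ ν) δ ^ (a + 1))) *ᵥ
        (fun z => bf ℓ ν f z / mf ν z)) e| ≤
      ∑ y, mf ν y * (8 / δ * (Ef (mf ν) (uf (mf ν) (PM (mf ν) (qf ℓ ν) δ) a y) -
        Ef (mf ν) (uf (mf ν) (PM (mf ν) (qf ℓ ν) δ) (a + 1) y))) := by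
  set P := PM (mf ν) (qf ℓ ν) δ with hP
  set v : Fin n → Fin n → ℝ := fun y => uf (mf ν) P a y + uf (mf ν) P (a + 1) y with hv
  have h1 : ∀ e f, |grad ℓ (((P ^ a + P ^ (a + 1)) * (P ^ a + P ^ (a + 1))) *ᵥ
        (fun z => bf ℓ ν f z / mf ν z)) e| ≤
      ∑ y, mf ν y * (|grad ℓ (v y) e| * (ν f * |grad ℓ (v y) f|)) := by
    intro e f
    have e1 : (((P ^ a + P ^ (a + 1)) * (P ^ a + P ^ (a + 1))) *ᵥ
        (fun z => bf ℓ ν f z / mf ν z)) =
        fun x => ∑ y, ((ν f * mf ν y * grad ℓ (v y) f) • (v y)) x := by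
      funext x
      rw [S_sq_apply H hℓ a f x]
      rfl
    rw [e1, grad_sum]
    apply (Finset.abs_sum_le_sum_abs _ _).trans
    apply le_of_eq
    apply Finset.sum_congr rfl; intro y _
    rw [grad_smul, abs_mul, abs_mul, abs_mul, abs_of_pos (hν f), abs_of_pos (H.mpos y)]
    ring
  calc ∑ e, ν e * ∑ f, |grad ℓ (((P ^ a + P ^ (a + 1)) * (P ^ a + P ^ (a + 1))) *ᵥ
        (fun z => bf ℓ ν f z / mf ν z)) e|
      ≤ ∑ e, ν e * ∑ f, ∑ y, mf ν y * (|grad ℓ (v y) e| * (ν f * |grad ℓ (v y) f|)) := by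
        apply Finset.sum_le_sum; intro e _
        apply mul_le_mul_of_nonneg_left _ (hν e).le
        exact Finset.sum_le_sum fun f _ => h1 e f
    _ = ∑ y, mf ν y * (Df ℓ ν (v y)) ^ 2 := by
        have e2 : ∀ e, ν e * ∑ f, ∑ y, mf ν y * (|grad ℓ (v y) e| * (ν f * |grad ℓ (v y) f|)) =
            ∑ y, mf ν y * ((ν e * |grad ℓ (v y) e|) * Df ℓ ν (v y)) := by
          intro e
          rw [Finset.sum_comm, Finset.mul_sum]
          apply Finset.sum_congr rfl; intro y _
          unfold Df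
          rw [Finset.mul_sum, Finset.mul_sum, Finset.mul_sum]
          apply Finset.sum_congr rfl; intro f _
          ring
        simp only [e2]
        rw [Finset.sum_comm]
        apply Finset.sum_congr rfl; intro y _
        rw [← Finset.mul_sum, ← Finset.sum_mul]
        rw [sq]
        rfl
    _ ≤ _ := by
        apply Finset.sum_le_sum; intro y _
        exact mul_le_mul_of_nonneg_left (D_uf_sq hℓ hν H a y) (H.mpos y).le

omit hℓ hν in
theorem telescope {P : Matrix (Fin n) (Fin n) ℝ} {g β : Fin n → ℝ} {δ : ℝ}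
    (h : g = P *ᵥ g + δ • β) (K : ℕ) :
    g = (P ^ K) *ᵥ g + δ • ((∑ k ∈ range K, P ^ k) *ᵥ β) := by
  induction K with
  | zero => simp
  | succ K ih =>
    conv_lhs => rw [ih]
    have h1 : (P ^ K) *ᵥ g = (P ^ (K + 1)) *ᵥ g + δ • ((P ^ K) *ᵥ β) := by
      conv_lhs => rw [h]
      rw [Matrix.mulVec_add, Matrix.mulVec_mulVec, ← pow_succ, Matrix.mulVec_smul]
    rw [h1, Finset.sum_range_succ, Matrix.add_mulVec, smul_add]
    abel

end Main

end T3b

open T3b in
theorem l1Bound : L1Bound := by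
  intro n hn ℓ ν hℓ hν hsum g hg
  have hnpos : 0 < n := by omega
  set m := mf ν with hm
  set q := qf ℓ ν with hq
  set β : Fin n × Fin n → Fin n → ℝ := fun f z => bf ℓ ν f z / m z with hβ
  set Bd : ℝ := ∑ f, ∑ x, |β f x| with hBd
  have hBd0 : 0 ≤ Bd := Finset.sum_nonneg fun f _ => Finset.sum_nonneg fun x _ => abs_nonneg _
  have hβle : ∀ f x, |β f x| ≤ Bd := by
    intro f x
    calc |β f x| ≤ ∑ x, |β f x| :=
          Finset.single_le_sum (f := fun x => |β f x|) (fun _ _ => abs_nonneg _) (Finset.mem_univ x)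
      _ ≤ Bd := Finset.single_le_sum (f := fun f => ∑ x, |β f x|)
          (fun _ _ => Finset.sum_nonneg fun _ _ => abs_nonneg _) (Finset.mem_univ f)
  set R : ℝ := ∑ e, ν e * ∑ f : Fin n × Fin n, 4 * Bd / ℓ e with hR
  have hR0 : 0 ≤ R := by
    apply Finset.sum_nonneg; intro e _
    apply mul_nonneg (hν e).le
    apply Finset.sum_nonneg; intro f _
    have := hℓ e
    positivity
  set Z : ℝ := ∑ x, (∑ y, q x y) / m x with hZ
  have hmpos : ∀ x, 0 < m x := mf_pos hν
  have hqpos : ∀ x y, 0 < q x y := qf_pos hℓ hν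
  have hZt : ∀ x, 0 ≤ (∑ y, q x y) / m x := fun x =>
    div_nonneg (Finset.sum_nonneg fun y _ => (hqpos x y).le) (hmpos x).le
  have hZ0 : 0 ≤ Z := Finset.sum_nonneg fun x _ => hZt x
  set δ : ℝ := 1 / (1 + R + Z) with hδ
  have hδpos : 0 < δ := by positivity
  have hδ1 : δ * (1 + R + Z) = 1 := by rw [hδ]; field_simp
  have hδR : δ * R ≤ 1 := by nlinarith [mul_nonneg hδpos.le hZ0]
  have H : Hyp m q δ := by
    refine ⟨hmpos, mf_sum hsum, qf_symm, hqpos, hδpos, fun x => ?_⟩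
    have h1 : (∑ y, q x y) / m x ≤ Z :=
      Finset.single_le_sum (f := fun x => (∑ y, q x y) / m x) (fun x _ => hZt x)
        (Finset.mem_univ x)
    have h2 : δ * ((∑ y, q x y) / m x) ≤ 1 := by
      have := mul_le_mul_of_nonneg_left h1 hδpos.le
      nlinarith [mul_nonneg hδpos.le hR0]
    have h3 : δ * (∑ y, q x y) = δ * ((∑ y, q x y) / m x) * m x := by
      have := (hmpos x).ne'
      field_simp
    rw [h3]
    calc _ ≤ 1 * m x := mul_le_mul_of_nonneg_right h2 (hmpos x).le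
      _ = m x := one_mul _
  set P := PM m q δ with hP
  -- minimal entry
  have : Nonempty (Fin n × Fin n) := ⟨(⟨0, hnpos⟩, ⟨0, hnpos⟩)⟩
  obtain ⟨z, hz⟩ := Finite.exists_min (fun z : Fin n × Fin n => P z.1 z.2)
  set c₀ := P z.1 z.2 with hc₀
  have hc0 : 0 < c₀ := H.P_pos _ _
  have hc1 : c₀ ≤ 1 := by
    rw [← H.P_row z.1]
    exact Finset.single_le_sum (f := fun y => P z.1 y) (fun y _ => (H.P_pos z.1 y).le)
      (Finset.mem_univ z.2)
  have hc : ∀ x y, c₀ ≤ P x y := fun x y => hz (x, y)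
  set Dg : ℝ := ∑ f, ∑ x, ∑ y, |g f x - g f y| with hDg
  have hDg0 : 0 ≤ Dg := Finset.sum_nonneg fun f _ => Finset.sum_nonneg fun x _ =>
    Finset.sum_nonneg fun y _ => abs_nonneg _
  have hDgle : ∀ f x y, g f x - g f y ≤ Dg := by
    intro f x y
    calc g f x - g f y ≤ |g f x - g f y| := le_abs_self _
      _ ≤ ∑ y, |g f x - g f y| :=
          Finset.single_le_sum (f := fun y => |g f x - g f y|) (fun _ _ => abs_nonneg _)
            (Finset.mem_univ y)
      _ ≤ ∑ x, ∑ y, |g f x - g f y| :=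
          Finset.single_le_sum (f := fun x => ∑ y, |g f x - g f y|)
            (fun _ _ => Finset.sum_nonneg fun _ _ => abs_nonneg _) (Finset.mem_univ x)
      _ ≤ Dg := Finset.single_le_sum (f := fun f => ∑ x, ∑ y, |g f x - g f y|)
            (fun _ _ => Finset.sum_nonneg fun _ _ => Finset.sum_nonneg fun _ _ => abs_nonneg _)
            (Finset.mem_univ f)
  set T0 : ℝ := ∑ e, ν e * ∑ f : Fin n × Fin n, Dg / ℓ e with hT0
  have hT00 : 0 ≤ T0 := by
    apply Finset.sum_nonneg; intro e _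
    apply mul_nonneg (hν e).le
    apply Finset.sum_nonneg; intro f _
    have := hℓ e
    positivity
  obtain ⟨N, hN⟩ : ∃ N : ℕ, (1 - c₀) ^ (2 * N) * T0 ≤ 1 / 2 := by
    have h1 : Filter.Tendsto (fun N : ℕ => (1 - c₀) ^ (2 * N) * T0) Filter.atTop (nhds (0 * T0)) := by
      apply Filter.Tendsto.mul_const
      have h2 := tendsto_pow_atTop_nhds_zero_of_lt_one (r := 1 - c₀) (by linarith) (by linarith)
      exact h2.comp (Filter.tendsto_id.const_mul_atTop' (by norm_num : 0 < 2))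
    rw [zero_mul] at h1
    obtain ⟨N, hN⟩ := (h1.eventually (ge_mem_nhds (show (0:ℝ) < 1 / 2 by norm_num))).exists
    exact ⟨N, hN⟩
  -- the equation for the potentials
  have heq : ∀ f, g f = P *ᵥ g f + δ • β f := by
    intro f
    funext x
    have h1 := local_eq hℓ hν (hg f) x
    have h2 : (P *ᵥ g f) x = g f x - δ / m x * ∑ y, q x y * (g f x - g f y) := by
      show ∑ y, ((if x = y then 1 - δ * (∑ z, q x z) / m x else 0) + δ / m x * q x y) * g f y = _
      simp only [add_mul, Finset.sum_add_distrib, ite_mul, zero_mul]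
      rw [Finset.sum_ite_eq univ x, if_pos (Finset.mem_univ x)]
      have h3 : ∑ y, q x y * (g f x - g f y) = (∑ z, q x z) * g f x - ∑ y, q x y * g f y := by
        simp only [mul_sub, Finset.sum_sub_distrib, Finset.sum_mul]
      have h4 : ∑ y, δ / m x * q x y * g f y = δ / m x * ∑ y, q x y * g f y := by
        rw [Finset.mul_sum]; apply Finset.sum_congr rfl; intro y _; ring
      rw [h3, h4]; ring
    simp only [Pi.add_apply, Pi.smul_apply, smul_eq_mul]
    rw [h2, h1]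
    simp only [hβ]
    ring
  have hdec : ∀ f, g f = (P ^ (2 * N)) *ᵥ g f + (δ / 2) • ((β f - (P ^ (2 * N)) *ᵥ β f) +
      fun x => ∑ a ∈ range N, (((P ^ a + P ^ (a + 1)) * (P ^ a + P ^ (a + 1))) *ᵥ β f) x) := by
    intro f
    have h1 := telescope (heq f) (2 * N)
    have h2 := two_sum_pow P N
    have h3 : (∑ k ∈ range (2 * N), P ^ k) *ᵥ β f = (1 / 2 : ℝ) • (((2:ℝ) •
        ∑ k ∈ range (2 * N), P ^ k) *ᵥ β f) := by
      rw [Matrix.smul_mulVec, smul_smul]; norm_num
    have h6 : (∑ a ∈ range N, (P ^ a + P ^ (a + 1)) * (P ^ a + P ^ (a + 1))) *ᵥ β f =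
        ∑ a ∈ range N, (((P ^ a + P ^ (a + 1)) * (P ^ a + P ^ (a + 1))) *ᵥ β f) :=
      Matrix.sum_mulVec _ _ _
    rw [h2, Matrix.add_mulVec, Matrix.sub_mulVec, Matrix.one_mulVec, h6] at h3
    conv_lhs => rw [h1, h3]
    rw [smul_smul]
    congr 1
    have h4 : δ * (1 / 2) = δ / 2 := by ring
    rw [h4]
    congr 2
    funext x
    rw [Finset.sum_apply]
  have hterm : ∀ e f, |grad ℓ (g f) e| ≤ (1 - c₀) ^ (2 * N) * (Dg / ℓ e) +
      (δ / 2) * (4 * Bd / ℓ e) + (δ / 2) * ∑ a ∈ range N,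
        |grad ℓ (((P ^ a + P ^ (a + 1)) * (P ^ a + P ^ (a + 1))) *ᵥ β f) e| := by
    intro e f
    conv_lhs => rw [hdec f]
    rw [grad_add, grad_smul, grad_add]
    have a1 : |grad ℓ ((P ^ (2 * N)) *ᵥ g f) e| ≤ (1 - c₀) ^ (2 * N) * (Dg / ℓ e) := by
      have := abs_grad_le hℓ (H.osc_pow hc hc1 hDg0 (hDgle f) (2 * N)) e
      calc _ ≤ _ := this
        _ = _ := by ring
    have a2 : |grad ℓ (β f - (P ^ (2 * N)) *ᵥ β f) e| ≤ 4 * Bd / ℓ e := by
      apply abs_grad_le hℓ _ e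
      intro x y
      have b1 := abs_le.1 (hβle f x)
      have b2 := abs_le.1 (hβle f y)
      have b3 := abs_le.1 (H.sup_contr (2 * N) (hβle f) x)
      have b4 := abs_le.1 (H.sup_contr (2 * N) (hβle f) y)
      simp only [Pi.sub_apply]
      linarith
    have a3 : |grad ℓ (fun x => ∑ a ∈ range N,
        (((P ^ a + P ^ (a + 1)) * (P ^ a + P ^ (a + 1))) *ᵥ β f) x) e| ≤
        ∑ a ∈ range N, |grad ℓ (((P ^ a + P ^ (a + 1)) * (P ^ a + P ^ (a + 1))) *ᵥ β f) e| := by
      rw [grad_sum (range N) (fun a => ((P ^ a + P ^ (a + 1)) * (P ^ a + P ^ (a + 1))) *ᵥ β f) e]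
      exact Finset.abs_sum_le_sum_abs _ _
    set X := grad ℓ ((P ^ (2 * N)) *ᵥ g f) e
    set Y := grad ℓ (β f - (P ^ (2 * N)) *ᵥ β f) e
    set W := grad ℓ (fun x => ∑ a ∈ range N,
        (((P ^ a + P ^ (a + 1)) * (P ^ a + P ^ (a + 1))) *ᵥ β f) x) e
    calc |X + δ / 2 * (Y + W)| ≤ |X| + δ / 2 * (|Y| + |W|) := by
          calc |X + δ / 2 * (Y + W)| ≤ |X| + |δ / 2 * (Y + W)| := abs_add_le _ _
            _ = |X| + δ / 2 * |Y + W| := by rw [abs_mul, abs_of_pos (show 0 < δ / 2 by positivity)]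
            _ ≤ _ := by
                have := abs_add_le Y W
                have h5 : 0 ≤ δ / 2 := by positivity
                have := mul_le_mul_of_nonneg_left this h5
                linarith
      _ ≤ _ := by
          have h5 : 0 ≤ δ / 2 := by positivity
          have c1 := mul_le_mul_of_nonneg_left a2 h5
          have c2 := mul_le_mul_of_nonneg_left a3 h5
          linarith
  -- the entropy sum
  have hEN : ∀ a y, 0 ≤ Ef m (uf m P a y) := fun a y =>
    H.ent_nonneg (uf_nonneg H a y) (uf_sum H a y)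
  have hE0 : ∀ y, Ef m (uf m P 0 y) = Real.log (1 / m y) := by
    intro y
    unfold Ef uf
    simp only [pow_zero, Matrix.one_apply]
    rw [Finset.sum_eq_single y]
    · rw [if_pos rfl]
      have := (hmpos y).ne'
      field_simp
    · intro x _ hxy
      rw [if_neg hxy]; simp
    · intro h; exact absurd (Finset.mem_univ y) h
  have hbil : ∑ a ∈ range N, ∑ e, ν e * ∑ f,
      |grad ℓ (((P ^ a + P ^ (a + 1)) * (P ^ a + P ^ (a + 1))) *ᵥ β f) e| ≤
      8 / δ * Real.log n := by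
    calc _ ≤ ∑ a ∈ range N, ∑ y, m y * (8 / δ * (Ef m (uf m P a y) - Ef m (uf m P (a + 1) y))) :=
          Finset.sum_le_sum fun a _ => bil_le hℓ hν H a
      _ = 8 / δ * ∑ y, m y * (Ef m (uf m P 0 y) - Ef m (uf m P N y)) := by
          rw [Finset.sum_comm, Finset.mul_sum]
          apply Finset.sum_congr rfl; intro y _
          rw [← Finset.sum_range_sub' (fun a => Ef m (uf m P a y)) N, Finset.mul_sum,
            Finset.mul_sum]
          apply Finset.sum_congr rfl; intro a _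
          ring
      _ ≤ 8 / δ * ∑ y, m y * Real.log (1 / m y) := by
          apply mul_le_mul_of_nonneg_left _ (by positivity)
          apply Finset.sum_le_sum; intro y _
          apply mul_le_mul_of_nonneg_left _ (hmpos y).le
          rw [hE0]
          linarith [hEN N y]
      _ ≤ _ := by
          apply mul_le_mul_of_nonneg_left (H.ent_zero_le hnpos) (by positivity)
  calc ∑ e, ν e * ∑ f, |grad ℓ (g f) e|
      ≤ ∑ e, ν e * ∑ f, ((1 - c₀) ^ (2 * N) * (Dg / ℓ e) +
      (δ / 2) * (4 * Bd / ℓ e) + (δ / 2) * ∑ a ∈ range N,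
        |grad ℓ (((P ^ a + P ^ (a + 1)) * (P ^ a + P ^ (a + 1))) *ᵥ β f) e|) := by
        apply Finset.sum_le_sum; intro e _
        apply mul_le_mul_of_nonneg_left _ (hν e).le
        exact Finset.sum_le_sum fun f _ => hterm e f
    _ = (1 - c₀) ^ (2 * N) * T0 + (δ / 2) * R + (δ / 2) * ∑ a ∈ range N, ∑ e, ν e * ∑ f,
      |grad ℓ (((P ^ a + P ^ (a + 1)) * (P ^ a + P ^ (a + 1))) *ᵥ β f) e| := by
        have e1 : ∀ e, ν e * ∑ f : Fin n × Fin n, ((1 - c₀) ^ (2 * N) * (Dg / ℓ e) +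
            (δ / 2) * (4 * Bd / ℓ e) + (δ / 2) * ∑ a ∈ range N,
            |grad ℓ (((P ^ a + P ^ (a + 1)) * (P ^ a + P ^ (a + 1))) *ᵥ β f) e|) =
            (1 - c₀) ^ (2 * N) * (ν e * ∑ f : Fin n × Fin n, Dg / ℓ e) +
            (δ / 2) * (ν e * ∑ f : Fin n × Fin n, 4 * Bd / ℓ e) +
            (δ / 2) * ∑ a ∈ range N, ν e * ∑ f,
              |grad ℓ (((P ^ a + P ^ (a + 1)) * (P ^ a + P ^ (a + 1))) *ᵥ β f) e| := by
          intro e
          rw [Finset.sum_add_distrib, Finset.sum_add_distrib, ← Finset.mul_sum, ← Finset.mul_sum,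
            ← Finset.mul_sum, Finset.sum_comm, ← Finset.mul_sum]
          ring
        simp only [e1]
        rw [Finset.sum_add_distrib, Finset.sum_add_distrib, ← Finset.mul_sum, ← Finset.mul_sum,
          ← Finset.mul_sum, Finset.sum_comm]
    _ ≤ 1 / 2 + 1 / 2 + (δ / 2) * (8 / δ * Real.log n) := by
        have h5 : 0 ≤ δ / 2 := by positivity
        have := mul_le_mul_of_nonneg_left hbil h5
        linarith
    _ = 4 * Real.log n + 1 := by
        field_simp
        ring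

end Crest.Agent.H27
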