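import Mathlib
import Crest.Agent.H27.Defs

/-! Row 232 (T4): the uniform version of the potential operator by Hahn-Banach. -/

set_option autoImplicit false

namespace Crest.Agent.H27

open scoped BigOperators
open Finset

theorem exists_G (h1 : ExistsGLin) (h2 : L1Bound) : ExistsG := by
  intro n hn ℓ ν hℓ hν hsum
  obtain ⟨G, hG1, hG2⟩ := h1 n hn ℓ ν hℓ hν
  refine ⟨G, hG2, ?_, ?_⟩
  · intro a
    have h3 := hG1 a (G a)
    have h4 : 0 ≤ ∑ e, ν e * (a e - grad ℓ (G a) e) ^ 2 :=
      Finset.sum_nonneg fun e _ => mul_nonneg (hν e).le (sq_nonneg _)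
    have h5 : ∑ e, ν e * (a e - grad ℓ (G a) e) ^ 2 =
        ∑ e, ν e * (a e) ^ 2 - 2 * ∑ e, ν e * a e * grad ℓ (G a) e +
          ∑ e, ν e * grad ℓ (G a) e * grad ℓ (G a) e := by
      rw [Finset.mul_sum, ← Finset.sum_sub_distrib, ← Finset.sum_add_distrib]
      apply Finset.sum_congr rfl; intro e _; ring
    have h6 : ∑ e, ν e * (grad ℓ (G a) e) ^ 2 = ∑ e, ν e * grad ℓ (G a) e * grad ℓ (G a) e := by
      apply Finset.sum_congr rfl; intro e _; ring
    rw [h6]
    linarith
  · apply h2 n hn ℓ ν hℓ hν hsum (fun f => G (Pi.single f 1))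
    intro f h
    rw [hG1]
    rw [Finset.sum_eq_single f]
    · simp
    · intro e _ hef
      rw [Pi.single_eq_of_ne hef]; simp
    · intro hh; exact absurd (Finset.mem_univ f) hh

namespace T4

variable {n : ℕ} (ℓ : Fin n × Fin n → ℝ) {ι : Type} [Fintype ι] (F : ι → Fin n × Fin n → ℝ)

/-- admissible operators -/
def Ok (G : (Fin n × Fin n → ℝ) →ₗ[ℝ] (Fin n → ℝ)) : Prop :=
  ∀ (g : Fin n → ℝ) (x y : Fin n), G (grad ℓ g) x - G (grad ℓ g) y = g x - g y

/-- the convex functional -/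
noncomputable def Fe (G : (Fin n × Fin n → ℝ) →ₗ[ℝ] (Fin n → ℝ)) (e : Fin n × Fin n) : ℝ :=
  (∑ f, |grad ℓ (G (Pi.single f 1)) e|) / (4 * Real.log n + 1) + ∑ k, (grad ℓ (G (F k)) e) ^ 2

theorem grad_comb (u v : Fin n → ℝ) (s t : ℝ) (e : Fin n × Fin n) :
    grad ℓ (s • u + t • v) e = s * grad ℓ u e + t * grad ℓ v e := by
  unfold grad; simp only [Pi.add_apply, Pi.smul_apply, smul_eq_mul]; ring

theorem Fe_convex (hn : 2 ≤ n) (G G' : (Fin n × Fin n → ℝ) →ₗ[ℝ] (Fin n → ℝ)) {s t : ℝ}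
    (hs : 0 ≤ s) (ht : 0 ≤ t) (hst : s + t = 1) (e : Fin n × Fin n) :
    Fe ℓ F (s • G + t • G') e ≤ s * Fe ℓ F G e + t * Fe ℓ F G' e := by
  unfold Fe
  have hlog : 0 < 4 * Real.log n + 1 := by
    have : 0 ≤ Real.log n := Real.log_nonneg (by exact_mod_cast (by omega : 1 ≤ n))
    linarith
  have e1 : ∀ a, (s • G + t • G') a = s • G a + t • G' a := fun a => rfl
  simp only [e1, grad_comb]
  have h1 : (∑ f, |s * grad ℓ (G (Pi.single f 1)) e + t * grad ℓ (G' (Pi.single f 1)) e|) ≤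
      s * (∑ f, |grad ℓ (G (Pi.single f 1)) e|) + t * (∑ f, |grad ℓ (G' (Pi.single f 1)) e|) := by
    rw [Finset.mul_sum, Finset.mul_sum, ← Finset.sum_add_distrib]
    apply Finset.sum_le_sum; intro f _
    calc _ ≤ |s * grad ℓ (G (Pi.single f 1)) e| + |t * grad ℓ (G' (Pi.single f 1)) e| :=
          abs_add_le _ _
      _ = _ := by rw [abs_mul, abs_mul, abs_of_nonneg hs, abs_of_nonneg ht]
  have h2 : (∑ k, (s * grad ℓ (G (F k)) e + t * grad ℓ (G' (F k)) e) ^ 2) ≤
      s * (∑ k, (grad ℓ (G (F k)) e) ^ 2) + t * (∑ k, (grad ℓ (G' (F k)) e) ^ 2) := by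
    rw [Finset.mul_sum, Finset.mul_sum, ← Finset.sum_add_distrib]
    apply Finset.sum_le_sum; intro k _
    set a := grad ℓ (G (F k)) e
    set b := grad ℓ (G' (F k)) e
    have : s * a ^ 2 + t * b ^ 2 - (s * a + t * b) ^ 2 = s * t * (a - b) ^ 2 := by
      have ht' : t = 1 - s := by linarith
      subst ht'
      ring
    have h3 : 0 ≤ s * t * (a - b) ^ 2 := by positivity
    linarith
  have h3 : (∑ f, |s * grad ℓ (G (Pi.single f 1)) e + t * grad ℓ (G' (Pi.single f 1)) e|) /
      (4 * Real.log n + 1) ≤ s * ((∑ f, |grad ℓ (G (Pi.single f 1)) e|) / (4 * Real.log n + 1)) +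
        t * ((∑ f, |grad ℓ (G' (Pi.single f 1)) e|) / (4 * Real.log n + 1)) := by
    rw [div_le_iff₀ hlog]
    calc _ ≤ _ := h1
      _ = _ := by field_simp
  calc _ ≤ _ := add_le_add h3 h2
    _ = _ := by ring

end T4

open T4 in
theorem lemmaA_of (H : ExistsG) : LemmaA := by
  intro n hn ℓ hℓ ι _ F hF
  have hlog0 : 0 ≤ Real.log n := Real.log_nonneg (by exact_mod_cast (by omega : 1 ≤ n))
  have hlog : 0 < 4 * Real.log n + 1 := by linarith
  -- the sets
  set A : Set (Fin n × Fin n → ℝ) := {z | ∃ G, Ok ℓ G ∧ ∀ e, Fe ℓ F G e ≤ z e} with hA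
  set B : Set (Fin n × Fin n → ℝ) := {z | ∀ e, z e < 3} with hB
  suffices hAB : ¬ Disjoint B A by
    rw [Set.not_disjoint_iff] at hAB
    obtain ⟨z, hzB, G, hG, hGz⟩ := hAB
    have hFe : ∀ e, Fe ℓ F G e < 3 := fun e => lt_of_le_of_lt (hGz e) (hzB e)
    refine ⟨G, hG, fun e => ?_, fun e => ?_⟩
    · have h1 := hFe e
      unfold Fe at h1
      have h2 : 0 ≤ ∑ k, (grad ℓ (G (F k)) e) ^ 2 := Finset.sum_nonneg fun k _ => sq_nonneg _
      have h3 : (∑ f, |grad ℓ (G (Pi.single f 1)) e|) / (4 * Real.log n + 1) ≤ 3 := by linarith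
      rw [div_le_iff₀ hlog] at h3
      exact h3
    · have h1 := hFe e
      unfold Fe at h1
      have h2 : 0 ≤ (∑ f, |grad ℓ (G (Pi.single f 1)) e|) / (4 * Real.log n + 1) :=
        div_nonneg (Finset.sum_nonneg fun f _ => abs_nonneg _) hlog.le
      linarith
  intro hdisj
  have hBconv : Convex ℝ B := by
    have : B = ⋂ e, {z : Fin n × Fin n → ℝ | z e < 3} := by ext z; simp [hB]
    rw [this]
    apply convex_iInter
    intro e
    exact convex_halfSpace_lt (LinearMap.isLinear (LinearMap.proj (R := ℝ) (φ := fun _ : Fin n × Fin n => ℝ) e)) 3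
  have hBopen : IsOpen B := by
    have : B = ⋂ e, {z : Fin n × Fin n → ℝ | z e < 3} := by ext z; simp [hB]
    rw [this]
    apply isOpen_iInter_of_finite
    intro e
    exact isOpen_lt (continuous_apply e) continuous_const
  have hAconv : Convex ℝ A := by
    intro z hz z' hz' s t hs ht hst
    obtain ⟨G, hG, hGz⟩ := hz
    obtain ⟨G', hG', hGz'⟩ := hz'
    refine ⟨s • G + t • G', ?_, fun e => ?_⟩
    · intro g x y
      have h1 := hG g x y
      have h2 := hG' g x y
      show (s * G (grad ℓ g) x + t * G' (grad ℓ g) x) - (s * G (grad ℓ g) y + t * G' (grad ℓ g) y) = _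
      have ht' : t = 1 - s := by linarith
      subst ht'
      linear_combination s * h1 + (1 - s) * h2
    · have h1 := Fe_convex ℓ F hn G G' hs ht hst e
      show Fe ℓ F (s • G + t • G') e ≤ s * z e + t * z' e
      have h2 := mul_le_mul_of_nonneg_left (hGz e) hs
      have h3 := mul_le_mul_of_nonneg_left (hGz' e) ht
      linarith
  obtain ⟨φ, u, hφB, hφA⟩ := geometric_hahn_banach_open hBconv hBopen hAconv hdisj
  set c : Fin n × Fin n → ℝ := fun e => φ (Pi.single e 1) with hc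
  have hφ : ∀ z, φ z = ∑ e, c e * z e := by
    intro z
    conv_lhs => rw [← Finset.univ_sum_single z]
    rw [map_sum]
    apply Finset.sum_congr rfl; intro e _
    have : (Pi.single e (z e) : Fin n × Fin n → ℝ) = z e • Pi.single e 1 := by
      rw [← Pi.single_smul]; simp
    rw [this, map_smul, smul_eq_mul, mul_comm]
  have hcn : ∀ e, 0 ≤ c e := by
    intro e
    by_contra hcon
    push Not at hcon
    -- take t large
    have h1 : ∀ t : ℝ, 0 ≤ t → -t * c e < u := by
      intro t ht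
      have h2 : (Pi.single e (-t) : Fin n × Fin n → ℝ) ∈ B := by
        intro e'
        by_cases h : e' = e
        · subst h; simp; linarith
        · rw [Pi.single_eq_of_ne h]; norm_num
      have h3 := hφB _ h2
      rw [hφ, Finset.sum_eq_single e] at h3
      · simp at h3; linarith
      · intro e' _ hne; rw [Pi.single_eq_of_ne hne]; simp
      · intro hh; exact absurd (Finset.mem_univ e) hh
    have h2 := h1 (|u| / (-c e) + 1) (by
      have : 0 ≤ |u| / (-c e) := div_nonneg (abs_nonneg _) (by linarith)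
      linarith)
    have h3 : -(|u| / (-c e) + 1) * c e = |u| - c e := by
      have : -c e ≠ 0 := by linarith
      have h4 : c e ≠ 0 := by linarith
      field_simp
      ring
    rw [h3] at h2
    have := le_abs_self u
    linarith
  set s : ℝ := ∑ e, c e with hs
  have hs0 : 0 ≤ s := Finset.sum_nonneg fun e _ => hcn e
  have hus : 3 * s ≤ u := by
    by_contra hcon
    push Not at hcon
    have hspos : 0 < s ∨ s = 0 := hs0.lt_or_eq.imp id (fun h => h.symm)
    rcases hspos with hsp | hsz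
    · -- point (u/s) < 3
      have h1 : (fun _ => u / s : Fin n × Fin n → ℝ) ∈ B := by
        intro e
        show u / s < 3
        rw [div_lt_iff₀ hsp]; linarith
      have h2 := hφB _ h1
      rw [hφ, ← Finset.sum_mul, ← hs] at h2
      rw [mul_div_cancel₀ _ hsp.ne'] at h2
      exact lt_irrefl _ h2
    · have h1 : (fun _ => 0 : Fin n × Fin n → ℝ) ∈ B := by intro e; norm_num
      have h2 := hφB _ h1
      rw [hφ] at h2
      simp at h2
      rw [hsz] at hcon
      linarith
  -- cardinality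
  set N : ℝ := (Fintype.card (Fin n × Fin n) : ℝ) with hN
  have hNpos : 0 < N := by
    rw [hN]
    have : 0 < Fintype.card (Fin n × Fin n) := Fintype.card_pos_iff.2 ⟨(⟨0, by omega⟩, ⟨0, by omega⟩)⟩
    exact_mod_cast this
  have key : ∀ ν : Fin n × Fin n → ℝ, (∀ e, 0 < ν e) → ∑ e, ν e = 1 →
      ∃ G, Ok ℓ G ∧ ∑ e, ν e * Fe ℓ F G e ≤ 2 := by
    intro ν hν hν1
    obtain ⟨G, hG1, hG2, hG3⟩ := H n hn ℓ ν hℓ hν hν1
    refine ⟨G, hG1, ?_⟩
    unfold Fe
    simp only [mul_add, Finset.sum_add_distrib]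
    have e1 : ∑ e, ν e * ((∑ f, |grad ℓ (G (Pi.single f 1)) e|) / (4 * Real.log n + 1)) ≤ 1 := by
      have : ∑ e, ν e * ((∑ f, |grad ℓ (G (Pi.single f 1)) e|) / (4 * Real.log n + 1)) =
          (∑ e, ν e * ∑ f, |grad ℓ (G (Pi.single f 1)) e|) / (4 * Real.log n + 1) := by
        rw [Finset.sum_div]
        apply Finset.sum_congr rfl; intro e _; ring
      rw [this, div_le_one hlog]
      exact hG3
    have e2 : ∑ e, ν e * ∑ k, (grad ℓ (G (F k)) e) ^ 2 ≤ 1 := by
      simp only [Finset.mul_sum]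
      rw [Finset.sum_comm]
      calc ∑ k, ∑ e, ν e * (grad ℓ (G (F k)) e) ^ 2 ≤ ∑ k, ∑ e, ν e * (F k e) ^ 2 :=
            Finset.sum_le_sum fun k _ => hG2 (F k)
        _ = ∑ e, ν e * ∑ k, (F k e) ^ 2 := by
            rw [Finset.sum_comm]; simp only [Finset.mul_sum]
        _ ≤ ∑ e, ν e * 1 := Finset.sum_le_sum fun e _ =>
            mul_le_mul_of_nonneg_left (hF e) (hν e).le
        _ = 1 := by simp [hν1]
    linarith
  have hFn : ∀ G e, 0 ≤ Fe ℓ F G e := by
    intro G e
    unfold Fe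
    exact add_nonneg (div_nonneg (Finset.sum_nonneg fun f _ => abs_nonneg _) hlog.le)
      (Finset.sum_nonneg fun k _ => sq_nonneg _)
  rcases hs0.lt_or_eq with hsp | hsz
  · set ν : Fin n × Fin n → ℝ := fun e => 5 / 6 * (c e / s) + 1 / 6 / N with hν
    obtain ⟨G, hG, hG2⟩ := key ν (by
      intro e
      have h1 : 0 ≤ c e / s := div_nonneg (hcn e) hs0
      simp only [hν]
      positivity) (by
      simp only [hν]
      rw [Finset.sum_add_distrib, ← Finset.mul_sum, ← Finset.sum_div, ← hs, div_self hsp.ne']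
      simp only [Finset.sum_const, Finset.card_univ, nsmul_eq_mul]
      rw [← hN]
      field_simp
      norm_num)
    have h1 : (Fe ℓ F G) ∈ A := ⟨G, hG, fun e => le_rfl⟩
    have h2 := hφA _ h1
    rw [hφ] at h2
    have h3 : 5 / 6 * ((∑ e, c e * Fe ℓ F G e) / s) ≤ ∑ e, ν e * Fe ℓ F G e := by
      rw [Finset.sum_div, Finset.mul_sum]
      apply Finset.sum_le_sum; intro e _
      simp only [hν]
      have h4 := hFn G e
      have h5 : 0 ≤ 1 / 6 / N * Fe ℓ F G e := by positivity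
      calc 5 / 6 * (c e * Fe ℓ F G e / s) = 5 / 6 * (c e / s) * Fe ℓ F G e := by ring
        _ ≤ 5 / 6 * (c e / s) * Fe ℓ F G e + 1 / 6 / N * Fe ℓ F G e := by linarith
        _ = _ := by ring
    have h4 : 3 ≤ (∑ e, c e * Fe ℓ F G e) / s := by
      rw [le_div_iff₀ hsp]; linarith
    linarith
  · -- all coefficients vanish
    have hc0 : ∀ e, c e = 0 := by
      intro e
      have := (Finset.sum_eq_zero_iff_of_nonneg (fun e _ => hcn e)).1 (hs.symm.trans hsz.symm)
      exact this e (Finset.mem_univ e)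
    obtain ⟨G, hG, -⟩ := key (fun _ => 1 / N) (fun _ => by positivity) (by
      simp only [Finset.sum_const, Finset.card_univ, nsmul_eq_mul]
      rw [← hN]; field_simp)
    have h1 : (Fe ℓ F G) ∈ A := ⟨G, hG, fun e => le_rfl⟩
    have h2 := hφA _ h1
    have h3 : (fun _ => 0 : Fin n × Fin n → ℝ) ∈ B := by intro e; norm_num
    have h4 := hφB _ h3
    rw [hφ] at h2 h4
    simp only [hc0, zero_mul, Finset.sum_const_zero] at h2 h4
    linarith

end Crest.Agent.H27
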