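import Mathlib
import Crest.Agent.H27.Defs

set_option autoImplicit false

namespace Crest.Agent.H27

open scoped BigOperators
open Finset

namespace T5

lemma two_rpow_pos (x : ℝ) : (0 : ℝ) < (2 : ℝ) ^ x := Real.rpow_pos_of_pos (by norm_num) x

lemma one_lt_two_rpow {s : ℝ} (hs : 0 < s) : (1 : ℝ) < (2 : ℝ) ^ s :=
  Real.one_lt_rpow (by norm_num) hs

/-- the geometric constant -/
noncomputable def Cs (s : ℝ) : ℝ := (2 : ℝ) ^ s / ((2 : ℝ) ^ s - 1)

lemma Cs_pos {s : ℝ} (hs : 0 < s) : 0 < Cs s := by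
  unfold Cs
  have := one_lt_two_rpow hs
  have h2 := two_rpow_pos s
  apply div_pos h2; linarith

lemma rpow_succ_mul (s : ℝ) (k : ℕ) :
    (2 : ℝ) ^ (((k + 1 : ℕ) : ℝ) * s) = (2 : ℝ) ^ s * (2 : ℝ) ^ ((k : ℝ) * s) := by
  rw [← Real.rpow_add (by norm_num)]
  congr 1
  push_cast; ring

lemma rpow_nat_mul (s : ℝ) (k : ℕ) : (2 : ℝ) ^ ((k : ℝ) * s) = ((2 : ℝ) ^ k) ^ s := by
  rw [Real.rpow_mul (by norm_num), Real.rpow_natCast]

/-- full geometric sum -/
lemma geom_le {s : ℝ} (hs : 0 < s) (K : ℕ) :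
    ∑ k ∈ range K, (2 : ℝ) ^ ((k : ℝ) * s) ≤ (2 : ℝ) ^ ((K : ℝ) * s) / ((2 : ℝ) ^ s - 1) := by
  have h1 := one_lt_two_rpow hs
  have h0 : (0 : ℝ) < (2 : ℝ) ^ s - 1 := by linarith
  induction K with
  | zero => simp; linarith
  | succ K ih =>
    rw [sum_range_succ, rpow_succ_mul]
    have h2 : (2 : ℝ) ^ s * (2 : ℝ) ^ ((K : ℝ) * s) / ((2 : ℝ) ^ s - 1)
      = (2 : ℝ) ^ ((K : ℝ) * s) / ((2 : ℝ) ^ s - 1) + (2 : ℝ) ^ ((K : ℝ) * s) := by
      field_simp; ring
    rw [h2]; linarith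

lemma geom_succ_le {s : ℝ} (hs : 0 < s) (K : ℕ) :
    ∑ k ∈ range (K + 1), (2 : ℝ) ^ ((k : ℝ) * s) ≤ Cs s * (2 : ℝ) ^ ((K : ℝ) * s) := by
  refine (geom_le hs (K + 1)).trans (le_of_eq ?_)
  rw [rpow_succ_mul]; unfold Cs; ring

/-- G1 -/
lemma geom_up {s : ℝ} (hs : 0 < s) (K : ℕ) {r : ℝ} (hr : 0 ≤ r) :
    ∑ k ∈ range K, (if (2 : ℝ) ^ k < r then (2 : ℝ) ^ ((k : ℝ) * s) else 0) ≤ Cs s * r ^ s := by
  have hC := Cs_pos hs
  induction K with
  | zero => simp; positivity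
  | succ K ih =>
    by_cases h : (2 : ℝ) ^ K < r
    · have h1 : ∑ k ∈ range (K + 1), (if (2 : ℝ) ^ k < r then (2 : ℝ) ^ ((k : ℝ) * s) else 0)
          ≤ ∑ k ∈ range (K + 1), (2 : ℝ) ^ ((k : ℝ) * s) := by
        apply sum_le_sum
        intro k _
        split_ifs
        · exact le_rfl
        · exact (two_rpow_pos _).le
      refine h1.trans ((geom_succ_le hs K).trans ?_)
      apply mul_le_mul_of_nonneg_left _ hC.le
      rw [rpow_nat_mul]
      exact Real.rpow_le_rpow (by positivity) h.le hs.le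
    · rw [sum_range_succ, if_neg h, add_zero]; exact ih

/-- G2 -/
lemma geom_down_aux {s : ℝ} (hs : 0 < s) (K : ℕ) {r : ℝ} (hr : 0 < r) :
    ∑ k ∈ range K, (if r ≤ (2 : ℝ) ^ k then (2 : ℝ) ^ (-(k : ℝ) * s) else 0)
      ≤ Cs s * max 0 (r ^ (-s) - (2 : ℝ) ^ (-(K : ℝ) * s)) := by
  have hC := Cs_pos hs
  induction K with
  | zero => simp only [range_zero, sum_empty]; positivity
  | succ K ih =>
    rw [sum_range_succ]
    have h1 := one_lt_two_rpow hs
    have e1 : (2 : ℝ) ^ (-((K + 1 : ℕ) : ℝ) * s) * (2 : ℝ) ^ s = (2 : ℝ) ^ (-(K : ℝ) * s) := by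
      rw [← Real.rpow_add (by norm_num)]; congr 1; push_cast; ring
    have e2 : (2 : ℝ) ^ (-(K : ℝ) * s) = ((2 : ℝ) ^ K) ^ (-s) := by
      rw [← Real.rpow_natCast, ← Real.rpow_mul (by norm_num)]; congr 1; ring
    by_cases h : r ≤ (2 : ℝ) ^ K
    · rw [if_pos h]
      have h2 : (2 : ℝ) ^ (-(K : ℝ) * s) ≤ r ^ (-s) := by
        rw [e2]
        exact Real.rpow_le_rpow_of_nonpos hr h (by linarith)
      rw [max_eq_right (by linarith)] at ih
      have h3 : Cs s * (2 : ℝ) ^ (-((K + 1 : ℕ) : ℝ) * s)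
          = Cs s * (2 : ℝ) ^ (-(K : ℝ) * s) - (2 : ℝ) ^ (-(K : ℝ) * s) := by
        rw [← e1]; unfold Cs
        have h0 : ((2 : ℝ) ^ s - 1) ≠ 0 := by linarith
        field_simp
        ring
      calc _ ≤ Cs s * (r ^ (-s) - (2 : ℝ) ^ (-(K : ℝ) * s)) + (2 : ℝ) ^ (-(K : ℝ) * s) := by linarith
        _ = Cs s * (r ^ (-s) - (2 : ℝ) ^ (-((K + 1 : ℕ) : ℝ) * s)) := by linarith
        _ ≤ _ := mul_le_mul_of_nonneg_left (le_max_right _ _) hC.le
    · rw [if_neg h, add_zero]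
      rw [not_le] at h
      have h2 : r ^ (-s) ≤ (2 : ℝ) ^ (-(K : ℝ) * s) := by
        rw [e2]
        exact Real.rpow_le_rpow_of_nonpos (by positivity) h.le (by linarith)
      rw [max_eq_left (by linarith), mul_zero] at ih
      exact ih.trans (by positivity)

lemma geom_down {s : ℝ} (hs : 0 < s) (K : ℕ) {r : ℝ} (hr : 0 < r) :
    ∑ k ∈ range K, (if r ≤ (2 : ℝ) ^ k then (2 : ℝ) ^ (-(k : ℝ) * s) else 0)
      ≤ Cs s * r ^ (-s) := by
  refine (geom_down_aux hs K hr).trans ?_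
  apply mul_le_mul_of_nonneg_left _ (Cs_pos hs).le
  apply max_le (by positivity)
  have := two_rpow_pos (-(K : ℝ) * s)
  linarith

end T5

open T5

theorem levelSums (q : ℝ) (hq : 1 < q) : LevelSums q := by
  classical
  refine ⟨(if 1 < q then Cs (q - 1) else 1) + (if q < 2 then Cs (2 - q) else 1)
    + (if 2 < q then Cs (q - 2) else 1), ?_, ?_⟩
  · have h1 : 0 < (if 1 < q then Cs (q - 1) else (1:ℝ)) := by
      split_ifs; exact Cs_pos (by linarith)
    have h2 : 0 < (if q < 2 then Cs (2 - q) else (1:ℝ)) := by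
      split_ifs
      · exact Cs_pos (by linarith)
      · norm_num
    have h3 : 0 < (if 2 < q then Cs (q - 2) else (1:ℝ)) := by
      split_ifs
      · exact Cs_pos (by linarith)
      · norm_num
    linarith
  · intro K t
    have h1 : 0 < (if 1 < q then Cs (q - 1) else (1:ℝ)) := by
      split_ifs; exact Cs_pos (by linarith)
    have h2 : 0 < (if q < 2 then Cs (2 - q) else (1:ℝ)) := by
      split_ifs
      · exact Cs_pos (by linarith)
      · norm_num
    have h3 : 0 < (if 2 < q then Cs (q - 2) else (1:ℝ)) := by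
      split_ifs
      · exact Cs_pos (by linarith)
      · norm_num
    have hX : 0 ≤ |t| ^ q := by positivity
    have hdiff : ∀ k : ℕ, t - lowp k t = if (2:ℝ) ^ k < |t| then t else 0 := by
      intro k
      unfold lowp
      by_cases h : |t| ≤ (2:ℝ) ^ k
      · rw [if_pos h, if_neg (not_lt.mpr h)]; ring
      · rw [if_neg h, if_pos (not_le.mp h)]; ring
    refine ⟨?_, ?_, ?_⟩
    · intro _
      have : ∑ k ∈ range K, (2 : ℝ) ^ ((k : ℝ) * (q - 1)) * |t - lowp k t|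
          = |t| * ∑ k ∈ range K, (if (2:ℝ) ^ k < |t| then (2 : ℝ) ^ ((k : ℝ) * (q - 1)) else 0) := by
        rw [mul_sum]
        apply sum_congr rfl
        intro k _
        rw [hdiff]
        split_ifs <;> simp [mul_comm]
      rw [this]
      have hs : 0 < q - 1 := by linarith
      have h4 := geom_up hs K (abs_nonneg t)
      calc |t| * _ ≤ |t| * (Cs (q - 1) * |t| ^ (q - 1)) := mul_le_mul_of_nonneg_left h4 (abs_nonneg t)
        _ = Cs (q - 1) * |t| ^ q := by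
          have : |t| ^ q = |t| ^ (q - 1) * |t| := by
            rcases (abs_nonneg t).eq_or_lt with h | h
            · rw [← h, Real.zero_rpow (by linarith)]; ring
            · conv_rhs => rw [← Real.rpow_one |t|]
              rw [Real.rpow_one, ← Real.rpow_add_one h.ne']; congr 1; ring
          rw [this]; ring
        _ ≤ _ := by
          apply mul_le_mul_of_nonneg_right _ hX
          rw [if_pos hq] at *
          linarith
    · intro hq2 _
      have : ∑ k ∈ range K, (2 : ℝ) ^ (-(k : ℝ) * (2 - q)) * (lowp k t) ^ 2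
          = t ^ 2 * ∑ k ∈ range K, (if |t| ≤ (2:ℝ) ^ k then (2 : ℝ) ^ (-(k : ℝ) * (2 - q)) else 0) := by
        rw [mul_sum]
        apply sum_congr rfl
        intro k _
        unfold lowp
        split_ifs <;> simp [mul_comm]
      rw [this]
      have hs : 0 < 2 - q := by linarith
      rcases (abs_nonneg t).eq_or_lt with h | h
      · have : t = 0 := by rwa [eq_comm, abs_eq_zero] at h
        subst this
        simp only [ne_eq, OfNat.ofNat_ne_zero, not_false_eq_true, zero_pow, zero_mul]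
        positivity
      have h4 := geom_down hs K h
      calc t ^ 2 * _ ≤ t ^ 2 * (Cs (2 - q) * |t| ^ (-(2 - q))) :=
            mul_le_mul_of_nonneg_left h4 (by positivity)
        _ = Cs (2 - q) * |t| ^ q := by
          have : |t| ^ q = |t| ^ (-(2 - q)) * t ^ 2 := by
            rw [← sq_abs t, ← Real.rpow_natCast |t| 2, ← Real.rpow_add h]; congr 1; push_cast; ring
          rw [this]; ring
        _ ≤ _ := by
          apply mul_le_mul_of_nonneg_right _ hX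
          rw [if_pos hq2] at *
          linarith
    · intro hq2
      have : ∑ k ∈ range K, (2 : ℝ) ^ ((k : ℝ) * (q - 2)) * (t - lowp k t) ^ 2
          = t ^ 2 * ∑ k ∈ range K, (if (2:ℝ) ^ k < |t| then (2 : ℝ) ^ ((k : ℝ) * (q - 2)) else 0) := by
        rw [mul_sum]
        apply sum_congr rfl
        intro k _
        rw [hdiff]
        split_ifs <;> simp [mul_comm]
      rw [this]
      have hs : 0 < q - 2 := by linarith
      have h4 := geom_up hs K (abs_nonneg t)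
      calc t ^ 2 * _ ≤ t ^ 2 * (Cs (q - 2) * |t| ^ (q - 2)) :=
            mul_le_mul_of_nonneg_left h4 (by positivity)
        _ = Cs (q - 2) * |t| ^ q := by
          have : |t| ^ q = |t| ^ (q - 2) * t ^ 2 := by
            rcases (abs_nonneg t).eq_or_lt with h | h
            · have h0 : t = 0 := by rwa [eq_comm, abs_eq_zero] at h
              rw [← h, Real.zero_rpow (by linarith), h0]; ring
            · rw [← sq_abs t, ← Real.rpow_natCast |t| 2, ← Real.rpow_add h]; congr 1; push_cast; ring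
          rw [this]; ring
        _ ≤ _ := by
          apply mul_le_mul_of_nonneg_right _ hX
          rw [if_pos hq2] at *
          linarith

namespace T5

variable {Ω : Type}

lemma xi_nonneg (f : Ω → ℝ) (g : ℕ → Ω → ℝ) (k : ℕ) (ω : Ω) : 0 ≤ xi f g k ω := by
  unfold xi; split_ifs <;> exact abs_nonneg _

/-- `ξ_k ≤ |g_k| + |low f|` -/
lemma xi_le_low (f : Ω → ℝ) (g : ℕ → Ω → ℝ) (k : ℕ) (ω : Ω) :
    xi f g k ω ≤ |g k ω| + |lowp k (f ω)| := by
  unfold xi lowp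
  by_cases h : (2 : ℝ) ^ k < |f ω|
  · rw [if_pos h]; have := abs_nonneg (if |f ω| ≤ (2:ℝ) ^ k then f ω else 0); linarith
  · rw [if_neg h, if_pos (not_lt.mp h)]
    have := abs_sub (f ω) (g k ω); linarith

/-- `ξ_k ≤ |f - g_k| + |high f|` -/
lemma xi_le_high (f : Ω → ℝ) (g : ℕ → Ω → ℝ) (k : ℕ) (ω : Ω) :
    xi f g k ω ≤ |f ω - g k ω| + |f ω - lowp k (f ω)| := by
  unfold xi lowp
  by_cases h : (2 : ℝ) ^ k < |f ω|
  · rw [if_pos h, if_neg (not_le.mpr h), sub_zero]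
    have h1 : g k ω = f ω - (f ω - g k ω) := by ring
    have h2 := abs_sub (f ω) (f ω - g k ω)
    rw [← h1] at h2; linarith
  · rw [if_neg h]; have := abs_nonneg (f ω - if |f ω| ≤ (2:ℝ) ^ k then f ω else 0); linarith

lemma sq_le_two (a b c : ℝ) (h0 : 0 ≤ c) (h : c ≤ |a| + |b|) : c ^ 2 ≤ 2 * a ^ 2 + 2 * b ^ 2 := by
  have h1 : c ^ 2 ≤ (|a| + |b|) ^ 2 := by
    apply pow_le_pow_left₀ h0 h
  have h2 : (|a| + |b|) ^ 2 ≤ 2 * |a| ^ 2 + 2 * |b| ^ 2 := by nlinarith [sq_nonneg (|a| - |b|)]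
  rw [sq_abs, sq_abs] at h2
  linarith

/-- weighted Cauchy–Schwarz -/
lemma cs_aux (K : ℕ) (u : ℕ → ℝ) (a : ℕ → ℝ) (b : ℕ → ℝ) (ha : ∀ k, 0 ≤ a k) (hb : ∀ k, 0 ≤ b k)
    (hab : ∀ k, u k ≠ 0 → a k * b k = 1) :
    (∑ k ∈ range K, u k) ^ 2 ≤ (∑ k ∈ range K, a k * (u k) ^ 2) * ∑ k ∈ range K, (if u k = 0 then 0 else b k) := by
  apply Finset.sum_sq_le_sum_mul_sum_of_sq_le_mul
  · intro k _; have := ha k; positivity
  · intro k _; split_ifs
    · exact le_rfl
    · exact hb k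
  · intro k _
    by_cases h : u k = 0
    · simp [h]
    · rw [if_neg h]
      have := hab k h
      linear_combination (-(u k) ^ 2) * this

/-- pointwise inequality for `q > 2` -/
lemma point_gt {q : ℝ} (hq : 2 < q) (K : ℕ) (ξ : ℕ → ℝ) (β : ℝ) (hβ : 1 ≤ β) (h0 : ∀ k, 0 ≤ ξ k)
    (h1 : ∀ k, ξ k ≤ 2 * β * 2 ^ k) :
    (∑ k ∈ range K, ξ k) ^ q ≤
      (4 * 8 ^ (q - 2) * Cs (q - 2)) * β ^ (q - 2) * ∑ k ∈ range K, (2 : ℝ) ^ ((k : ℝ) * (q - 2)) * (ξ k) ^ 2 := by
  set S := ∑ k ∈ range K, ξ k with hS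
  set Z := ∑ k ∈ range K, (2 : ℝ) ^ ((k : ℝ) * (q - 2)) * (ξ k) ^ 2 with hZ
  have hs : 0 < q - 2 := by linarith
  have hC := Cs_pos hs
  have hZ0 : 0 ≤ Z := sum_nonneg fun k _ => by have := two_rpow_pos ((k : ℝ) * (q - 2)); positivity
  have hS0 : 0 ≤ S := sum_nonneg fun k _ => h0 k
  rcases hS0.eq_or_lt with h | hSpos
  · rw [← h, Real.zero_rpow (by linarith)]; positivity
  have hβ0 : 0 < β := by linarith
  set r := S / (8 * β) with hr
  have hr0 : 0 < r := by positivity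
  -- split
  have hsplit : S = ∑ k ∈ range K, (if (2:ℝ) ^ k < r then ξ k else 0)
      + ∑ k ∈ range K, (if r ≤ (2:ℝ) ^ k then ξ k else 0) := by
    rw [← sum_add_distrib, hS]
    apply sum_congr rfl
    intro k _
    by_cases h : (2:ℝ) ^ k < r
    · rw [if_pos h, if_neg (not_le.mpr h), add_zero]
    · rw [if_neg h, if_pos (not_lt.mp h), zero_add]
  have hC1 : Cs 1 = 2 := by unfold Cs; norm_num
  have hfirst : ∑ k ∈ range K, (if (2:ℝ) ^ k < r then ξ k else 0) ≤ S / 2 := by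
    have h2 : ∑ k ∈ range K, (if (2:ℝ) ^ k < r then ξ k else 0)
        ≤ 2 * β * ∑ k ∈ range K, (if (2:ℝ) ^ k < r then (2:ℝ) ^ ((k:ℝ) * 1) else 0) := by
      rw [mul_sum]
      apply sum_le_sum
      intro k _
      split_ifs
      · rw [mul_one, Real.rpow_natCast]; exact h1 k
      · simp
    have h3 := geom_up (s := 1) one_pos K hr0.le
    rw [hC1, Real.rpow_one] at h3
    calc _ ≤ _ := h2
      _ ≤ 2 * β * (2 * r) := mul_le_mul_of_nonneg_left h3 (by positivity)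
      _ = S / 2 := by rw [hr]; field_simp; ring
  have hsecond : S / 2 ≤ ∑ k ∈ range K, (if r ≤ (2:ℝ) ^ k then ξ k else 0) := by linarith
  have hcs := cs_aux K (fun k => if r ≤ (2:ℝ) ^ k then ξ k else 0)
    (fun k => (2 : ℝ) ^ ((k : ℝ) * (q - 2))) (fun k => (2 : ℝ) ^ (-(k : ℝ) * (q - 2)))
    (fun k => (two_rpow_pos _).le) (fun k => (two_rpow_pos _).le)
    (fun k _ => by rw [← Real.rpow_add (by norm_num)]; ring_nf; simp)
  have hA : ∑ k ∈ range K, (2 : ℝ) ^ ((k : ℝ) * (q - 2)) * (if r ≤ (2:ℝ) ^ k then ξ k else 0) ^ 2 ≤ Z := by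
    apply sum_le_sum
    intro k _
    have := two_rpow_pos ((k : ℝ) * (q - 2))
    split_ifs
    · exact le_rfl
    · simp; positivity
  have hB : ∑ k ∈ range K, (if (if r ≤ (2:ℝ) ^ k then ξ k else 0) = 0 then 0 else
      (2 : ℝ) ^ (-(k : ℝ) * (q - 2))) ≤ Cs (q - 2) * r ^ (-(q - 2)) := by
    refine le_trans ?_ (geom_down hs K hr0)
    apply sum_le_sum
    intro k _
    have := two_rpow_pos (-(k : ℝ) * (q - 2))
    by_cases hk : r ≤ (2:ℝ) ^ k
    · rw [if_pos hk, if_pos hk]; split_ifs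
      · exact this.le
      · exact le_rfl
    · rw [if_neg hk, if_neg hk]; simp
  have hB0 : 0 ≤ Cs (q - 2) * r ^ (-(q - 2)) := by positivity
  have hmain : S ^ 2 / 4 ≤ Z * (Cs (q - 2) * r ^ (-(q - 2))) := by
    have h5 : (S / 2) ^ 2 ≤ (∑ k ∈ range K, (if r ≤ (2:ℝ) ^ k then ξ k else 0)) ^ 2 :=
      pow_le_pow_left₀ (by positivity) hsecond 2
    calc S ^ 2 / 4 = (S / 2) ^ 2 := by ring
      _ ≤ _ := h5
      _ ≤ _ := hcs
      _ ≤ Z * _ := mul_le_mul_of_nonneg_right hA (sum_nonneg fun k _ => by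
            split_ifs <;> first | exact le_rfl | exact (two_rpow_pos _).le)
      _ ≤ _ := mul_le_mul_of_nonneg_left hB hZ0
  have hSq : S ^ q = S ^ 2 * S ^ (q - 2) := by
    rw [← Real.rpow_natCast S 2, ← Real.rpow_add hSpos]; congr 1; push_cast; ring
  have hrr : r ^ (-(q - 2)) * S ^ (q - 2) = 8 ^ (q - 2) * β ^ (q - 2) := by
    rw [Real.rpow_neg hr0.le, hr, Real.div_rpow hSpos.le (by positivity), Real.mul_rpow (by norm_num) hβ0.le]
    have h6 : S ^ (q - 2) ≠ 0 := (Real.rpow_pos_of_pos hSpos _).ne'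
    field_simp
  rw [hSq]
  calc S ^ 2 * S ^ (q - 2) = 4 * (S ^ 2 / 4) * S ^ (q - 2) := by ring
    _ ≤ 4 * (Z * (Cs (q - 2) * r ^ (-(q - 2)))) * S ^ (q - 2) := by
        apply mul_le_mul_of_nonneg_right _ (by positivity)
        linarith
    _ = 4 * Z * Cs (q - 2) * (r ^ (-(q - 2)) * S ^ (q - 2)) := by ring
    _ = _ := by rw [hrr]; ring

end T5

theorem gammaGt (q : ℝ) (hq : 2 < q) : GammaGt q := by
  intro C₀ hC₀
  obtain ⟨D, hD, hLS⟩ := levelSums q (by linarith)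
  have hs : 0 < q - 2 := by linarith
  have hC := Cs_pos hs
  refine ⟨(4 * 8 ^ (q - 2) * Cs (q - 2)) * (2 * C₀ + 2 * D) + (2 * C₀ + 2 * D), by positivity, ?_⟩
  intro Ω _ w hw K f g β hβ hf hg h3
  have hβ0 : 0 < β := by linarith
  have key : ∑ k ∈ range K, (2 : ℝ) ^ ((k : ℝ) * (q - 2)) * ∑ ω, w ω * (xi f g k ω) ^ 2
      ≤ 2 * C₀ + 2 * D := by
    have h4 : ∑ k ∈ range K, (2 : ℝ) ^ ((k : ℝ) * (q - 2)) * ∑ ω, w ω * (xi f g k ω) ^ 2
        ≤ 2 * ∑ k ∈ range K, (2 : ℝ) ^ ((k : ℝ) * (q - 2)) * ∑ ω, w ω * (f ω - g k ω) ^ 2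
          + 2 * ∑ k ∈ range K, (2 : ℝ) ^ ((k : ℝ) * (q - 2)) * ∑ ω, w ω * (f ω - lowp k (f ω)) ^ 2 := by
      rw [mul_sum, mul_sum, ← sum_add_distrib]
      apply sum_le_sum
      intro k _
      have h5 : ∑ ω, w ω * (xi f g k ω) ^ 2 ≤ 2 * ∑ ω, w ω * (f ω - g k ω) ^ 2
          + 2 * ∑ ω, w ω * (f ω - lowp k (f ω)) ^ 2 := by
        rw [mul_sum, mul_sum, ← sum_add_distrib]
        apply sum_le_sum
        intro ω _
        have h6 := sq_le_two _ _ _ (xi_nonneg f g k ω) (xi_le_high f g k ω)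
        have h7 := mul_le_mul_of_nonneg_left h6 (hw ω)
        linarith
      have h8 := mul_le_mul_of_nonneg_left h5 (two_rpow_pos ((k : ℝ) * (q - 2))).le
      linarith
    have h9 : ∑ k ∈ range K, (2 : ℝ) ^ ((k : ℝ) * (q - 2)) * ∑ ω, w ω * (f ω - lowp k (f ω)) ^ 2 ≤ D := by
      calc _ = ∑ ω, w ω * ∑ k ∈ range K, (2 : ℝ) ^ ((k : ℝ) * (q - 2)) * (f ω - lowp k (f ω)) ^ 2 := by
            simp_rw [mul_sum]
            rw [sum_comm]
            apply sum_congr rfl; intro ω _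
            apply sum_congr rfl; intro k _
            ring
        _ ≤ ∑ ω, w ω * (D * |f ω| ^ q) := by
            apply sum_le_sum
            intro ω _
            exact mul_le_mul_of_nonneg_left ((hLS K (f ω)).2.2 hq) (hw ω)
        _ = D * ∑ ω, w ω * |f ω| ^ q := by rw [mul_sum]; apply sum_congr rfl; intro ω _; ring
        _ ≤ D * 1 := mul_le_mul_of_nonneg_left hf hD.le
        _ = D := mul_one D
    linarith
  have hβq : 1 ≤ β ^ (q - 2) := Real.one_le_rpow hβ hs.le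
  refine ⟨?_, ?_⟩
  · have hpt : ∀ ω, (∑ k ∈ range K, xi f g k ω) ^ q ≤
        (4 * 8 ^ (q - 2) * Cs (q - 2)) * β ^ (q - 2)
          * ∑ k ∈ range K, (2 : ℝ) ^ ((k : ℝ) * (q - 2)) * (xi f g k ω) ^ 2 := by
      intro ω
      apply point_gt hq K _ β hβ (fun k => xi_nonneg f g k ω)
      intro k
      have h2k : (0:ℝ) < 2 ^ k := by positivity
      unfold xi
      split_ifs with h
      · have := hg k ω; nlinarith
      · have h1 := abs_sub (f ω) (g k ω)
        have h2 := hg k ω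
        rw [not_lt] at h
        nlinarith
    calc ∑ ω, w ω * (∑ k ∈ range K, xi f g k ω) ^ q
        ≤ ∑ ω, w ω * ((4 * 8 ^ (q - 2) * Cs (q - 2)) * β ^ (q - 2)
          * ∑ k ∈ range K, (2 : ℝ) ^ ((k : ℝ) * (q - 2)) * (xi f g k ω) ^ 2) :=
          sum_le_sum fun ω _ => mul_le_mul_of_nonneg_left (hpt ω) (hw ω)
      _ = (4 * 8 ^ (q - 2) * Cs (q - 2)) * β ^ (q - 2) *
          ∑ k ∈ range K, (2 : ℝ) ^ ((k : ℝ) * (q - 2)) * ∑ ω, w ω * (xi f g k ω) ^ 2 := by
            simp_rw [mul_sum]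
            rw [sum_comm]
            apply sum_congr rfl; intro k _
            apply sum_congr rfl; intro ω _
            ring
      _ ≤ (4 * 8 ^ (q - 2) * Cs (q - 2)) * β ^ (q - 2) * (2 * C₀ + 2 * D) :=
          mul_le_mul_of_nonneg_left key (by positivity)
      _ ≤ _ := by
          have : 0 ≤ (2 * C₀ + 2 * D) * β ^ (q - 2) := by positivity
          nlinarith
  · refine key.trans ?_
    have : 0 ≤ (4 * 8 ^ (q - 2) * Cs (q - 2)) * (2 * C₀ + 2 * D) := by positivity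
    linarith

namespace T5

lemma rpow_add_sub_le {q A b : ℝ} (hq : 1 ≤ q) (hA : 0 ≤ A) (hb : 0 ≤ b) :
    (A + b) ^ q ≤ A ^ q + q * b * (A + b) ^ (q - 1) := by
  rcases (add_nonneg hA hb).eq_or_lt with h | h
  · rw [← h]
    have hb0 : b = 0 := by linarith
    have hA0 : A = 0 := by linarith
    rw [hb0, hA0]; simp
  · have h1 : -1 ≤ -b / (A + b) := by
      rw [neg_div, neg_le_neg_iff, div_le_one h]; linarith
    have h2 := one_add_mul_self_le_rpow_one_add h1 hq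
    have h3 : 1 + -b / (A + b) = A / (A + b) := by field_simp; ring
    rw [h3, Real.div_rpow hA h.le] at h2
    have h4 : 0 < (A + b) ^ q := Real.rpow_pos_of_pos h q
    rw [le_div_iff₀ h4] at h2
    have h5 : (A + b) ^ q = (A + b) ^ (q - 1) * (A + b) := by
      rw [← Real.rpow_add_one h.ne']; congr 1; ring
    have h6 : (1 + q * (-b / (A + b))) * (A + b) ^ q = (A + b) ^ q - q * b * (A + b) ^ (q - 1) := by
      have : (1 + q * (-b / (A + b))) * (A + b) ^ q
          = (A + b) ^ q + q * (-b / (A + b)) * (A + b) ^ q := by ring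
      rw [this]
      have : q * (-b / (A + b)) * (A + b) ^ q = - (q * b * (A + b) ^ (q - 1)) := by
        rw [h5]; field_simp
      rw [this]; ring
    linarith

lemma small_part {q : ℝ} (hq : 1 < q) (β : ℝ) (hβ : 0 < β) (K : ℕ) (θ : ℕ → ℝ)
    (h0 : ∀ k, 0 ≤ θ k) (h1 : ∀ k, θ k ≤ 2 ^ k / β) :
    (∑ k ∈ range K, θ k) ^ q ≤
      (q * 2 ^ (q - 1)) * β ^ (-(q - 1)) * ∑ k ∈ range K, (2 : ℝ) ^ ((k : ℝ) * (q - 1)) * θ k := by
  induction K with
  | zero => simp; rw [Real.zero_rpow (by linarith)]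
  | succ K ih =>
    rw [sum_range_succ, sum_range_succ]
    have hA : 0 ≤ ∑ k ∈ range K, θ k := sum_nonneg fun k _ => h0 k
    have h2 := rpow_add_sub_le hq.le hA (h0 K)
    have h3 : ∑ k ∈ range K, θ k + θ K ≤ 2 * 2 ^ K / β := by
      rw [← sum_range_succ]
      calc ∑ k ∈ range (K + 1), θ k ≤ ∑ k ∈ range (K + 1), 2 ^ k / β := sum_le_sum fun k _ => h1 k
        _ = (∑ k ∈ range (K + 1), (2:ℝ) ^ k) / β := by rw [sum_div]
        _ ≤ 2 * 2 ^ K / β := by
          apply div_le_div_of_nonneg_right _ hβ.le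
          rw [geom_sum_eq (by norm_num)]
          rw [pow_succ]; norm_num; linarith
    have h4 : (∑ k ∈ range K, θ k + θ K) ^ (q - 1) ≤ 2 ^ (q - 1) * β ^ (-(q - 1)) * 2 ^ ((K : ℝ) * (q - 1)) := by
      calc (∑ k ∈ range K, θ k + θ K) ^ (q - 1) ≤ (2 * 2 ^ K / β) ^ (q - 1) :=
            Real.rpow_le_rpow (add_nonneg hA (h0 K)) h3 (by linarith)
        _ = _ := by
          rw [Real.div_rpow (by positivity) hβ.le, Real.mul_rpow (by norm_num) (by positivity),
            Real.rpow_neg hβ.le, rpow_nat_mul]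
          ring
    have h5 : q * θ K * (∑ k ∈ range K, θ k + θ K) ^ (q - 1) ≤
        q * θ K * (2 ^ (q - 1) * β ^ (-(q - 1)) * 2 ^ ((K : ℝ) * (q - 1))) :=
      mul_le_mul_of_nonneg_left h4 (mul_nonneg (by linarith) (h0 K))
    calc _ ≤ _ := h2
      _ ≤ (q * 2 ^ (q - 1)) * β ^ (-(q - 1)) * ∑ k ∈ range K, (2 : ℝ) ^ ((k : ℝ) * (q - 1)) * θ k
          + q * θ K * (2 ^ (q - 1) * β ^ (-(q - 1)) * 2 ^ ((K : ℝ) * (q - 1))) := add_le_add ih h5
      _ = _ := by ring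

lemma large_part {q : ℝ} (hq0 : 1 < q) (hq : q < 2) (β : ℝ) (hβ : 0 < β) (K : ℕ) (z : ℕ → ℝ)
    (h0 : ∀ k, 0 ≤ z k) (h1 : ∀ k, z k ≠ 0 → 2 ^ k / β ≤ z k) :
    (∑ k ∈ range K, z k) ^ q ≤
      Cs (2 - q) * β ^ (2 - q) * ∑ k ∈ range K, (2 : ℝ) ^ (-(k : ℝ) * (2 - q)) * (z k) ^ 2 := by
  have hs : 0 < 2 - q := by linarith
  have hC := Cs_pos hs
  induction K with
  | zero => simp; rw [Real.zero_rpow (by linarith)]
  | succ K ih =>
    by_cases hz : z K = 0
    · rw [sum_range_succ, sum_range_succ, hz]; simpa using ih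
    · set S := ∑ k ∈ range (K + 1), z k with hS
      set Z := ∑ k ∈ range (K + 1), (2 : ℝ) ^ (-(k : ℝ) * (2 - q)) * (z k) ^ 2 with hZ
      have hZ0 : 0 ≤ Z := sum_nonneg fun k _ => by
        have := two_rpow_pos (-(k : ℝ) * (2 - q)); positivity
      have h2 : 2 ^ K / β ≤ S := by
        rw [hS, sum_range_succ]
        have hA : 0 ≤ ∑ k ∈ range K, z k := sum_nonneg fun k _ => h0 k
        have := h1 K hz
        linarith
      have hτ : 0 < (2:ℝ) ^ K / β := by positivity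
      have hSpos : 0 < S := lt_of_lt_of_le hτ h2
      have hcs := cs_aux (K + 1) z
        (fun k => (2 : ℝ) ^ (-(k : ℝ) * (2 - q))) (fun k => (2 : ℝ) ^ ((k : ℝ) * (2 - q)))
        (fun k => (two_rpow_pos _).le) (fun k => (two_rpow_pos _).le)
        (fun k _ => by rw [← Real.rpow_add (by norm_num)]; ring_nf; simp)
      have hB : ∑ k ∈ range (K + 1), (if z k = 0 then 0 else (2 : ℝ) ^ ((k : ℝ) * (2 - q)))
          ≤ Cs (2 - q) * (2 : ℝ) ^ ((K : ℝ) * (2 - q)) := by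
        refine le_trans ?_ (geom_succ_le hs K)
        apply sum_le_sum
        intro k _
        split_ifs
        · exact (two_rpow_pos _).le
        · exact le_rfl
      have h3 : S ^ 2 ≤ Z * (Cs (2 - q) * (2 : ℝ) ^ ((K : ℝ) * (2 - q))) :=
        hcs.trans (mul_le_mul_of_nonneg_left hB hZ0)
      have hSq : S ^ q = S ^ 2 * S ^ (q - 2) := by
        rw [← Real.rpow_natCast S 2, ← Real.rpow_add hSpos]; congr 1; push_cast; ring
      have h4 : S ^ (q - 2) ≤ ((2:ℝ) ^ K / β) ^ (q - 2) :=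
        Real.rpow_le_rpow_of_nonpos hτ h2 (by linarith)
      have h5 : (2 : ℝ) ^ ((K : ℝ) * (2 - q)) * ((2:ℝ) ^ K / β) ^ (q - 2) = β ^ (2 - q) := by
        rw [rpow_nat_mul, show q - 2 = -(2 - q) by ring, Real.rpow_neg hτ.le,
          Real.div_rpow (by positivity) hβ.le]
        have h6 : ((2:ℝ) ^ K) ^ (2 - q) ≠ 0 := (Real.rpow_pos_of_pos (by positivity) _).ne'
        have h7 : β ^ (2 - q) ≠ 0 := (Real.rpow_pos_of_pos hβ _).ne'
        field_simp
      rw [hSq]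
      calc S ^ 2 * S ^ (q - 2) ≤ (Z * (Cs (2 - q) * (2 : ℝ) ^ ((K : ℝ) * (2 - q)))) * ((2:ℝ) ^ K / β) ^ (q - 2) := by
            apply mul_le_mul h3 h4 (by positivity) (by positivity)
        _ = Z * Cs (2 - q) * ((2 : ℝ) ^ ((K : ℝ) * (2 - q)) * ((2:ℝ) ^ K / β) ^ (q - 2)) := by ring
        _ = _ := by rw [h5]; ring

lemma add_rpow_le_two {q a b : ℝ} (hq : 0 ≤ q) (ha : 0 ≤ a) (hb : 0 ≤ b) :
    (a + b) ^ q ≤ 2 ^ q * (a ^ q + b ^ q) := by
  have h1 : a + b ≤ 2 * max a b := by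
    have := le_max_left a b; have := le_max_right a b; linarith
  have hm : 0 ≤ max a b := le_max_of_le_left ha
  calc (a + b) ^ q ≤ (2 * max a b) ^ q := Real.rpow_le_rpow (add_nonneg ha hb) h1 hq
    _ = 2 ^ q * (max a b) ^ q := Real.mul_rpow (by norm_num) hm
    _ ≤ _ := by
      apply mul_le_mul_of_nonneg_left _ (two_rpow_pos q).le
      have ha' : 0 ≤ a ^ q := Real.rpow_nonneg ha q
      have hb' : 0 ≤ b ^ q := Real.rpow_nonneg hb q
      rcases le_total a b with h | h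
      · rw [max_eq_right h]; linarith
      · rw [max_eq_left h]; linarith

/-- pointwise inequality for `1 < q < 2` -/
lemma point_lt {q : ℝ} (hq0 : 1 < q) (hq : q < 2) (K : ℕ) (ξ : ℕ → ℝ) (β : ℝ) (hβ : 0 < β)
    (h0 : ∀ k, 0 ≤ ξ k) :
    (∑ k ∈ range K, ξ k) ^ q ≤
      2 ^ q * ((q * 2 ^ (q - 1)) * β ^ (-(q - 1)) * ∑ k ∈ range K, (2 : ℝ) ^ ((k : ℝ) * (q - 1)) * ξ k
        + Cs (2 - q) * β ^ (2 - q) * ∑ k ∈ range K, (2 : ℝ) ^ (-(k : ℝ) * (2 - q)) * (ξ k) ^ 2) := by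
  have hs : 0 < 2 - q := by linarith
  have hC := Cs_pos hs
  have hsplit : ∑ k ∈ range K, ξ k = ∑ k ∈ range K, (if ξ k ≤ 2 ^ k / β then ξ k else 0)
      + ∑ k ∈ range K, (if ξ k ≤ 2 ^ k / β then 0 else ξ k) := by
    rw [← sum_add_distrib]
    apply sum_congr rfl
    intro k _
    split_ifs <;> simp
  have hn1 : ∀ k, 0 ≤ (if ξ k ≤ 2 ^ k / β then ξ k else 0) := fun k => by
    split_ifs
    · exact h0 k
    · exact le_rfl
  have hn2 : ∀ k, 0 ≤ (if ξ k ≤ 2 ^ k / β then 0 else ξ k) := fun k => by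
    split_ifs
    · exact le_rfl
    · exact h0 k
  have hs1 := small_part hq0 β hβ K (fun k => if ξ k ≤ 2 ^ k / β then ξ k else 0) hn1
    (fun k => by
      show (if ξ k ≤ 2 ^ k / β then ξ k else 0) ≤ 2 ^ k / β
      split_ifs with h
      · exact h
      · positivity)
  have hs2 := large_part hq0 hq β hβ K (fun k => if ξ k ≤ 2 ^ k / β then 0 else ξ k) hn2
    (fun k => by
      show (if ξ k ≤ 2 ^ k / β then 0 else ξ k) ≠ 0 → 2 ^ k / β ≤ (if ξ k ≤ 2 ^ k / β then 0 else ξ k)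
      split_ifs with h
      · intro hh; exact absurd rfl hh
      · intro _; exact (not_le.mp h).le)
  rw [hsplit]
  refine (add_rpow_le_two (by linarith) (sum_nonneg fun k _ => hn1 k) (sum_nonneg fun k _ => hn2 k)).trans ?_
  apply mul_le_mul_of_nonneg_left _ (two_rpow_pos q).le
  apply add_le_add
  · refine hs1.trans ?_
    apply mul_le_mul_of_nonneg_left _ (by positivity)
    apply sum_le_sum
    intro k _
    apply mul_le_mul_of_nonneg_left _ (two_rpow_pos _).le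
    show (if ξ k ≤ 2 ^ k / β then ξ k else 0) ≤ ξ k
    split_ifs
    · exact le_rfl
    · exact h0 k
  · refine hs2.trans ?_
    apply mul_le_mul_of_nonneg_left _ (by positivity)
    apply sum_le_sum
    intro k _
    apply mul_le_mul_of_nonneg_left _ (two_rpow_pos _).le
    show (if ξ k ≤ 2 ^ k / β then 0 else ξ k) ^ 2 ≤ (ξ k) ^ 2
    split_ifs
    · simp; positivity
    · exact le_rfl

end T5

theorem gammaLt (q : ℝ) (hq0 : 1 < q) (hq : q < 2) : GammaLt q := by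
  intro C₀ hC₀
  obtain ⟨D, hD, hLS⟩ := levelSums q hq0
  have hs : 0 < 2 - q := by linarith
  have hC := Cs_pos hs
  refine ⟨2 ^ q * ((q * 2 ^ (q - 1)) * (C₀ + D) + Cs (2 - q) * (2 * C₀ + 2 * D)), by positivity, ?_⟩
  intro Ω _ w hw K f g β hβ hf h2 h1
  have hβ0 : 0 < β := by linarith
  have key2 : ∑ k ∈ range K, (2 : ℝ) ^ (-(k : ℝ) * (2 - q)) * ∑ ω, w ω * (xi f g k ω) ^ 2
      ≤ 2 * C₀ + 2 * D := by
    have h4 : ∑ k ∈ range K, (2 : ℝ) ^ (-(k : ℝ) * (2 - q)) * ∑ ω, w ω * (xi f g k ω) ^ 2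
        ≤ 2 * ∑ k ∈ range K, (2 : ℝ) ^ (-(k : ℝ) * (2 - q)) * ∑ ω, w ω * (g k ω) ^ 2
          + 2 * ∑ k ∈ range K, (2 : ℝ) ^ (-(k : ℝ) * (2 - q)) * ∑ ω, w ω * (lowp k (f ω)) ^ 2 := by
      rw [mul_sum, mul_sum, ← sum_add_distrib]
      apply sum_le_sum
      intro k _
      have h5 : ∑ ω, w ω * (xi f g k ω) ^ 2 ≤ 2 * ∑ ω, w ω * (g k ω) ^ 2
          + 2 * ∑ ω, w ω * (lowp k (f ω)) ^ 2 := by
        rw [mul_sum, mul_sum, ← sum_add_distrib]
        apply sum_le_sum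
        intro ω _
        have h6 := sq_le_two _ _ _ (xi_nonneg f g k ω) (xi_le_low f g k ω)
        have h7 := mul_le_mul_of_nonneg_left h6 (hw ω)
        linarith
      have h8 := mul_le_mul_of_nonneg_left h5 (two_rpow_pos (-(k : ℝ) * (2 - q))).le
      linarith
    have h9 : ∑ k ∈ range K, (2 : ℝ) ^ (-(k : ℝ) * (2 - q)) * ∑ ω, w ω * (lowp k (f ω)) ^ 2 ≤ D := by
      calc _ = ∑ ω, w ω * ∑ k ∈ range K, (2 : ℝ) ^ (-(k : ℝ) * (2 - q)) * (lowp k (f ω)) ^ 2 := by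
            simp_rw [mul_sum]
            rw [sum_comm]
            apply sum_congr rfl; intro ω _
            apply sum_congr rfl; intro k _
            ring
        _ ≤ ∑ ω, w ω * (D * |f ω| ^ q) := by
            apply sum_le_sum
            intro ω _
            exact mul_le_mul_of_nonneg_left ((hLS K (f ω)).2.1 hq (by linarith)) (hw ω)
        _ = D * ∑ ω, w ω * |f ω| ^ q := by rw [mul_sum]; apply sum_congr rfl; intro ω _; ring
        _ ≤ D * 1 := mul_le_mul_of_nonneg_left hf hD.le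
        _ = D := mul_one D
    linarith
  have key1 : ∑ k ∈ range K, (2 : ℝ) ^ ((k : ℝ) * (q - 1)) * ∑ ω, w ω * xi f g k ω
      ≤ (C₀ + D) * β := by
    have h4 : ∑ k ∈ range K, (2 : ℝ) ^ ((k : ℝ) * (q - 1)) * ∑ ω, w ω * xi f g k ω
        ≤ ∑ k ∈ range K, (2 : ℝ) ^ ((k : ℝ) * (q - 1)) * ∑ ω, w ω * |f ω - g k ω|
          + ∑ k ∈ range K, (2 : ℝ) ^ ((k : ℝ) * (q - 1)) * ∑ ω, w ω * |f ω - lowp k (f ω)| := by
      rw [← sum_add_distrib]
      apply sum_le_sum
      intro k _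
      have h5 : ∑ ω, w ω * xi f g k ω ≤ ∑ ω, w ω * |f ω - g k ω|
          + ∑ ω, w ω * |f ω - lowp k (f ω)| := by
        rw [← sum_add_distrib]
        apply sum_le_sum
        intro ω _
        have h7 := mul_le_mul_of_nonneg_left (xi_le_high f g k ω) (hw ω)
        linarith
      have h8 := mul_le_mul_of_nonneg_left h5 (two_rpow_pos ((k : ℝ) * (q - 1))).le
      linarith
    have h9 : ∑ k ∈ range K, (2 : ℝ) ^ ((k : ℝ) * (q - 1)) * ∑ ω, w ω * |f ω - lowp k (f ω)| ≤ D := by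
      calc _ = ∑ ω, w ω * ∑ k ∈ range K, (2 : ℝ) ^ ((k : ℝ) * (q - 1)) * |f ω - lowp k (f ω)| := by
            simp_rw [mul_sum]
            rw [sum_comm]
            apply sum_congr rfl; intro ω _
            apply sum_congr rfl; intro k _
            ring
        _ ≤ ∑ ω, w ω * (D * |f ω| ^ q) := by
            apply sum_le_sum
            intro ω _
            exact mul_le_mul_of_nonneg_left ((hLS K (f ω)).1 hq0) (hw ω)
        _ = D * ∑ ω, w ω * |f ω| ^ q := by rw [mul_sum]; apply sum_congr rfl; intro ω _; ring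
        _ ≤ D * 1 := mul_le_mul_of_nonneg_left hf hD.le
        _ = D := mul_one D
    nlinarith
  have hβb : β ^ (-(q - 1)) * β = β ^ (2 - q) := by
    rw [← Real.rpow_add_one hβ0.ne']; congr 1; ring
  calc ∑ ω, w ω * (∑ k ∈ range K, xi f g k ω) ^ q
      ≤ ∑ ω, w ω * (2 ^ q * ((q * 2 ^ (q - 1)) * β ^ (-(q - 1)) * ∑ k ∈ range K, (2 : ℝ) ^ ((k : ℝ) * (q - 1)) * xi f g k ω
        + Cs (2 - q) * β ^ (2 - q) * ∑ k ∈ range K, (2 : ℝ) ^ (-(k : ℝ) * (2 - q)) * (xi f g k ω) ^ 2)) :=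
        sum_le_sum fun ω _ => mul_le_mul_of_nonneg_left
          (point_lt hq0 hq K _ β hβ0 (fun k => xi_nonneg f g k ω)) (hw ω)
    _ = 2 ^ q * ((q * 2 ^ (q - 1)) * β ^ (-(q - 1)) * ∑ k ∈ range K, (2 : ℝ) ^ ((k : ℝ) * (q - 1)) * ∑ ω, w ω * xi f g k ω
        + Cs (2 - q) * β ^ (2 - q) * ∑ k ∈ range K, (2 : ℝ) ^ (-(k : ℝ) * (2 - q)) * ∑ ω, w ω * (xi f g k ω) ^ 2) := by
          have e1 : ∑ k ∈ range K, (2 : ℝ) ^ ((k : ℝ) * (q - 1)) * ∑ ω, w ω * xi f g k ω
              = ∑ ω, w ω * ∑ k ∈ range K, (2 : ℝ) ^ ((k : ℝ) * (q - 1)) * xi f g k ω := by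
            simp_rw [mul_sum]
            rw [sum_comm]
            apply sum_congr rfl; intro ω _
            apply sum_congr rfl; intro k _
            ring
          have e2 : ∑ k ∈ range K, (2 : ℝ) ^ (-(k : ℝ) * (2 - q)) * ∑ ω, w ω * (xi f g k ω) ^ 2
              = ∑ ω, w ω * ∑ k ∈ range K, (2 : ℝ) ^ (-(k : ℝ) * (2 - q)) * (xi f g k ω) ^ 2 := by
            simp_rw [mul_sum]
            rw [sum_comm]
            apply sum_congr rfl; intro ω _
            apply sum_congr rfl; intro k _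
            ring
          rw [e1, e2, mul_add, ← mul_assoc, ← mul_assoc, ← mul_assoc, ← mul_assoc, mul_sum, mul_sum,
            ← sum_add_distrib]
          apply sum_congr rfl; intro ω _
          ring
    _ ≤ 2 ^ q * ((q * 2 ^ (q - 1)) * β ^ (-(q - 1)) * ((C₀ + D) * β)
        + Cs (2 - q) * β ^ (2 - q) * (2 * C₀ + 2 * D)) := by
          apply mul_le_mul_of_nonneg_left _ (two_rpow_pos q).le
          apply add_le_add
          · exact mul_le_mul_of_nonneg_left key1 (by positivity)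
          · exact mul_le_mul_of_nonneg_left key2 (by positivity)
    _ = 2 ^ q * ((q * 2 ^ (q - 1)) * (C₀ + D) * (β ^ (-(q - 1)) * β)
        + Cs (2 - q) * (2 * C₀ + 2 * D) * β ^ (2 - q)) := by ring
    _ = _ := by rw [hβb]; ring

end Crest.Agent.H27
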