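import Mathlib
import Crest.Agent.H27.Defs

set_option autoImplicit false

namespace Crest.Agent.H27

open scoped BigOperators
open Finset

namespace T6

/-- the normalising factor -/
noncomputable def rho (q t : ℝ) : ℝ := (|t| ^ q + |1 - t| ^ q) ^ (1 / q)

lemma rho_symm (q t : ℝ) : rho q (1 - t) = rho q t := by
  unfold rho; rw [show 1 - (1 - t) = t by ring, add_comm]

lemma abs_le_rho {q : ℝ} (hq : 1 ≤ q) (t : ℝ) : |t| ≤ rho q t := by
  unfold rho
  have hq0 : 0 < q := by linarith
  calc |t| = (|t| ^ q) ^ (1 / q) := by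
        rw [← Real.rpow_mul (abs_nonneg t), mul_one_div_cancel hq0.ne', Real.rpow_one]
    _ ≤ _ := Real.rpow_le_rpow (by positivity) (by linarith [Real.rpow_nonneg (abs_nonneg (1 - t)) q])
        (by positivity)

lemma half_le_rho {q : ℝ} (hq : 1 ≤ q) (t : ℝ) : 1 / 2 ≤ rho q t := by
  have h1 := abs_le_rho hq t
  have h2 := abs_le_rho hq (1 - t)
  rw [rho_symm] at h2
  have h3 := le_abs_self t
  have h4 := le_abs_self (1 - t)
  linarith

lemma rho_lip {q : ℝ} (hq : 1 ≤ q) (s t : ℝ) : rho q s ≤ rho q t + 2 * |s - t| := by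
  have hq0 : 0 < q := by linarith
  have h := Real.Lp_add_le (univ : Finset Bool) (fun b => if b then t else 1 - t)
    (fun b => if b then s - t else t - s) hq
  simp only [Fintype.univ_bool, mem_singleton, reduceCtorEq, not_false_eq_true, sum_insert,
    if_true, sum_singleton, Bool.false_eq_true, if_false] at h
  rw [show t + (s - t) = s by ring, show 1 - t + (t - s) = 1 - s by ring] at h
  refine h.trans ?_
  apply add_le_add le_rfl
  rw [abs_sub_comm t s, ← two_mul, Real.mul_rpow (by norm_num) (by positivity),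
    ← Real.rpow_mul (abs_nonneg _), mul_one_div_cancel hq0.ne', Real.rpow_one]
  apply mul_le_mul_of_nonneg_right _ (abs_nonneg _)
  calc (2:ℝ) ^ (1 / q) ≤ 2 ^ (1:ℝ) := Real.rpow_le_rpow_of_exponent_le (by norm_num)
        (by rw [div_le_one hq0]; exact hq)
    _ = 2 := Real.rpow_one 2

/-- the profile -/
noncomputable def uu (q t : ℝ) : ℝ := t / rho q t

lemma uu_zero (q : ℝ) : uu q 0 = 0 := by unfold uu; simp

lemma uu_nonneg {q t : ℝ} (hq : 1 ≤ q) (ht : 0 ≤ t) : 0 ≤ uu q t := by
  unfold uu
  have := half_le_rho hq t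
  apply div_nonneg ht; linarith

lemma uu_le_one {q t : ℝ} (hq : 1 ≤ q) : uu q t ≤ 1 := by
  unfold uu
  have := half_le_rho hq t
  have h1 := abs_le_rho hq t
  have h3 := le_abs_self t
  rw [div_le_one (by linarith)]; linarith

lemma uu_pow {q t : ℝ} (hq : 1 ≤ q) (ht : 0 ≤ t) (ht1 : t ≤ 1) :
    (uu q (1 - t)) ^ q + (uu q t) ^ q = 1 := by
  unfold uu
  have h0 := half_le_rho hq t
  have hq0 : 0 < q := by linarith
  rw [rho_symm, Real.div_rpow (by linarith) (by linarith), Real.div_rpow ht (by linarith), ← add_div]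
  have h1 : (rho q t) ^ q = (1 - t) ^ q + t ^ q := by
    unfold rho
    rw [← Real.rpow_mul (by positivity), one_div_mul_cancel hq0.ne', Real.rpow_one,
      abs_of_nonneg ht, abs_of_nonneg (by linarith : 0 ≤ 1 - t), add_comm]
  rw [h1, div_self]
  rw [← h1]
  exact (Real.rpow_pos_of_pos (by linarith) q).ne'

lemma uu_lip {q : ℝ} (hq : 1 ≤ q) (s t : ℝ) (ht : 0 ≤ t) : |uu q s - uu q t| ≤ 6 * |s - t| := by
  unfold uu
  have h1 := half_le_rho hq s
  have h2 := half_le_rho hq t
  have h3 := abs_le_rho hq t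
  rw [abs_of_nonneg ht] at h3
  have h4 := rho_lip hq s t
  have h5 := rho_lip hq t s
  rw [abs_sub_comm t s] at h5
  have hs0 : 0 < rho q s := by linarith
  have ht0 : 0 < rho q t := by linarith
  have e : s / rho q s - t / rho q t
      = ((s - t) + (t / rho q t) * (rho q t - rho q s)) / rho q s := by
    field_simp; ring
  rw [e, abs_div, abs_of_pos hs0, div_le_iff₀ hs0]
  have h6 : |t / rho q t| ≤ 1 := by
    rw [abs_of_nonneg (by positivity), div_le_one ht0]; exact h3
  have h7 : |rho q t - rho q s| ≤ 2 * |s - t| := by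
    rw [abs_le]; constructor <;> linarith
  have h8 : |(t / rho q t) * (rho q t - rho q s)| ≤ 2 * |s - t| := by
    rw [abs_mul]
    calc _ ≤ 1 * (2 * |s - t|) := mul_le_mul h6 h7 (abs_nonneg _) (by norm_num)
      _ = _ := one_mul _
  have h9 := abs_add_le (s - t) ((t / rho q t) * (rho q t - rho q s))
  have h10 := abs_nonneg (s - t)
  nlinarith

/-- the windows -/
noncomputable def eta (q : ℝ) (J l j : ℕ) : ℝ :=
  if l = j / J then uu q (1 - ((j % J : ℕ) : ℝ) / J)
  else if l = j / J + 1 then uu q (((j % J : ℕ) : ℝ) / J) else 0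

lemma eta_succ {q : ℝ} (J l j : ℕ) (hJ : 0 < J) : eta q J l (j + 1) =
    if l = j / J then uu q (1 - (((j % J : ℕ) : ℝ) + 1) / J)
    else if l = j / J + 1 then uu q ((((j % J : ℕ) : ℝ) + 1) / J) else 0 := by
  have hJ' : (J : ℝ) ≠ 0 := by positivity
  have hmod := Nat.mod_lt j hJ
  have hdm := Nat.div_add_mod j J
  by_cases h : j % J + 1 = J
  · have e1 : (j + 1) = (j / J + 1) * J := by
      have : (j / J + 1) * J = J * (j / J) + J := by ring
      omega
    have e2 : (j + 1) / J = j / J + 1 := by rw [e1, Nat.mul_div_cancel _ hJ]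
    have e3 : (j + 1) % J = 0 := by rw [e1, Nat.mul_mod_left]
    have e4 : (((j % J : ℕ) : ℝ) + 1) / J = 1 := by
      rw [div_eq_one_iff_eq hJ']; exact_mod_cast h
    unfold eta
    rw [e2, e3, e4]
    simp only [Nat.cast_zero, zero_div, sub_zero, sub_self, uu_zero]
    by_cases hl : l = j / J
    · have h1 : ¬ (l = j / J + 1) := by omega
      have h2 : ¬ (l = j / J + 1 + 1) := by omega
      rw [if_neg h1, if_neg h2, if_pos hl]
    · by_cases hl1 : l = j / J + 1
      · rw [if_pos hl1, if_neg hl, if_pos hl1]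
      · rw [if_neg hl1, if_neg hl, if_neg hl1]; simp
  · have e1 : j + 1 = (j % J + 1) + J * (j / J) := by omega
    have e2 : (j + 1) / J = j / J := by
      rw [e1, Nat.add_mul_div_left _ _ hJ, Nat.div_eq_of_lt (by omega), zero_add]
    have e3 : (j + 1) % J = j % J + 1 := by
      rw [e1, Nat.add_mul_mod_self_left, Nat.mod_eq_of_lt (by omega)]
    unfold eta
    rw [e2, e3]
    push_cast
    rfl

end T6

open T6

theorem existsEta : ExistsEta := by
  intro q hq J hJ
  have hJ0 : (0 : ℝ) < J := by exact_mod_cast hJ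
  have hfrac0 : ∀ j : ℕ, 0 ≤ ((j % J : ℕ) : ℝ) / J := fun j => by positivity
  have hfrac1 : ∀ j : ℕ, ((j % J : ℕ) : ℝ) / J ≤ 1 := fun j => by
    rw [div_le_one hJ0]; exact_mod_cast (Nat.mod_lt j hJ).le
  have hfrac2 : ∀ j : ℕ, (((j % J : ℕ) : ℝ) + 1) / J ≤ 1 := fun j => by
    rw [div_le_one hJ0]; exact_mod_cast (Nat.mod_lt j hJ)
  refine ⟨fun l j => eta q J l j, ?_, ?_, ?_, ?_, ?_⟩
  · intro l j
    show 0 ≤ eta q J l j ∧ eta q J l j ≤ 1
    unfold eta
    have h0 := hfrac0 j
    have h1 := hfrac1 j
    split_ifs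
    · exact ⟨uu_nonneg hq (by linarith), uu_le_one hq⟩
    · exact ⟨uu_nonneg hq h0, uu_le_one hq⟩
    · exact ⟨le_rfl, zero_le_one⟩
  · intro L j hj
    have hm : j / J < L := by rwa [Nat.div_lt_iff_lt_mul hJ]
    have hsub : ({j / J, j / J + 1} : Finset ℕ) ⊆ range (L + 1) := by
      intro l hl
      simp only [mem_insert, mem_singleton] at hl
      rw [mem_range]; omega
    rw [← sum_subset hsub]
    · rw [sum_pair (by omega)]
      show (eta q J (j / J) j) ^ q + (eta q J (j / J + 1) j) ^ q = 1
      unfold eta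
      rw [if_pos rfl, if_neg (by omega), if_pos rfl]
      exact uu_pow hq (hfrac0 j) (hfrac1 j)
    · intro l _ hl
      simp only [mem_insert, mem_singleton, not_or] at hl
      show (eta q J l j) ^ q = 0
      unfold eta
      rw [if_neg hl.1, if_neg hl.2, Real.zero_rpow (by linarith)]
  · intro l j h
    have hmod := Nat.mod_lt j hJ
    have hdm := Nat.div_add_mod j J
    change eta q J l j ≠ 0 at h
    unfold eta at h
    by_cases hl : l = j / J
    · subst hl
      constructor
      · have : (j / J + 1) * J = J * (j / J) + J := by ring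
        omega
      · intro h1
        have : (j / J - 1) * J + J = J * (j / J) := by
          obtain ⟨m, hm⟩ : ∃ m, j / J = m + 1 := ⟨j / J - 1, by omega⟩
          rw [hm]; simp; ring
        omega
    · rw [if_neg hl] at h
      by_cases hl1 : l = j / J + 1
      · rw [if_pos hl1] at h
        subst hl1
        constructor
        · have : (j / J + 1 + 1) * J = J * (j / J) + J + J := by ring
          omega
        · intro _
          have h2 : j % J ≠ 0 := by
            intro h3
            apply h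
            rw [h3]; simp [uu_zero]
          have : (j / J + 1 - 1) * J = J * (j / J) := by simp; ring
          omega
      · rw [if_neg hl1] at h; exact absurd rfl h
  · intro l j
    show |eta q J l j - eta q J l (j + 1)| ≤ 10 / J
    rw [eta_succ J l j hJ]
    have h0 := hfrac0 j
    have h1 := hfrac1 j
    have h2 := hfrac2 j
    have h3 : (0:ℝ) ≤ 10 / J := by positivity
    have key : ∀ s t : ℝ, 0 ≤ t → |s - t| = 1 / J → |uu q s - uu q t| ≤ 10 / J := by
      intro s t ht hst
      have := uu_lip hq s t ht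
      rw [hst] at this
      calc _ ≤ _ := this
        _ = 6 / J := by ring
        _ ≤ _ := div_le_div_of_nonneg_right (by norm_num) hJ0.le
    unfold eta
    by_cases hl : l = j / J
    · rw [if_pos hl, if_pos hl]
      apply key _ _ (by linarith)
      have : 1 - ((j % J : ℕ) : ℝ) / J - (1 - (((j % J : ℕ) : ℝ) + 1) / J) = 1 / J := by ring
      rw [this, abs_of_pos (by positivity)]
    · rw [if_neg hl, if_neg hl]
      by_cases hl1 : l = j / J + 1
      · rw [if_pos hl1, if_pos hl1]
        apply key _ _ (by positivity)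
        have : ((j % J : ℕ) : ℝ) / J - (((j % J : ℕ) : ℝ) + 1) / J = -(1 / J) := by ring
        rw [this, abs_neg, abs_of_pos (by positivity)]
      · rw [if_neg hl1, if_neg hl1]; simpa using h3
  · intro l j h
    change eta q J l j ≠ eta q J l (j + 1) at h
    by_contra hcon
    rw [not_or] at hcon
    apply h
    rw [eta_succ J l j hJ]
    unfold eta
    rw [if_neg hcon.1, if_neg hcon.2, if_neg hcon.1, if_neg hcon.2]

end Crest.Agent.H27
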