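import Mathlib
import Crest.Agent.H27.Defs
import Crest.Agent.H27.T5
import Crest.Agent.H27.T6a

set_option autoImplicit false

namespace Crest.Agent.H27

open scoped BigOperators
open Finset

namespace T6

/-! ### levels -/

lemma lev_nonempty (t : ℝ) : {k : ℕ | |t| ≤ 2 ^ k}.Nonempty := by
  obtain ⟨k, hk⟩ := pow_unbounded_of_one_lt |t| (by norm_num : (1:ℝ) < 2)
  exact ⟨k, hk.le⟩

lemma lev_spec (t : ℝ) : |t| ≤ 2 ^ lev t := Nat.sInf_mem (lev_nonempty t)

lemma lev_le_iff (t : ℝ) (k : ℕ) : lev t ≤ k ↔ |t| ≤ 2 ^ k := by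
  constructor
  · intro h
    exact (lev_spec t).trans (pow_le_pow_right₀ (by norm_num) h)
  · intro h
    exact Nat.sInf_le h

lemma abel (η : ℕ → ℝ) (t : ℝ) (K : ℕ) :
    ∑ k ∈ range K, (η k - η (k + 1)) * lowp k t = if lev t ≤ K then (η (lev t) - η K) * t else 0 := by
  induction K with
  | zero =>
    by_cases h : lev t ≤ 0
    · have : lev t = 0 := by omega
      rw [if_pos h, this]; simp
    · rw [if_neg h]; simp
  | succ K ih =>
    rw [sum_range_succ, ih]
    unfold lowp
    by_cases h : lev t ≤ K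
    · rw [if_pos h, if_pos ((lev_le_iff t K).mp h), if_pos (by omega)]; ring
    · rw [if_neg h, if_neg (fun h' => h ((lev_le_iff t K).mpr h'))]
      by_cases h2 : lev t ≤ K + 1
      · have : lev t = K + 1 := by omega
        rw [if_pos h2, this]; ring
      · rw [if_neg h2]; ring

lemma abel' (η : ℕ → ℝ) (t : ℝ) (K : ℕ) (h : |t| ≤ 2 ^ K) :
    η (lev t) * t = ∑ k ∈ range K, (η k - η (k + 1)) * lowp k t + η K * t := by
  rw [abel, if_pos ((lev_le_iff t K).mpr h)]; ring

/-! ### the operator `T = grad ∘ G` -/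

/-- `T_e a = grad (G a) e` as a linear functional of `a` -/
noncomputable def TT {n : ℕ} (ℓ : Fin n × Fin n → ℝ)
    (G : (Fin n × Fin n → ℝ) →ₗ[ℝ] (Fin n → ℝ)) (e : Fin n × Fin n) :
    (Fin n × Fin n → ℝ) →ₗ[ℝ] ℝ where
  toFun a := grad ℓ (G a) e
  map_add' a b := by simp only [grad, map_add, Pi.add_apply]; ring
  map_smul' c a := by simp only [grad, map_smul, Pi.smul_apply, smul_eq_mul, RingHom.id_apply]; ring

lemma TT_apply {n : ℕ} (ℓ : Fin n × Fin n → ℝ)
    (G : (Fin n × Fin n → ℝ) →ₗ[ℝ] (Fin n → ℝ)) (e : Fin n × Fin n) (a : Fin n × Fin n → ℝ) :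
    TT ℓ G e a = grad ℓ (G a) e := rfl

lemma TT_expand {n : ℕ} (ℓ : Fin n × Fin n → ℝ)
    (G : (Fin n × Fin n → ℝ) →ₗ[ℝ] (Fin n → ℝ)) (e : Fin n × Fin n) (a : Fin n × Fin n → ℝ) :
    TT ℓ G e a = ∑ f, a f * TT ℓ G e (Pi.single f 1) := by
  classical
  have h : a = ∑ f, a f • (Pi.single f (1:ℝ) : Fin n × Fin n → ℝ) := by
    ext x
    rw [Finset.sum_apply, Finset.sum_eq_single x]
    · simp
    · intro b _ hb; simp [Pi.single_eq_of_ne (Ne.symm hb)]
    · intro hx; exact absurd (mem_univ x) hx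
  conv_lhs => rw [h]
  rw [map_sum]
  apply sum_congr rfl
  intro f _
  rw [map_smul, smul_eq_mul]

lemma TT_bound {n : ℕ} (ℓ : Fin n × Fin n → ℝ)
    (G : (Fin n × Fin n → ℝ) →ₗ[ℝ] (Fin n → ℝ)) (e : Fin n × Fin n) (a : Fin n × Fin n → ℝ)
    (B β : ℝ) (hB : 0 ≤ B) (ha : ∀ f, |a f| ≤ B) (hβ : ∑ f, |TT ℓ G e (Pi.single f 1)| ≤ β) :
    |TT ℓ G e a| ≤ β * B := by
  rw [TT_expand]
  calc _ ≤ ∑ f, |a f * TT ℓ G e (Pi.single f 1)| := abs_sum_le_sum_abs _ _
    _ ≤ ∑ f, B * |TT ℓ G e (Pi.single f 1)| := by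
        apply sum_le_sum; intro f _
        rw [abs_mul]
        exact mul_le_mul_of_nonneg_right (ha f) (abs_nonneg _)
    _ = B * ∑ f, |TT ℓ G e (Pi.single f 1)| := by rw [mul_sum]
    _ ≤ B * β := mul_le_mul_of_nonneg_left hβ hB
    _ = β * B := mul_comm _ _

lemma TT_grad {n : ℕ} (ℓ : Fin n × Fin n → ℝ)
    (G : (Fin n × Fin n → ℝ) →ₗ[ℝ] (Fin n → ℝ))
    (hG : ∀ (g : Fin n → ℝ) (x y : Fin n), G (grad ℓ g) x - G (grad ℓ g) y = g x - g y)
    (e : Fin n × Fin n) (g : Fin n → ℝ) : TT ℓ G e (grad ℓ g) = grad ℓ g e := by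
  rw [TT_apply]
  unfold grad
  have := hG g e.1 e.2
  unfold grad at this
  rw [this]

/-- superadditivity of powers -/
lemma sum_rpow_le {ι : Type*} (s : Finset ι) (b : ι → ℝ) {r : ℝ} (hr : 1 ≤ r) (hb : ∀ i, 0 ≤ b i) :
    ∑ i ∈ s, (b i) ^ r ≤ (∑ i ∈ s, b i) ^ r := by
  classical
  induction s using Finset.induction_on with
  | empty => simp; rw [Real.zero_rpow (by linarith)]
  | insert a s ha ih =>
    rw [sum_insert ha, sum_insert ha]
    have h1 := Real.add_rpow_le_rpow_add (hb a) (sum_nonneg fun i (_ : i ∈ s) => hb i) hr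
    linarith

/-- the differences of the windows sum up -/
lemma sum_diff_le (η : ℕ → ℕ → ℝ) (J : ℕ) (hJ : 0 < J)
    (h4 : ∀ l j, |η l j - η l (j + 1)| ≤ 10 / J)
    (h5 : ∀ l j, η l j ≠ η l (j + 1) → l = j / J ∨ l = j / J + 1) (L k : ℕ) :
    ∑ l ∈ range (L + 1), |η l k - η l (k + 1)| ≤ 20 / J := by
  classical
  have hJ0 : (0 : ℝ) < J := by exact_mod_cast hJ
  have h1 : ∑ l ∈ range (L + 1), |η l k - η l (k + 1)|
      ≤ ∑ l ∈ range (L + 1), ((if l = k / J then (10:ℝ) / J else 0) + (if l = k / J + 1 then (10:ℝ) / J else 0)) := by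
    apply sum_le_sum
    intro l _
    by_cases h : η l k = η l (k + 1)
    · rw [h, sub_self, abs_zero]
      split_ifs <;> positivity
    · rcases h5 l k h with h' | h'
      · rw [if_pos h', if_neg (by omega), add_zero]; exact h4 l k
      · rw [if_pos h', if_neg (by omega), zero_add]; exact h4 l k
  refine h1.trans ?_
  rw [sum_add_distrib, sum_ite_eq', sum_ite_eq']
  have h2 : (0:ℝ) ≤ 10 / J := by positivity
  have h3 : (20:ℝ) / J = 10 / J + 10 / J := by ring
  rw [h3]
  apply add_le_add <;> split_ifs <;> first | exact le_rfl | exact h2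

/-- the core of the construction -/
lemma core {q : ℝ} (hq : 1 < q) (n : ℕ) (Ω : Type) [Fintype Ω] (w : Ω → ℝ) (hw : ∀ ω, 0 ≤ w ω)
    (X : Fin n → Ω → ℝ) (ℓ : Fin n × Fin n → ℝ)
    (K J L : ℕ) (hK : ∀ e ω, |grad ℓ (fun i => X i ω) e| ≤ 2 ^ K) (hJ : 0 < J) (hKL : K < L * J)
    (G : (Fin n × Fin n → ℝ) →ₗ[ℝ] (Fin n → ℝ))
    (hG1 : ∀ (g : Fin n → ℝ) (x y : Fin n), G (grad ℓ g) x - G (grad ℓ g) y = g x - g y)
    (β : ℝ) (hG2 : ∀ e, ∑ f, |grad ℓ (G (Pi.single f 1)) e| ≤ β)
    (ε M M2 : ℝ)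
    (hM : ∀ e, ∑ ω, w ω * (∑ k ∈ range K, xi (fun ω => grad ℓ (fun i => X i ω) e)
      (fun k ω => grad ℓ (G (fun e' => lowp k (grad ℓ (fun i => X i ω) e'))) e) k ω) ^ q ≤ M)
    (hM1 : (20 / J : ℝ) ^ q * M ≤ ε)
    (hM2 : 2 < q → ∀ e, ∑ k ∈ range K, (2 : ℝ) ^ ((k : ℝ) * (q - 2)) *
      ∑ ω, w ω * (xi (fun ω => grad ℓ (fun i => X i ω) e)
      (fun k ω => grad ℓ (G (fun e' => lowp k (grad ℓ (fun i => X i ω) e'))) e) k ω) ^ 2 ≤ M2)
    (hM3 : 2 < q → (400 * M2 / J : ℝ) ^ (q / 2) ≤ ε) :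
    ∃ (x : ℕ → Fin n → Ω → ℝ) (a c : ℕ → Fin n × Fin n → Ω → ℝ),
        (∀ l e ω, grad ℓ (fun i => x l i ω) e = a l e ω + c l e ω) ∧
        (∀ l e ω, |grad ℓ (fun i => x l i ω) e| ≤ β * 2 ^ ((l + 1) * J)) ∧
        (∀ e ω, ∑ l ∈ range (L + 1), |a l e ω| ^ q = |grad ℓ (fun i => X i ω) e| ^ q) ∧
        (∀ l e ω, a l e ω ≠ 0 → 1 ≤ l →
          (2 : ℝ) ^ ((l - 1) * J) < |grad ℓ (fun i => X i ω) e|) ∧
        (∀ e, ∑ l ∈ range (L + 1), ∑ ω, w ω * |c l e ω| ^ q ≤ ε) ∧
        (2 < q → ∀ e, ∑ l ∈ range (L + 1),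
          (2 : ℝ) ^ ((((l - 1) * J : ℕ) : ℝ) * ((q - 2) * q / 2)) *
            (∑ ω, w ω * (c l e ω) ^ 2) ^ (q / 2) ≤ ε) := by
  classical
  obtain ⟨η, hη1, hη2, hη3, hη4, hη5⟩ := existsEta q hq.le J hJ
  have hJ0 : (0 : ℝ) < J := by exact_mod_cast hJ
  set f : Fin n × Fin n → Ω → ℝ := fun e ω => grad ℓ (fun i => X i ω) e with hf
  set g : Fin n × Fin n → ℕ → Ω → ℝ := fun e k ω => TT ℓ G e (fun e' => lowp k (f e' ω)) with hg
  set ξ : Fin n × Fin n → ℕ → Ω → ℝ := fun e k ω => xi (f e) (g e) k ω with hξ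
  have hξ0 : ∀ e k ω, 0 ≤ ξ e k ω := fun e k ω => T5.xi_nonneg _ _ _ _
  have hTf : ∀ e ω, TT ℓ G e (fun e' => f e' ω) = f e ω := fun e ω =>
    TT_grad ℓ G hG1 e (fun i => X i ω)
  -- the representation of `c`
  have hrep : ∀ l e ω, TT ℓ G e (fun e' => η l (lev (f e' ω)) * f e' ω) - η l (lev (f e ω)) * f e ω
      = ∑ k ∈ range K, (η l k - η l (k + 1)) * (g e k ω - lowp k (f e ω)) := by
    intro l e ω
    have h1 : (fun e' => η l (lev (f e' ω)) * f e' ω)
        = ∑ k ∈ range K, (η l k - η l (k + 1)) • (fun e' => lowp k (f e' ω)) + η l K • (fun e' => f e' ω) := by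
      ext e'
      rw [abel' (η l) (f e' ω) K (hK e' ω)]
      simp only [Pi.add_apply, Finset.sum_apply, Pi.smul_apply, smul_eq_mul]
    rw [h1, map_add, map_sum, map_smul, hTf, abel' (η l) (f e ω) K (hK e ω)]
    simp only [map_smul, smul_eq_mul]
    have h2 : ∑ k ∈ range K, (η l k - η l (k + 1)) * (g e k ω - lowp k (f e ω))
        = ∑ k ∈ range K, (η l k - η l (k + 1)) * g e k ω
          - ∑ k ∈ range K, (η l k - η l (k + 1)) * lowp k (f e ω) := by
      rw [← sum_sub_distrib]; apply sum_congr rfl; intro k _; ring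
    rw [h2]; ring
  have hξabs : ∀ e k ω, |g e k ω - lowp k (f e ω)| = ξ e k ω := by
    intro e k ω
    rw [hξ]
    show _ = xi (f e) (g e) k ω
    unfold xi lowp
    by_cases h : (2:ℝ) ^ k < |f e ω|
    · rw [if_pos h, if_neg (not_le.mpr h), sub_zero]
    · rw [if_neg h, if_pos (not_lt.mp h), abs_sub_comm]
  refine ⟨fun l i ω => G (fun e' => η l (lev (f e' ω)) * f e' ω) i,
    fun l e ω => η l (lev (f e ω)) * f e ω,
    fun l e ω => TT ℓ G e (fun e' => η l (lev (f e' ω)) * f e' ω) - η l (lev (f e ω)) * f e ω,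
    ?_, ?_, ?_, ?_, ?_, ?_⟩
  · intro l e ω
    show grad ℓ (G (fun e' => η l (lev (f e' ω)) * f e' ω)) e = _
    rw [← TT_apply]; ring
  · intro l e ω
    show |grad ℓ (G (fun e' => η l (lev (f e' ω)) * f e' ω)) e| ≤ _
    rw [← TT_apply]
    apply TT_bound ℓ G e _ _ _ (by positivity) _ (hG2 e)
    intro e'
    by_cases h0 : η l (lev (f e' ω)) = 0
    · rw [h0, zero_mul, abs_zero]; positivity
    · have h1 := (hη3 l _ h0).1
      have h2 := hη1 l (lev (f e' ω))
      rw [abs_mul, abs_of_nonneg h2.1]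
      calc _ ≤ 1 * |f e' ω| := mul_le_mul_of_nonneg_right h2.2 (abs_nonneg _)
        _ = |f e' ω| := one_mul _
        _ ≤ 2 ^ lev (f e' ω) := lev_spec _
        _ ≤ _ := pow_le_pow_right₀ (by norm_num) h1.le
  · intro e ω
    show ∑ l ∈ range (L + 1), |η l (lev (f e ω)) * f e ω| ^ q = |f e ω| ^ q
    have h1 : lev (f e ω) < L * J := lt_of_le_of_lt ((lev_le_iff _ _).mpr (hK e ω)) hKL
    calc _ = ∑ l ∈ range (L + 1), (η l (lev (f e ω))) ^ q * |f e ω| ^ q := by
          apply sum_congr rfl; intro l _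
          rw [abs_mul, abs_of_nonneg (hη1 l _).1, Real.mul_rpow (hη1 l _).1 (abs_nonneg _)]
      _ = _ := by rw [← sum_mul, hη2 L _ h1, one_mul]
  · intro l e ω h hl
    show (2:ℝ) ^ ((l - 1) * J) < |f e ω|
    have h0 : η l (lev (f e ω)) ≠ 0 := by
      intro h1; apply h
      show η l (lev (f e ω)) * f e ω = 0
      rw [h1, zero_mul]
    have h2 := (hη3 l _ h0).2 hl
    by_contra hcon
    rw [not_lt] at hcon
    have := (lev_le_iff _ _).mpr hcon
    omega
  · intro e
    -- sum over l of |c_l|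
    have hc : ∀ l ω, |TT ℓ G e (fun e' => η l (lev (f e' ω)) * f e' ω) - η l (lev (f e ω)) * f e ω|
        ≤ ∑ k ∈ range K, |η l k - η l (k + 1)| * ξ e k ω := by
      intro l ω
      rw [hrep]
      refine (abs_sum_le_sum_abs _ _).trans (le_of_eq ?_)
      apply sum_congr rfl; intro k _
      rw [abs_mul, hξabs]
    have hpt : ∀ ω, ∑ l ∈ range (L + 1), |TT ℓ G e (fun e' => η l (lev (f e' ω)) * f e' ω)
        - η l (lev (f e ω)) * f e ω| ^ q ≤ (20 / J : ℝ) ^ q * (∑ k ∈ range K, ξ e k ω) ^ q := by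
      intro ω
      refine (sum_rpow_le _ _ hq.le (fun l => abs_nonneg _)).trans ?_
      rw [← Real.mul_rpow (by positivity) (sum_nonneg fun k _ => hξ0 e k ω)]
      apply Real.rpow_le_rpow (sum_nonneg fun l _ => abs_nonneg _) _ (by linarith)
      calc _ ≤ ∑ l ∈ range (L + 1), ∑ k ∈ range K, |η l k - η l (k + 1)| * ξ e k ω :=
            sum_le_sum fun l _ => hc l ω
        _ = ∑ k ∈ range K, (∑ l ∈ range (L + 1), |η l k - η l (k + 1)|) * ξ e k ω := by
            rw [sum_comm]; apply sum_congr rfl; intro k _; rw [sum_mul]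
        _ ≤ ∑ k ∈ range K, (20 / J) * ξ e k ω := by
            apply sum_le_sum; intro k _
            exact mul_le_mul_of_nonneg_right (sum_diff_le η J hJ hη4 hη5 L k) (hξ0 e k ω)
        _ = _ := by rw [mul_sum]
    calc _ = ∑ ω, w ω * ∑ l ∈ range (L + 1), |TT ℓ G e (fun e' => η l (lev (f e' ω)) * f e' ω)
        - η l (lev (f e ω)) * f e ω| ^ q := by
          rw [sum_comm]; apply sum_congr rfl; intro ω _; rw [mul_sum]
      _ ≤ ∑ ω, w ω * ((20 / J : ℝ) ^ q * (∑ k ∈ range K, ξ e k ω) ^ q) :=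
          sum_le_sum fun ω _ => mul_le_mul_of_nonneg_left (hpt ω) (hw ω)
      _ = (20 / J : ℝ) ^ q * ∑ ω, w ω * (∑ k ∈ range K, ξ e k ω) ^ q := by
          rw [mul_sum]; apply sum_congr rfl; intro ω _; ring
      _ ≤ (20 / J : ℝ) ^ q * M := mul_le_mul_of_nonneg_left (hM e) (by positivity)
      _ ≤ ε := hM1
  · intro hq2 e
    -- indicator of `W_l`
    have hcsq : ∀ l ω, (TT ℓ G e (fun e' => η l (lev (f e' ω)) * f e' ω) - η l (lev (f e ω)) * f e ω) ^ 2
        ≤ (200 / J) * ∑ k ∈ range K, (if η l k = η l (k + 1) then 0 else (ξ e k ω) ^ 2) := by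
      intro l ω
      rw [hrep]
      have h1 : (∑ k ∈ range K, (η l k - η l (k + 1)) * (g e k ω - lowp k (f e ω))) ^ 2
          ≤ (∑ k ∈ range K, (if η l k = η l (k + 1) then 0 else (1:ℝ))) *
            ∑ k ∈ range K, ((η l k - η l (k + 1)) * (g e k ω - lowp k (f e ω))) ^ 2 := by
        apply Finset.sum_sq_le_sum_mul_sum_of_sq_le_mul
        · intro k _; split_ifs <;> norm_num
        · intro k _; positivity
        · intro k _
          by_cases h : η l k = η l (k + 1)
          · rw [if_pos h, h, sub_self]; simp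
          · rw [if_neg h, one_mul]
      have h2 : (∑ k ∈ range K, (if η l k = η l (k + 1) then 0 else (1:ℝ))) ≤ 2 * J := by
        have h3 : ∑ k ∈ range K, (if η l k = η l (k + 1) then 0 else (1:ℝ))
            ≤ ∑ k ∈ range K, (if k ∈ Ico ((l - 1) * J) ((l + 1) * J) then (1:ℝ) else 0) := by
          apply sum_le_sum
          intro k _
          by_cases h : η l k = η l (k + 1)
          · rw [if_pos h]; split_ifs <;> norm_num
          · rw [if_neg h, if_pos]
            rw [mem_Ico]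
            have hdm := Nat.div_add_mod k J
            have hmod := Nat.mod_lt k hJ
            rcases hη5 l k h with h' | h'
            · subst h'
              constructor
              · calc (k / J - 1) * J ≤ (k / J) * J := Nat.mul_le_mul_right _ (Nat.sub_le _ _)
                  _ ≤ k := Nat.div_mul_le_self k J
              · have : (k / J + 1) * J = J * (k / J) + J := by ring
                omega
            · subst h'
              constructor
              · calc (k / J + 1 - 1) * J = (k / J) * J := by simp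
                  _ ≤ k := Nat.div_mul_le_self k J
              · have : (k / J + 1 + 1) * J = J * (k / J) + J + J := by ring
                omega
        refine h3.trans ?_
        rw [← sum_filter, sum_const, nsmul_eq_mul, mul_one]
        have h4 : (filter (fun k => k ∈ Ico ((l - 1) * J) ((l + 1) * J)) (range K)).card
            ≤ (Ico ((l - 1) * J) ((l + 1) * J)).card := by
          apply card_le_card
          intro k hk
          exact (mem_filter.mp hk).2
        rw [Nat.card_Ico] at h4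
        have h5 : (l + 1) * J - (l - 1) * J ≤ 2 * J := by
          rcases l with _ | l
          · simp; omega
          · simp only [Nat.add_sub_cancel]
            have : (l + 1 + 1) * J = l * J + 2 * J := by ring
            omega
        exact_mod_cast h4.trans h5
      have h6 : ∑ k ∈ range K, ((η l k - η l (k + 1)) * (g e k ω - lowp k (f e ω))) ^ 2
          ≤ (10 / J) ^ 2 * ∑ k ∈ range K, (if η l k = η l (k + 1) then 0 else (ξ e k ω) ^ 2) := by
        rw [mul_sum]
        apply sum_le_sum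
        intro k _
        by_cases h : η l k = η l (k + 1)
        · rw [if_pos h, h, sub_self]; simp
        · rw [if_neg h, mul_pow, ← sq_abs (η l k - η l (k + 1)), ← sq_abs (g e k ω - lowp k (f e ω)), hξabs]
          apply mul_le_mul_of_nonneg_right _ (by positivity)
          exact pow_le_pow_left₀ (abs_nonneg _) (hη4 l k) 2
      have h7 : 0 ≤ ∑ k ∈ range K, (if η l k = η l (k + 1) then 0 else (ξ e k ω) ^ 2) :=
        sum_nonneg fun k _ => by split_ifs <;> positivity
      calc _ ≤ _ := h1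
        _ ≤ (2 * J) * ((10 / J) ^ 2 * ∑ k ∈ range K, (if η l k = η l (k + 1) then 0 else (ξ e k ω) ^ 2)) :=
            mul_le_mul h2 h6 (sum_nonneg fun k _ => by positivity) (by positivity)
        _ = _ := by field_simp; ring
    set Zl : ℕ → ℝ := fun l => ∑ k ∈ range K, (if η l k = η l (k + 1) then 0 else
      (2 : ℝ) ^ ((k : ℝ) * (q - 2)) * ∑ ω, w ω * (ξ e k ω) ^ 2) with hZl
    have hZ0 : ∀ l, 0 ≤ Zl l := fun l => sum_nonneg fun k _ => by
      split_ifs
      · exact le_rfl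
      · exact mul_nonneg (T5.two_rpow_pos _).le (sum_nonneg fun ω _ => mul_nonneg (hw ω) (by positivity))
    have hcl : ∀ l, (2 : ℝ) ^ ((((l - 1) * J : ℕ) : ℝ) * (q - 2)) *
        ∑ ω, w ω * (TT ℓ G e (fun e' => η l (lev (f e' ω)) * f e' ω) - η l (lev (f e ω)) * f e ω) ^ 2
        ≤ (200 / J) * Zl l := by
      intro l
      have h1 : ∑ ω, w ω * (TT ℓ G e (fun e' => η l (lev (f e' ω)) * f e' ω) - η l (lev (f e ω)) * f e ω) ^ 2
          ≤ (200 / J) * ∑ k ∈ range K, (if η l k = η l (k + 1) then 0 else ∑ ω, w ω * (ξ e k ω) ^ 2) := by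
        calc _ ≤ ∑ ω, w ω * ((200 / J) * ∑ k ∈ range K, (if η l k = η l (k + 1) then 0 else (ξ e k ω) ^ 2)) :=
              sum_le_sum fun ω _ => mul_le_mul_of_nonneg_left (hcsq l ω) (hw ω)
          _ = (200 / J) * ∑ ω, ∑ k ∈ range K, (if η l k = η l (k + 1) then 0 else w ω * (ξ e k ω) ^ 2) := by
              rw [mul_sum]
              apply sum_congr rfl; intro ω _
              rw [mul_sum, mul_sum, mul_sum]
              apply sum_congr rfl; intro k _
              split_ifs <;> ring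
          _ = _ := by
              rw [sum_comm]
              congr 1
              apply sum_congr rfl; intro k _
              split_ifs
              · simp
              · rfl
      calc _ ≤ (2 : ℝ) ^ ((((l - 1) * J : ℕ) : ℝ) * (q - 2)) *
            ((200 / J) * ∑ k ∈ range K, (if η l k = η l (k + 1) then 0 else ∑ ω, w ω * (ξ e k ω) ^ 2)) :=
            mul_le_mul_of_nonneg_left h1 (T5.two_rpow_pos _).le
        _ = (200 / J) * ∑ k ∈ range K, (if η l k = η l (k + 1) then 0 else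
              (2 : ℝ) ^ ((((l - 1) * J : ℕ) : ℝ) * (q - 2)) * ∑ ω, w ω * (ξ e k ω) ^ 2) := by
            rw [mul_left_comm, mul_sum]
            congr 1
            apply sum_congr rfl; intro k _
            split_ifs <;> ring
        _ ≤ _ := by
            apply mul_le_mul_of_nonneg_left _ (by positivity)
            apply sum_le_sum
            intro k _
            by_cases h : η l k = η l (k + 1)
            · rw [if_pos h, if_pos h]
            · rw [if_neg h, if_neg h]
              apply mul_le_mul_of_nonneg_right _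
                (sum_nonneg fun ω _ => mul_nonneg (hw ω) (by positivity))
              apply Real.rpow_le_rpow_of_exponent_le (by norm_num)
              apply mul_le_mul_of_nonneg_right _ (by linarith)
              have h8 : (l - 1) * J ≤ k := by
                rcases hη5 l k h with h' | h'
                · subst h'
                  calc (k / J - 1) * J ≤ (k / J) * J := Nat.mul_le_mul_right _ (Nat.sub_le _ _)
                    _ ≤ k := Nat.div_mul_le_self k J
                · subst h'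
                  calc (k / J + 1 - 1) * J = (k / J) * J := by simp
                    _ ≤ k := Nat.div_mul_le_self k J
              exact_mod_cast h8
    have hsumZ : ∑ l ∈ range (L + 1), Zl l ≤ 2 * M2 := by
      have h1 : ∑ l ∈ range (L + 1), Zl l = ∑ k ∈ range K, (∑ l ∈ range (L + 1),
          (if η l k = η l (k + 1) then 0 else (1:ℝ))) *
            ((2 : ℝ) ^ ((k : ℝ) * (q - 2)) * ∑ ω, w ω * (ξ e k ω) ^ 2) := by
        rw [hZl]
        simp only []
        rw [sum_comm]
        apply sum_congr rfl; intro k _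
        rw [sum_mul]
        apply sum_congr rfl; intro l _
        split_ifs <;> ring
      rw [h1]
      have h2 : ∀ k, ∑ l ∈ range (L + 1), (if η l k = η l (k + 1) then 0 else (1:ℝ)) ≤ 2 := by
        intro k
        calc _ ≤ ∑ l ∈ range (L + 1), ((if l = k / J then (1:ℝ) else 0) + (if l = k / J + 1 then (1:ℝ) else 0)) := by
              apply sum_le_sum
              intro l _
              by_cases h : η l k = η l (k + 1)
              · rw [if_pos h]; split_ifs <;> norm_num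
              · rw [if_neg h]
                rcases hη5 l k h with h' | h'
                · rw [if_pos h', if_neg (by omega)]; norm_num
                · rw [if_pos h', if_neg (by omega)]; norm_num
          _ ≤ 2 := by
              rw [sum_add_distrib, sum_ite_eq', sum_ite_eq']
              split_ifs <;> norm_num
      calc _ ≤ ∑ k ∈ range K, 2 * ((2 : ℝ) ^ ((k : ℝ) * (q - 2)) * ∑ ω, w ω * (ξ e k ω) ^ 2) := by
            apply sum_le_sum; intro k _
            apply mul_le_mul_of_nonneg_right (h2 k)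
            exact mul_nonneg (T5.two_rpow_pos _).le (sum_nonneg fun ω _ => mul_nonneg (hw ω) (by positivity))
        _ = 2 * ∑ k ∈ range K, ((2 : ℝ) ^ ((k : ℝ) * (q - 2)) * ∑ ω, w ω * (ξ e k ω) ^ 2) := by rw [mul_sum]
        _ ≤ 2 * M2 := mul_le_mul_of_nonneg_left (hM2 hq2 e) (by norm_num)
    have hterm : ∀ l, (2 : ℝ) ^ ((((l - 1) * J : ℕ) : ℝ) * ((q - 2) * q / 2)) *
        (∑ ω, w ω * (TT ℓ G e (fun e' => η l (lev (f e' ω)) * f e' ω) - η l (lev (f e ω)) * f e ω) ^ 2) ^ (q / 2)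
        ≤ ((200 / J) * Zl l) ^ (q / 2) := by
      intro l
      have h1 : (2 : ℝ) ^ ((((l - 1) * J : ℕ) : ℝ) * ((q - 2) * q / 2))
          = ((2 : ℝ) ^ ((((l - 1) * J : ℕ) : ℝ) * (q - 2))) ^ (q / 2) := by
        rw [← Real.rpow_mul (by norm_num)]; congr 1; ring
      rw [h1, ← Real.mul_rpow (T5.two_rpow_pos _).le
        (sum_nonneg fun ω _ => mul_nonneg (hw ω) (by positivity))]
      exact Real.rpow_le_rpow (mul_nonneg (T5.two_rpow_pos _).le
        (sum_nonneg fun ω _ => mul_nonneg (hw ω) (by positivity))) (hcl l) (by linarith)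
    calc _ ≤ ∑ l ∈ range (L + 1), ((200 / J) * Zl l) ^ (q / 2) := sum_le_sum fun l _ => hterm l
      _ ≤ (∑ l ∈ range (L + 1), (200 / J) * Zl l) ^ (q / 2) :=
          sum_rpow_le _ _ (by linarith) (fun l => mul_nonneg (by positivity) (hZ0 l))
      _ ≤ (400 * M2 / J) ^ (q / 2) := by
          apply Real.rpow_le_rpow (sum_nonneg fun l _ => mul_nonneg (by positivity) (hZ0 l)) _ (by linarith)
          rw [← mul_sum]
          calc _ ≤ (200 / J) * (2 * M2) := mul_le_mul_of_nonneg_left hsumZ (by positivity)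
            _ = _ := by ring
      _ ≤ ε := hM3 hq2

/-- weighted form of Lemma A -/
lemma lemmaA_w (H : LemmaA) (n : ℕ) (hn : 2 ≤ n) (ℓ : Fin n × Fin n → ℝ) (hℓ : ∀ e, 0 < ℓ e)
    (ι : Type) [Fintype ι] (s : ι → ℝ) (hs : ∀ i, 0 ≤ s i) (h : ι → Fin n × Fin n → ℝ)
    (D : ℝ) (hD : 0 < D) (hle : ∀ e, ∑ i, s i * (h i e) ^ 2 ≤ D) :
    ∃ G : (Fin n × Fin n → ℝ) →ₗ[ℝ] (Fin n → ℝ),
      (∀ (g : Fin n → ℝ) (x y : Fin n), G (grad ℓ g) x - G (grad ℓ g) y = g x - g y) ∧
      (∀ e, ∑ f, |grad ℓ (G (Pi.single f 1)) e| ≤ 3 * (4 * Real.log n + 1)) ∧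
      (∀ e, ∑ i, s i * (TT ℓ G e (h i)) ^ 2 ≤ 3 * D) := by
  obtain ⟨G, hG1, hG2, hG3⟩ := H n hn ℓ hℓ ι (fun i => Real.sqrt (s i / D) • h i) (by
    intro e
    calc _ = (∑ i, s i * (h i e) ^ 2) / D := by
          rw [sum_div]
          apply sum_congr rfl; intro i _
          show (Real.sqrt (s i / D) * h i e) ^ 2 = _
          rw [mul_pow, Real.sq_sqrt (div_nonneg (hs i) hD.le)]; ring
      _ ≤ 1 := by rw [div_le_one hD]; exact hle e)
  refine ⟨G, hG1, hG2, ?_⟩
  intro e
  have h3 := hG3 e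
  have h4 : ∑ k, (grad ℓ (G (Real.sqrt (s k / D) • h k)) e) ^ 2
      = (∑ i, s i * (TT ℓ G e (h i)) ^ 2) / D := by
    rw [sum_div]
    apply sum_congr rfl; intro i _
    rw [← TT_apply, map_smul, smul_eq_mul, mul_pow, Real.sq_sqrt (div_nonneg (hs i) hD.le)]; ring
  rw [h4, div_le_iff₀ hD] at h3
  exact h3

lemma log_two_le {n : ℕ} (hn : 2 ≤ n) : (0.69 : ℝ) ≤ Real.log n := by
  have h1 := Real.log_two_gt_d9
  have h2 : Real.log 2 ≤ Real.log n := Real.log_le_log (by norm_num) (by exact_mod_cast hn)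
  linarith

lemma beta_ge {n : ℕ} (hn : 2 ≤ n) : (1:ℝ) ≤ 3 * (4 * Real.log n + 1) := by
  have := log_two_le hn; linarith

lemma beta_le {n : ℕ} (hn : 2 ≤ n) : 3 * (4 * Real.log n + 1) ≤ 18 * Real.log n := by
  have := log_two_le hn; linarith

lemma abs_exp_eq {q : ℝ} (hq : 1 < q) : |1 - 2 / q| = |q - 2| / q := by
  have hq0 : 0 < q := by linarith
  rw [show 1 - 2 / q = (q - 2) / q by field_simp, abs_div, abs_of_pos hq0]

lemma M1_aux {q : ℝ} (hq : 1 < q) (C1 ε a : ℝ) (hC1 : 0 < C1) (hε : 0 < ε) (ha : 0 ≤ a) {n : ℕ}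
    (hn : 2 ≤ n) (J CW : ℝ) (hJ : 0 < J) (hCW : (20 ^ q * C1 * 18 ^ a / ε) ^ (1 / q) ≤ CW)
    (h : CW * (Real.log n) ^ (a / q) ≤ J) :
    (20 / J) ^ q * (C1 * (3 * (4 * Real.log n + 1)) ^ a) ≤ ε := by
  have hq0 : 0 < q := by linarith
  have hlog : 0 < Real.log n := by have := log_two_le hn; linarith
  have hA : (0:ℝ) ≤ 20 ^ q * C1 * 18 ^ a / ε := by positivity
  have hCW0 : 0 ≤ CW := le_trans (Real.rpow_nonneg hA _) hCW
  have h1 : (20 ^ q * C1 * 18 ^ a / ε) * (Real.log n) ^ a ≤ J ^ q := by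
    calc _ = ((20 ^ q * C1 * 18 ^ a / ε) ^ (1 / q)) ^ q * ((Real.log n) ^ (a / q)) ^ q := by
          rw [← Real.rpow_mul hA, one_div_mul_cancel hq0.ne', Real.rpow_one, ← Real.rpow_mul hlog.le,
            div_mul_cancel₀ _ hq0.ne']
      _ ≤ CW ^ q * ((Real.log n) ^ (a / q)) ^ q :=
          mul_le_mul_of_nonneg_right (Real.rpow_le_rpow (Real.rpow_nonneg hA _) hCW hq0.le) (by positivity)
      _ = (CW * (Real.log n) ^ (a / q)) ^ q := by rw [Real.mul_rpow hCW0 (by positivity)]
      _ ≤ J ^ q := Real.rpow_le_rpow (by positivity) h hq0.le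
  have h2 : (3 * (4 * Real.log n + 1)) ^ a ≤ 18 ^ a * (Real.log n) ^ a := by
    rw [← Real.mul_rpow (by norm_num) hlog.le]
    exact Real.rpow_le_rpow (by linarith [beta_ge hn]) (beta_le hn) ha
  rw [Real.div_rpow (by norm_num) hJ.le]
  have hJq : 0 < J ^ q := Real.rpow_pos_of_pos hJ q
  rw [div_mul_eq_mul_div, div_le_iff₀ hJq]
  calc (20:ℝ) ^ q * (C1 * (3 * (4 * Real.log n + 1)) ^ a)
      ≤ 20 ^ q * (C1 * (18 ^ a * (Real.log n) ^ a)) := by gcongr
    _ = ε * ((20 ^ q * C1 * 18 ^ a / ε) * (Real.log n) ^ a) := by field_simp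
    _ ≤ ε * J ^ q := mul_le_mul_of_nonneg_left h1 hε.le

lemma M2_aux {q : ℝ} (hq : 2 < q) (C1 ε : ℝ) (hC1 : 0 < C1) (hε : 0 < ε) {n : ℕ}
    (hn : 2 ≤ n) (J CW : ℝ) (hJ : 0 < J) (hCW : 800 * C1 * ε ^ (-(2 / q)) ≤ CW)
    (h : CW * (Real.log n) ^ (|q - 2| / q) ≤ J) :
    (400 * C1 / J) ^ (q / 2) ≤ ε := by
  have hq0 : 0 < q := by linarith
  have hl := log_two_le hn
  have hlog : 0 < Real.log n := by linarith
  have hε' : 0 < ε ^ (-(2 / q)) := Real.rpow_pos_of_pos hε _
  have h1 : (1 / 2 : ℝ) ≤ (Real.log n) ^ (|q - 2| / q) := by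
    have e0 : 0 ≤ |q - 2| / q := by positivity
    have e1 : |q - 2| / q ≤ 1 := by
      rw [div_le_one hq0, abs_of_pos (by linarith)]; linarith
    rcases le_total 1 (Real.log n) with h1 | h1
    · have := Real.one_le_rpow h1 e0; linarith
    · have := Real.rpow_le_rpow_of_exponent_ge hlog h1 e1
      rw [Real.rpow_one] at this; linarith
  have h2 : 400 * C1 * ε ^ (-(2 / q)) ≤ J := by
    have h3 : CW * (1 / 2) ≤ CW * (Real.log n) ^ (|q - 2| / q) := by
      apply mul_le_mul_of_nonneg_left h1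
      exact le_trans (by positivity) hCW
    linarith
  have h4 : 400 * C1 / J ≤ ε ^ (2 / q) := by
    rw [div_le_iff₀ hJ]
    have h5 : ε ^ (2 / q) * ε ^ (-(2 / q)) = 1 := by
      rw [← Real.rpow_add hε]; simp
    have h6 : 0 < ε ^ (2 / q) := Real.rpow_pos_of_pos hε _
    calc 400 * C1 = ε ^ (2 / q) * (400 * C1 * ε ^ (-(2 / q))) := by
          rw [show ε ^ (2 / q) * (400 * C1 * ε ^ (-(2 / q))) = 400 * C1 * (ε ^ (2 / q) * ε ^ (-(2 / q))) by ring,
            h5, mul_one]
      _ ≤ _ := mul_le_mul_of_nonneg_left h2 h6.le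
  calc (400 * C1 / J) ^ (q / 2) ≤ (ε ^ (2 / q)) ^ (q / 2) :=
        Real.rpow_le_rpow (by positivity) h4 (by linarith)
    _ = ε := by
      rw [← Real.rpow_mul hε.le, show 2 / q * (q / 2) = 1 by field_simp, Real.rpow_one]

end T6

open T6

theorem windows_of (q : ℝ) (hq : 1 < q) (hq2 : q ≠ 2) (H : LemmaA) : Windows q := by
  intro ε hε
  obtain ⟨D, hD, hLS⟩ := levelSums q hq
  rcases lt_or_gt_of_ne hq2 with hlt | hgt
  · obtain ⟨C1, hC1, hG⟩ := gammaLt q hq hlt (3 * D) (by positivity)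
    have habs : |q - 2| = 2 - q := by rw [abs_of_neg (by linarith)]; ring
    refine ⟨(20 ^ q * C1 * 18 ^ (2 - q) / ε) ^ (1 / q), by positivity, ?_⟩
    intro n hn Ω _ w hw X ℓ hℓ hX K J L hK hJ hKL hCJ
    have hJ0 : (0 : ℝ) < J := by exact_mod_cast hJ
    rw [abs_exp_eq hq, habs] at hCJ
    set f : Fin n × Fin n → Ω → ℝ := fun e ω => grad ℓ (fun i => X i ω) e with hf
    obtain ⟨G, hG1, hG2, hG3⟩ := lemmaA_w H n hn ℓ hℓ (Fin K × Ω)
      (fun p => (2:ℝ) ^ (-((p.1 : ℕ) : ℝ) * (2 - q)) * w p.2)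
      (fun p => mul_nonneg (T5.two_rpow_pos _).le (hw _))
      (fun p e => lowp p.1 (f e p.2)) D hD (by
        intro e
        rw [Fintype.sum_prod_type_right]
        calc _ = ∑ ω, w ω * ∑ k ∈ range K, (2:ℝ) ^ (-(k : ℝ) * (2 - q)) * (lowp k (f e ω)) ^ 2 := by
              apply sum_congr rfl; intro ω _
              rw [← Fin.sum_univ_eq_sum_range (fun k => (2:ℝ) ^ (-(k : ℝ) * (2 - q)) * (lowp k (f e ω)) ^ 2) K,
                mul_sum]
              apply sum_congr rfl; intro k _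
              ring
          _ ≤ ∑ ω, w ω * (D * |f e ω| ^ q) := by
              apply sum_le_sum; intro ω _
              exact mul_le_mul_of_nonneg_left ((hLS K (f e ω)).2.1 hlt (by linarith)) (hw ω)
          _ = D * ∑ ω, w ω * |f e ω| ^ q := by rw [mul_sum]; apply sum_congr rfl; intro ω _; ring
          _ ≤ D * 1 := mul_le_mul_of_nonneg_left (hX e) hD.le
          _ = D := mul_one D)
    have hTf : ∀ e ω, TT ℓ G e (fun e' => f e' ω) = f e ω := fun e ω =>
      TT_grad ℓ G hG1 e (fun i => X i ω)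
    apply core hq n Ω w hw X ℓ K J L hK hJ hKL G hG1 (3 * (4 * Real.log n + 1)) hG2 ε
      (C1 * (3 * (4 * Real.log n + 1)) ^ (2 - q)) 0
    · intro e
      apply hG Ω w hw K (f e) (fun k ω => TT ℓ G e (fun e' => lowp k (f e' ω)))
        (3 * (4 * Real.log n + 1)) (beta_ge hn) (hX e)
      · have h3 := hG3 e
        rw [Fintype.sum_prod_type] at h3
        calc _ = ∑ k : Fin K, ∑ ω, (2:ℝ) ^ (-((k : ℕ) : ℝ) * (2 - q)) * w ω *
              (TT ℓ G e (fun e' => lowp k (f e' ω))) ^ 2 := by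
              rw [← Fin.sum_univ_eq_sum_range (fun k => (2:ℝ) ^ (-(k : ℝ) * (2 - q)) *
                ∑ ω, w ω * (TT ℓ G e (fun e' => lowp k (f e' ω))) ^ 2) K]
              apply sum_congr rfl; intro k _
              rw [mul_sum]
              apply sum_congr rfl; intro ω _; ring
          _ ≤ 3 * D := h3
      · have hdiff : ∀ k ω, |f e ω - TT ℓ G e (fun e' => lowp k (f e' ω))|
            ≤ ∑ f', |TT ℓ G e (Pi.single f' 1)| * |f f' ω - lowp k (f f' ω)| := by
          intro k ω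
          rw [← hTf e ω, ← map_sub, TT_expand]
          refine (abs_sum_le_sum_abs _ _).trans (le_of_eq ?_)
          apply sum_congr rfl; intro f' _
          rw [abs_mul, mul_comm]
          rfl
        calc ∑ k ∈ range K, (2:ℝ) ^ ((k : ℝ) * (q - 1)) * ∑ ω, w ω * |f e ω - TT ℓ G e (fun e' => lowp k (f e' ω))|
            ≤ ∑ k ∈ range K, (2:ℝ) ^ ((k : ℝ) * (q - 1)) * ∑ ω, w ω *
              ∑ f', |TT ℓ G e (Pi.single f' 1)| * |f f' ω - lowp k (f f' ω)| := by
              apply sum_le_sum; intro k _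
              apply mul_le_mul_of_nonneg_left _ (T5.two_rpow_pos _).le
              apply sum_le_sum; intro ω _
              exact mul_le_mul_of_nonneg_left (hdiff k ω) (hw ω)
          _ = ∑ f', |TT ℓ G e (Pi.single f' 1)| * ∑ ω, w ω *
              ∑ k ∈ range K, (2:ℝ) ^ ((k : ℝ) * (q - 1)) * |f f' ω - lowp k (f f' ω)| := by
              have e1 : ∀ k : ℕ, (2:ℝ) ^ ((k : ℝ) * (q - 1)) * ∑ ω, w ω *
                  ∑ f', |TT ℓ G e (Pi.single f' 1)| * |f f' ω - lowp k (f f' ω)|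
                  = ∑ f', ∑ ω, |TT ℓ G e (Pi.single f' 1)| * (w ω *
                    ((2:ℝ) ^ ((k : ℝ) * (q - 1)) * |f f' ω - lowp k (f f' ω)|)) := by
                intro k
                rw [sum_comm, mul_sum]
                apply sum_congr rfl; intro ω _
                rw [mul_sum, mul_sum]
                apply sum_congr rfl; intro f' _
                ring
              calc _ = ∑ k ∈ range K, ∑ f', ∑ ω, |TT ℓ G e (Pi.single f' 1)| * (w ω *
                    ((2:ℝ) ^ ((k : ℝ) * (q - 1)) * |f f' ω - lowp k (f f' ω)|)) :=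
                    sum_congr rfl fun k _ => e1 k
                _ = _ := by
                  rw [sum_comm]
                  apply sum_congr rfl; intro f' _
                  rw [sum_comm, mul_sum]
                  apply sum_congr rfl; intro ω _
                  rw [mul_sum, mul_sum]
          _ ≤ ∑ f', |TT ℓ G e (Pi.single f' 1)| * D := by
              apply sum_le_sum; intro f' _
              apply mul_le_mul_of_nonneg_left _ (abs_nonneg _)
              calc _ ≤ ∑ ω, w ω * (D * |f f' ω| ^ q) := by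
                    apply sum_le_sum; intro ω _
                    exact mul_le_mul_of_nonneg_left ((hLS K (f f' ω)).1 hq) (hw ω)
                _ = D * ∑ ω, w ω * |f f' ω| ^ q := by
                    rw [mul_sum]; apply sum_congr rfl; intro ω _; ring
                _ ≤ D * 1 := mul_le_mul_of_nonneg_left (hX f') hD.le
                _ = D := mul_one D
          _ = (∑ f', |TT ℓ G e (Pi.single f' 1)|) * D := by rw [sum_mul]
          _ ≤ (3 * (4 * Real.log n + 1)) * D := mul_le_mul_of_nonneg_right (hG2 e) hD.le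
          _ ≤ 3 * D * (3 * (4 * Real.log n + 1)) := by
              have := beta_ge hn
              nlinarith
    · exact M1_aux hq C1 ε (2 - q) hC1 hε (by linarith) hn J _ hJ0 le_rfl hCJ
    · intro h; linarith
    · intro h; linarith
  · obtain ⟨C1, hC1, hG⟩ := gammaGt q hgt (3 * D) (by positivity)
    have habs : |q - 2| = q - 2 := abs_of_pos (by linarith)
    refine ⟨(20 ^ q * C1 * 18 ^ (q - 2) / ε) ^ (1 / q) + 800 * C1 * ε ^ (-(2 / q)), by positivity, ?_⟩
    intro n hn Ω _ w hw X ℓ hℓ hX K J L hK hJ hKL hCJ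
    have hJ0 : (0 : ℝ) < J := by exact_mod_cast hJ
    rw [abs_exp_eq hq] at hCJ
    have hCJ' := hCJ
    rw [habs] at hCJ'
    set f : Fin n × Fin n → Ω → ℝ := fun e ω => grad ℓ (fun i => X i ω) e with hf
    obtain ⟨G, hG1, hG2, hG3⟩ := lemmaA_w H n hn ℓ hℓ (Fin K × Ω)
      (fun p => (2:ℝ) ^ (((p.1 : ℕ) : ℝ) * (q - 2)) * w p.2)
      (fun p => mul_nonneg (T5.two_rpow_pos _).le (hw _))
      (fun p e => f e p.2 - lowp p.1 (f e p.2)) D hD (by
        intro e
        rw [Fintype.sum_prod_type_right]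
        calc _ = ∑ ω, w ω * ∑ k ∈ range K, (2:ℝ) ^ ((k : ℝ) * (q - 2)) * (f e ω - lowp k (f e ω)) ^ 2 := by
              apply sum_congr rfl; intro ω _
              rw [← Fin.sum_univ_eq_sum_range (fun k => (2:ℝ) ^ ((k : ℝ) * (q - 2)) * (f e ω - lowp k (f e ω)) ^ 2) K,
                mul_sum]
              apply sum_congr rfl; intro k _
              ring
          _ ≤ ∑ ω, w ω * (D * |f e ω| ^ q) := by
              apply sum_le_sum; intro ω _
              exact mul_le_mul_of_nonneg_left ((hLS K (f e ω)).2.2 hgt) (hw ω)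
          _ = D * ∑ ω, w ω * |f e ω| ^ q := by rw [mul_sum]; apply sum_congr rfl; intro ω _; ring
          _ ≤ D * 1 := mul_le_mul_of_nonneg_left (hX e) hD.le
          _ = D := mul_one D)
    have hTf : ∀ e ω, TT ℓ G e (fun e' => f e' ω) = f e ω := fun e ω =>
      TT_grad ℓ G hG1 e (fun i => X i ω)
    have hdiff : ∀ e k ω, f e ω - TT ℓ G e (fun e' => lowp k (f e' ω))
        = TT ℓ G e (fun e' => f e' ω - lowp k (f e' ω)) := by
      intro e k ω
      rw [← hTf e ω, ← map_sub]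
      congr 1
    have hmain := fun e => hG Ω w hw K (f e) (fun k ω => TT ℓ G e (fun e' => lowp k (f e' ω)))
        (3 * (4 * Real.log n + 1)) (beta_ge hn) (hX e)
        (by
          intro k ω
          refine TT_bound ℓ G e _ _ _ (by positivity) ?_ (hG2 e)
          intro f'
          unfold lowp
          split_ifs with h
          · exact h
          · simp)
        (by
          have h3 := hG3 e
          rw [Fintype.sum_prod_type] at h3
          calc _ = ∑ k : Fin K, ∑ ω, (2:ℝ) ^ (((k : ℕ) : ℝ) * (q - 2)) * w ω *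
                (TT ℓ G e (fun e' => f e' ω - lowp k (f e' ω))) ^ 2 := by
                rw [← Fin.sum_univ_eq_sum_range (fun k => (2:ℝ) ^ ((k : ℝ) * (q - 2)) *
                  ∑ ω, w ω * (f e ω - TT ℓ G e (fun e' => lowp k (f e' ω))) ^ 2) K]
                apply sum_congr rfl; intro k _
                rw [mul_sum]
                apply sum_congr rfl; intro ω _
                rw [hdiff]; ring
            _ ≤ 3 * D := h3)
    apply core hq n Ω w hw X ℓ K J L hK hJ hKL G hG1 (3 * (4 * Real.log n + 1)) hG2 ε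
      (C1 * (3 * (4 * Real.log n + 1)) ^ (q - 2)) C1
    · intro e
      exact (hmain e).1
    · apply M1_aux hq C1 ε (q - 2) hC1 hε (by linarith) hn J _ hJ0 _ hCJ'
      have : 0 ≤ 800 * C1 * ε ^ (-(2 / q)) := by positivity
      linarith
    · intro _ e
      exact (hmain e).2
    · intro _
      apply M2_aux hgt C1 ε hC1 hε hn J _ hJ0 _ hCJ
      have : 0 ≤ (20 ^ q * C1 * 18 ^ (q - 2) / ε) ^ (1 / q) := by positivity
      linarith

end Crest.Agent.H27
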