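import Crest.Agent.H27.Defs

/-!
# Row 232, task T7: hashing facts
-/

set_option autoImplicit false
set_option linter.unusedSectionVars false

namespace Crest.Agent.H27

open scoped BigOperators
open Finset

namespace T7

variable {Ω : Type} [Fintype Ω]

/-- the basic recursion -/
theorem hE_succ (w : Ω → ℝ) (N : ℕ) (F : ℝ → ℝ) (z : Ω → ℝ) :
    hE w (N + 1) F z = ∑ ω, w ω * ((hE w N (fun s => F (s + z ω)) z +
      hE w N (fun s => F (s - z ω)) z) / 2) := by
  classical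
  unfold hE
  rw [← (Fin.consEquiv (fun _ : Fin (N + 1) => Ω × Bool)).sum_comp, Fintype.sum_prod_type,
    Fintype.sum_prod_type]
  refine Finset.sum_congr rfl (fun ω _ => ?_)
  rw [Fintype.sum_bool, ← Finset.sum_add_distrib, ← Finset.sum_add_distrib, Finset.sum_div,
    Finset.mul_sum]
  refine Finset.sum_congr rfl (fun θ _ => ?_)
  have h1 : ∀ b : Bool, hW w (N + 1) ((Fin.consEquiv (fun _ : Fin (N + 1) => Ω × Bool))
      ((ω, b), θ)) = w ω / 2 * hW w N θ := by
    intro b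
    simp only [hW, Fin.prod_univ_succ, Fin.consEquiv, Equiv.coe_fn_mk, Fin.cons_zero,
      Fin.cons_succ]
  have h2 : ∀ b : Bool, hS z (N + 1) ((Fin.consEquiv (fun _ : Fin (N + 1) => Ω × Bool))
      ((ω, b), θ)) = sg b * z ω + hS z N θ := by
    intro b
    simp [hS, Fin.sum_univ_succ, Fin.consEquiv]
  rw [h1, h1, h2, h2]
  have e1 : sg true * z ω + hS z N θ = hS z N θ + z ω := by simp [sg]; ring
  have e2 : sg false * z ω + hS z N θ = hS z N θ - z ω := by simp [sg]; ring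
  rw [e1, e2]
  ring

theorem hE_zero (w : Ω → ℝ) (F : ℝ → ℝ) (z : Ω → ℝ) : hE w 0 F z = F 0 := by
  simp [hE, hW, hS]

theorem hW_nonneg {w : Ω → ℝ} (hw : ∀ ω, 0 ≤ w ω) (N : ℕ) (θ : Fin N → Ω × Bool) :
    0 ≤ hW w N θ := Finset.prod_nonneg (fun a _ => by have := hw (θ a).1; positivity)

theorem hE_mono {w : Ω → ℝ} (hw : ∀ ω, 0 ≤ w ω) (N : ℕ) {F G : ℝ → ℝ} (h : ∀ t, F t ≤ G t)
    (z : Ω → ℝ) : hE w N F z ≤ hE w N G z :=
  Finset.sum_le_sum (fun θ _ => mul_le_mul_of_nonneg_left (h _) (hW_nonneg hw N θ))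

theorem hE_nonneg {w : Ω → ℝ} (hw : ∀ ω, 0 ≤ w ω) (N : ℕ) {F : ℝ → ℝ} (h : ∀ t, 0 ≤ F t)
    (z : Ω → ℝ) : 0 ≤ hE w N F z :=
  Finset.sum_nonneg (fun θ _ => mul_nonneg (hW_nonneg hw N θ) (h _))

theorem hE_add (w : Ω → ℝ) (N : ℕ) (F G : ℝ → ℝ) (z : Ω → ℝ) :
    hE w N (fun t => F t + G t) z = hE w N F z + hE w N G z := by
  unfold hE
  rw [← Finset.sum_add_distrib]
  exact Finset.sum_congr rfl (fun θ _ => by ring)

theorem hE_smul (w : Ω → ℝ) (N : ℕ) (c : ℝ) (F : ℝ → ℝ) (z : Ω → ℝ) :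
    hE w N (fun t => c * F t) z = c * hE w N F z := by
  unfold hE
  rw [Finset.mul_sum]
  exact Finset.sum_congr rfl (fun θ _ => by ring)

theorem hE_one {w : Ω → ℝ} (hw1 : ∑ ω, w ω = 1) (N : ℕ) (z : Ω → ℝ) :
    hE w N (fun _ => 1) z = 1 := by
  induction N with
  | zero => rw [hE_zero]
  | succ N ih =>
    rw [hE_succ]
    simp only [ih]
    norm_num [hw1]

theorem hE_const {w : Ω → ℝ} (hw1 : ∑ ω, w ω = 1) (N : ℕ) (c : ℝ) (z : Ω → ℝ) :
    hE w N (fun _ => c) z = c := by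
  have h := hE_smul w N c (fun _ => 1) z
  rw [hE_one hw1] at h
  simpa using h

theorem hE_average (w : Ω → ℝ) (N : ℕ) (F : ℝ → ℝ) (z : Ω → ℝ) (ω : Ω) :
    (hE w N (fun s => F (s + z ω)) z + hE w N (fun s => F (s - z ω)) z) / 2 =
      hE w N (fun s => (F (s + z ω) + F (s - z ω)) / 2) z := by
  have h : (fun s => (F (s + z ω) + F (s - z ω)) / 2) =
      fun s => (1 / 2 : ℝ) * ((fun s => F (s + z ω) + F (s - z ω)) s) := by
    funext s; ring
  rw [h, hE_smul, hE_add]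
  ring

theorem mass {w : Ω → ℝ} (hw1 : ∑ ω, w ω = 1) (N : ℕ) :
    ∑ θ : Fin N → Ω × Bool, hW w N θ = 1 := by
  have h := hE_one hw1 N (fun _ => 0)
  unfold hE at h
  simpa using h

/-! ### two point inequalities -/

theorem two_point_lower {q : ℝ} (hq : 1 ≤ q) (s z : ℝ) :
    |z| ^ q ≤ (|s + z| ^ q + |s - z| ^ q) / 2 := by
  have h1 : |z| ≤ (1 / 2 : ℝ) * |s + z| + (1 / 2 : ℝ) * |s - z| := by
    have h : z = (1 / 2 : ℝ) * (s + z) - (1 / 2 : ℝ) * (s - z) := by ring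
    calc |z| = |(1 / 2 : ℝ) * (s + z) - (1 / 2 : ℝ) * (s - z)| := by rw [← h]
      _ ≤ |(1 / 2 : ℝ) * (s + z)| + |(1 / 2 : ℝ) * (s - z)| := abs_sub _ _
      _ = _ := by rw [abs_mul, abs_mul, abs_of_pos (by norm_num : (0:ℝ) < 1 / 2)]
  have h2 : |z| ^ q ≤ ((1 / 2 : ℝ) * |s + z| + (1 / 2 : ℝ) * |s - z|) ^ q :=
    Real.rpow_le_rpow (abs_nonneg _) h1 (by linarith)
  have h3 := (convexOn_rpow hq).2 (Set.mem_Ici.2 (abs_nonneg (s + z)))
    (Set.mem_Ici.2 (abs_nonneg (s - z))) (by norm_num : (0:ℝ) ≤ 1 / 2)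
    (by norm_num : (0:ℝ) ≤ 1 / 2) (by norm_num)
  simp only [smul_eq_mul] at h3
  linarith

theorem two_point_mono {q : ℝ} (hq : 1 ≤ q) (s z : ℝ) :
    |s| ^ q ≤ (|s + z| ^ q + |s - z| ^ q) / 2 := by
  have h := two_point_lower hq z s
  rw [add_comm z s, abs_sub_comm z s] at h
  exact h

theorem two_point_contr {q : ℝ} (hq : 1 ≤ q) (hq2 : q ≤ 2) (s z : ℝ) :
    (|s + z| ^ q + |s - z| ^ q) / 2 ≤ |s| ^ q + |z| ^ q := by
  have key : ∀ t : ℝ, |t| ^ q = (t ^ 2) ^ (q / 2) := by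
    intro t
    rw [← sq_abs, ← Real.rpow_natCast, ← Real.rpow_mul (abs_nonneg t)]
    congr 1; push_cast; ring
  have hc := (Real.concaveOn_rpow (by linarith : 0 ≤ q / 2) (by linarith : q / 2 ≤ 1)).2
    (Set.mem_Ici.2 (sq_nonneg (s + z))) (Set.mem_Ici.2 (sq_nonneg (s - z)))
    (by norm_num : (0:ℝ) ≤ 1 / 2) (by norm_num : (0:ℝ) ≤ 1 / 2) (by norm_num)
  simp only [smul_eq_mul] at hc
  have h2 : (1 / 2 : ℝ) * (s + z) ^ 2 + 1 / 2 * (s - z) ^ 2 = s ^ 2 + z ^ 2 := by ring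
  rw [h2] at hc
  have h3 : (s ^ 2 + z ^ 2) ^ (q / 2) ≤ (s ^ 2) ^ (q / 2) + (z ^ 2) ^ (q / 2) :=
    Real.rpow_add_le_add_rpow (sq_nonneg _) (sq_nonneg _) (by linarith) (by linarith)
  rw [key, key, key s, key z]
  linarith

theorem two_point_upper {q : ℝ} (hq : 1 ≤ q) (s z : ℝ) :
    (|s + z| ^ q + |s - z| ^ q) / 2 ≤ 2 ^ (q - 1) * (|s| ^ q + |z| ^ q) := by
  have h : ∀ a b : ℝ, |a + b| ^ q ≤ 2 ^ (q - 1) * (|a| ^ q + |b| ^ q) := by
    intro a b
    have h1 : |a + b| ^ q ≤ (|a| + |b|) ^ q :=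
      Real.rpow_le_rpow (abs_nonneg _) (abs_add_le _ _) (by linarith)
    have h2 := (convexOn_rpow hq).2 (Set.mem_Ici.2 (abs_nonneg a))
      (Set.mem_Ici.2 (abs_nonneg b)) (by norm_num : (0:ℝ) ≤ 1 / 2)
      (by norm_num : (0:ℝ) ≤ 1 / 2) (by norm_num)
    simp only [smul_eq_mul] at h2
    have h3 : (1 / 2 : ℝ) * |a| + 1 / 2 * |b| = (|a| + |b|) / 2 := by ring
    rw [h3, Real.div_rpow (by positivity) (by norm_num)] at h2
    have h4 : (0:ℝ) < 2 ^ q := Real.rpow_pos_of_pos (by norm_num) q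
    rw [div_le_iff₀ h4] at h2
    have h5 : (2:ℝ) ^ (q - 1) = 2 ^ q / 2 := by
      rw [Real.rpow_sub_one (by norm_num)]
    rw [h5]
    nlinarith
  have h1 := h s z
  have h2 := h s (-z)
  rw [abs_neg, ← sub_eq_add_neg] at h2
  linarith

theorem two_point_rosenthal {q : ℝ} (hq : 2 ≤ q) : ∃ C : ℝ, 1 ≤ C ∧ ∀ s z : ℝ,
    (|s + z| ^ q + |s - z| ^ q) / 2 ≤ |s| ^ q + C * (|z| ^ q + |s| ^ (q - 2) * z ^ 2) := by
  refine ⟨2 ^ q + q ^ 2 / 2 * Real.exp (q ^ 2 / 2), ?_, ?_⟩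
  · have h1 : (1:ℝ) ≤ 2 ^ q := Real.one_le_rpow (by norm_num) (by linarith)
    have h2 : (0:ℝ) ≤ q ^ 2 / 2 * Real.exp (q ^ 2 / 2) := by positivity
    linarith
  intro s z
  set D := q ^ 2 / 2 * Real.exp (q ^ 2 / 2) with hD
  have hD0 : 0 ≤ D := by positivity
  have h2q : (0:ℝ) < 2 ^ q := Real.rpow_pos_of_pos (by norm_num) q
  have hs0 : 0 ≤ |s| ^ q := Real.rpow_nonneg (abs_nonneg _) _
  have hz0 : 0 ≤ |z| ^ q := Real.rpow_nonneg (abs_nonneg _) _
  have hsz : 0 ≤ |s| ^ (q - 2) * z ^ 2 :=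
    mul_nonneg (Real.rpow_nonneg (abs_nonneg _) _) (sq_nonneg _)
  rcases le_or_gt |s| |z| with h | h
  · -- crude bound
    have h1 := two_point_upper (by linarith : 1 ≤ q) s z
    have h2 : |s| ^ q ≤ |z| ^ q := Real.rpow_le_rpow (abs_nonneg _) h (by linarith)
    have h3 : (2:ℝ) ^ (q - 1) = 2 ^ q / 2 := by rw [Real.rpow_sub_one (by norm_num)]
    rw [h3] at h1
    have h4 : 0 ≤ D * |z| ^ q := by positivity
    have h5 : 0 ≤ (2 ^ q + D) * (|s| ^ (q - 2) * z ^ 2) := by positivity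
    nlinarith
  · -- |z| < |s|
    have hs : 0 < |s| := lt_of_le_of_lt (abs_nonneg _) h
    have hsne : s ≠ 0 := abs_pos.1 hs
    set x := |z| / |s| with hx
    have hx0 : 0 ≤ x := by positivity
    have hx1 : x ≤ 1 := by rw [hx, div_le_one hs]; exact h.le
    -- the pair {|s+z|,|s-z|} = {|s|+|z|, |s|-|z|}
    have hsum : |s + z| ^ q + |s - z| ^ q = (|s| + |z|) ^ q + (|s| - |z|) ^ q := by
      rcases abs_cases s with ⟨e1, h1⟩ | ⟨e1, h1⟩ <;> rcases abs_cases z with ⟨e2, h2⟩ | ⟨e2, h2⟩ <;>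
        rw [e1, e2] at h
      · rw [abs_of_nonneg (by linarith : 0 ≤ s + z), abs_of_nonneg (by linarith : 0 ≤ s - z),
          e1, e2]
      · rw [abs_of_nonneg (by linarith : 0 ≤ s + z), abs_of_nonneg (by linarith : 0 ≤ s - z),
          e1, e2, sub_neg_eq_add, ← sub_eq_add_neg, add_comm]
      · rw [abs_of_nonpos (by linarith : s + z ≤ 0), abs_of_nonpos (by linarith : s - z ≤ 0),
          e1, e2]
        have a1 : -(s + z) = -s - z := by ring
        have a2 : -(s - z) = -s + z := by ring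
        rw [a1, a2, add_comm]
      · rw [abs_of_nonpos (by linarith : s + z ≤ 0), abs_of_nonpos (by linarith : s - z ≤ 0),
          e1, e2]
        have a1 : -(s + z) = -s + -z := by ring
        have a2 : -(s - z) = -s - -z := by ring
        rw [a1, a2]
    have hzx : |z| = |s| * x := by rw [hx]; field_simp
    have e1 : (|s| + |z|) ^ q = |s| ^ q * (1 + x) ^ q := by
      rw [hzx, ← Real.mul_rpow (abs_nonneg _) (by linarith)]; congr 1; ring
    have e2 : (|s| - |z|) ^ q = |s| ^ q * (1 - x) ^ q := by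
      rw [hzx, ← Real.mul_rpow (abs_nonneg _) (by linarith)]; congr 1; ring
    have b1 : (1 + x) ^ q ≤ Real.exp (q * x) := by
      have h1 : (1 + x) ^ q ≤ (Real.exp x) ^ q :=
        Real.rpow_le_rpow (by linarith) (by linarith [Real.add_one_le_exp x]) (by linarith)
      rwa [← Real.exp_mul, mul_comm x q] at h1
    have b2 : (1 - x) ^ q ≤ Real.exp (-(q * x)) := by
      have h1 : (1 - x) ^ q ≤ (Real.exp (-x)) ^ q :=
        Real.rpow_le_rpow (by linarith) (by linarith [Real.add_one_le_exp (-x)]) (by linarith)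
      rwa [← Real.exp_mul, neg_mul, mul_comm x q] at h1
    have b3 : (Real.exp (q * x) + Real.exp (-(q * x))) / 2 ≤ 1 + D * x ^ 2 := by
      rw [← Real.cosh_eq]
      have c1 := Real.cosh_le_exp_half_sq (q * x)
      set y := (q * x) ^ 2 / 2 with hy
      have hy0 : 0 ≤ y := by positivity
      have hyq : y ≤ q ^ 2 / 2 := by
        rw [hy]
        have : (q * x) ^ 2 ≤ q ^ 2 := by
          have : q * x ≤ q := by nlinarith
          have h0 : 0 ≤ q * x := by positivity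
          nlinarith
        linarith
      have c2 : Real.exp y ≤ 1 + y * Real.exp y := by
        have c3 := Real.add_one_le_exp (-y)
        have c4 : Real.exp (-y) * Real.exp y = 1 := by rw [← Real.exp_add]; simp
        have c5 := Real.exp_pos y
        nlinarith
      have c6 : Real.exp y ≤ Real.exp (q ^ 2 / 2) := Real.exp_le_exp.2 hyq
      calc Real.cosh (q * x) ≤ Real.exp y := c1
        _ ≤ 1 + y * Real.exp y := c2
        _ ≤ 1 + y * Real.exp (q ^ 2 / 2) := by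
          have := mul_le_mul_of_nonneg_left c6 hy0; linarith
        _ = 1 + D * x ^ 2 := by rw [hy, hD]; ring
    have hx2 : |s| ^ q * x ^ 2 = |s| ^ (q - 2) * z ^ 2 := by
      have h1 : |s| ^ q = |s| ^ (q - 2) * |s| ^ 2 := by
        rw [← Real.rpow_natCast, ← Real.rpow_add hs]; congr 1; push_cast; ring
      rw [h1, ← sq_abs z, hzx]; ring
    rw [hsum, e1, e2]
    have b4 : ((1 + x) ^ q + (1 - x) ^ q) / 2 ≤ 1 + D * x ^ 2 := by linarith
    have b5 : |s| ^ q * (((1 + x) ^ q + (1 - x) ^ q) / 2) ≤ |s| ^ q * (1 + D * x ^ 2) :=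
      mul_le_mul_of_nonneg_left b4 hs0
    have b6 : |s| ^ q * (1 + D * x ^ 2) = |s| ^ q + D * (|s| ^ (q - 2) * z ^ 2) := by
      rw [← hx2]; ring
    have b7 : 0 ≤ (2 ^ q + D) * |z| ^ q := by positivity
    have b8 : 0 ≤ 2 ^ q * (|s| ^ (q - 2) * z ^ 2) := by positivity
    nlinarith

/-! ### the facts -/

theorem contr {q : ℝ} (hq : 1 < q) (hq2 : q ≤ 2) {w : Ω → ℝ} (hw : ∀ ω, 0 ≤ w ω)
    (hw1 : ∑ ω, w ω = 1) (N : ℕ) (z : Ω → ℝ) :
    hE w N (fun t => |t| ^ q) z ≤ N * ∑ ω, w ω * |z ω| ^ q := by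
  induction N with
  | zero => rw [hE_zero]; simp [Real.zero_rpow (by linarith : q ≠ 0)]
  | succ N ih =>
    rw [hE_succ]
    have h1 : ∀ ω, w ω * ((hE w N (fun s => |s + z ω| ^ q) z +
        hE w N (fun s => |s - z ω| ^ q) z) / 2) ≤
        w ω * (hE w N (fun s => |s| ^ q) z + |z ω| ^ q) := by
      intro ω
      refine mul_le_mul_of_nonneg_left ?_ (hw ω)
      rw [hE_average w N (fun s => |s| ^ q) z ω]
      refine (hE_mono hw N (fun s => two_point_contr hq.le hq2 s (z ω)) z).trans ?_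
      rw [hE_add, hE_const hw1]
    refine (Finset.sum_le_sum (fun ω _ => h1 ω)).trans ?_
    have h2 : ∑ ω, w ω * (hE w N (fun s => |s| ^ q) z + |z ω| ^ q) =
        hE w N (fun s => |s| ^ q) z + ∑ ω, w ω * |z ω| ^ q := by
      simp only [mul_add]
      rw [Finset.sum_add_distrib, ← Finset.sum_mul, hw1, one_mul]
    rw [h2]
    push_cast
    linarith

theorem lower {q : ℝ} (hq : 1 < q) {w : Ω → ℝ} (hw : ∀ ω, 0 ≤ w ω)
    (hw1 : ∑ ω, w ω = 1) (N : ℕ) (z : Ω → ℝ) (π : ℝ)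
    (hπ : ∑ ω, w ω * (if z ω = 0 then 0 else 1) ≤ π) (hπ1 : π ≤ 1) :
    N * (1 - N * π) * ∑ ω, w ω * |z ω| ^ q ≤ hE w N (fun t => |t| ^ q) z := by
  have hπ0 : 0 ≤ π := le_trans (Finset.sum_nonneg (fun ω _ => by
    have := hw ω
    split_ifs <;> simp [this])) hπ
  set m := ∑ ω, w ω * |z ω| ^ q with hm
  have hm0 : 0 ≤ m := Finset.sum_nonneg (fun ω _ =>
    mul_nonneg (hw ω) (Real.rpow_nonneg (abs_nonneg _) _))
  have hE0 : ∀ N, 0 ≤ hE w N (fun t => |t| ^ q) z := fun N =>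
    hE_nonneg hw N (fun t => Real.rpow_nonneg (abs_nonneg _) _) z
  have hrec : ∀ N : ℕ, (1 - π) * hE w N (fun t => |t| ^ q) z + m ≤
      hE w (N + 1) (fun t => |t| ^ q) z := by
    intro N
    rw [hE_succ]
    have h1 : ∀ ω, w ω * (1 - (if z ω = 0 then 0 else 1)) * hE w N (fun s => |s| ^ q) z +
        w ω * |z ω| ^ q ≤ w ω * ((hE w N (fun s => |s + z ω| ^ q) z +
        hE w N (fun s => |s - z ω| ^ q) z) / 2) := by
      intro ω
      by_cases hz : z ω = 0
      · simp [hz, Real.zero_rpow (by linarith : q ≠ 0)]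
      · simp only [hz, if_false, sub_self, mul_zero, zero_mul, zero_add]
        refine mul_le_mul_of_nonneg_left ?_ (hw ω)
        rw [hE_average w N (fun s => |s| ^ q) z ω]
        have := hE_mono hw N (fun s => two_point_lower hq.le s (z ω)) z
        rwa [hE_const hw1] at this
    refine le_trans ?_ (Finset.sum_le_sum (fun ω _ => h1 ω))
    rw [Finset.sum_add_distrib, ← Finset.sum_mul, ← hm]
    have h2 : ∑ ω, w ω * (1 - (if z ω = 0 then 0 else 1)) =
        1 - ∑ ω, w ω * (if z ω = 0 then 0 else 1) := by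
      simp only [mul_sub, mul_one]
      rw [Finset.sum_sub_distrib, hw1]
    rw [h2]
    have h3 := hE0 N
    nlinarith
  induction N with
  | zero => simp [hE0 0]
  | succ N ih =>
    refine le_trans ?_ (hrec N)
    have h1 : (1 - π) * (N * (1 - N * π) * m) ≤ (1 - π) * hE w N (fun t => |t| ^ q) z :=
      mul_le_mul_of_nonneg_left ih (by linarith)
    have h2 : ((N + 1 : ℕ) : ℝ) * (1 - ((N + 1 : ℕ) : ℝ) * π) * m ≤
        (1 - π) * (N * (1 - N * π) * m) + m := by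
      push_cast
      have hN : (0:ℝ) ≤ N := Nat.cast_nonneg N
      have h3 : (1 - π) * (N * (1 - N * π) * m) + m -
          ((N:ℝ) + 1) * (1 - ((N:ℝ) + 1) * π) * m = m * (N ^ 2 * π ^ 2 + (N + 1) * π) := by ring
      have h4 : 0 ≤ m * ((N:ℝ) ^ 2 * π ^ 2 + (N + 1) * π) := by positivity
      linarith
    linarith

theorem nonzero_le {w : Ω → ℝ} (hw : ∀ ω, 0 ≤ w ω) (hw1 : ∑ ω, w ω = 1) (N : ℕ)
    (z : Ω → ℝ) : hE w N (fun t => if t = 0 then 0 else 1) z ≤
      N * ∑ ω, w ω * (if z ω = 0 then 0 else 1) := by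
  induction N with
  | zero => rw [hE_zero]; simp
  | succ N ih =>
    rw [hE_succ]
    have h1 : ∀ ω, w ω * ((hE w N (fun s => if s + z ω = 0 then 0 else 1) z +
        hE w N (fun s => if s - z ω = 0 then 0 else 1) z) / 2) ≤
        w ω * (hE w N (fun s => if s = 0 then 0 else 1) z + (if z ω = 0 then 0 else 1)) := by
      intro ω
      refine mul_le_mul_of_nonneg_left ?_ (hw ω)
      rw [hE_average w N (fun s => if s = 0 then 0 else 1) z ω]
      have h2 : ∀ s : ℝ, ((if s + z ω = 0 then 0 else 1) + (if s - z ω = 0 then 0 else 1)) / 2 ≤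
          (if s = 0 then (0:ℝ) else 1) + (if z ω = 0 then 0 else 1) := by
        intro s
        by_cases hs : s = 0
        · by_cases hz : z ω = 0
          · simp [hs, hz]
          · simp [hs, hz]
        · have h3 : (if s + z ω = 0 then (0:ℝ) else 1) ≤ 1 := by split_ifs <;> norm_num
          have h4 : (if s - z ω = 0 then (0:ℝ) else 1) ≤ 1 := by split_ifs <;> norm_num
          have h5 : (0:ℝ) ≤ (if z ω = 0 then 0 else 1) := by split_ifs <;> norm_num
          simp only [hs, if_false]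
          linarith
      refine (hE_mono hw N h2 z).trans ?_
      rw [hE_add, hE_const hw1]
    refine (Finset.sum_le_sum (fun ω _ => h1 ω)).trans ?_
    simp only [mul_add]
    rw [Finset.sum_add_distrib, ← Finset.sum_mul, hw1, one_mul]
    push_cast
    linarith

theorem upper {q : ℝ} (hq : 2 ≤ q) : ∃ C : ℝ, 0 < C ∧ ∀ (Ω : Type) [Fintype Ω] (w : Ω → ℝ),
    (∀ ω, 0 ≤ w ω) → ∑ ω, w ω = 1 → ∀ (N : ℕ) (z : Ω → ℝ) (π : ℝ),
      (∑ ω, w ω * (if z ω = 0 then 0 else 1) ≤ π) → N * π ≤ 1 →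
      hE w N (fun t => |t| ^ q) z ≤ (1 + C * (N * π)) * N * ∑ ω, w ω * |z ω| ^ q := by
  set D : ℝ := 2 ^ (q - 1) with hD
  have hD0 : 0 < D := Real.rpow_pos_of_pos (by norm_num) _
  refine ⟨D * Real.exp D + D + D ^ 2 * Real.exp D, by positivity, ?_⟩
  intro Ω _ w hw hw1 N z π hπ hNπ
  have hπ0 : 0 ≤ π := le_trans (Finset.sum_nonneg (fun ω _ => by
    have := hw ω
    split_ifs <;> simp [this])) hπ
  set m := ∑ ω, w ω * |z ω| ^ q with hm
  have hm0 : 0 ≤ m := Finset.sum_nonneg (fun ω _ =>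
    mul_nonneg (hw ω) (Real.rpow_nonneg (abs_nonneg _) _))
  have hE0 : ∀ N, 0 ≤ hE w N (fun t => |t| ^ q) z := fun N =>
    hE_nonneg hw N (fun t => Real.rpow_nonneg (abs_nonneg _) _) z
  -- recursion
  have hrec : ∀ j : ℕ, j ≤ N → hE w (j + 1) (fun t => |t| ^ q) z ≤
      (1 + D * π) * hE w j (fun t => |t| ^ q) z + m * (1 + D * (N * π)) := by
    intro j hj
    rw [hE_succ]
    have h1 : ∀ ω, w ω * ((hE w j (fun s => |s + z ω| ^ q) z +
        hE w j (fun s => |s - z ω| ^ q) z) / 2) ≤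
        w ω * (hE w j (fun s => |s| ^ q) z) +
        D * (w ω * (if z ω = 0 then 0 else 1)) * hE w j (fun s => |s| ^ q) z +
        w ω * |z ω| ^ q * (1 + D * (N * π)) := by
      intro ω
      rw [hE_average w j (fun s => |s| ^ q) z ω]
      have h2 : ∀ s : ℝ, (|s + z ω| ^ q + |s - z ω| ^ q) / 2 ≤
          ((|s| ^ q + D * ((if z ω = 0 then 0 else 1) * |s| ^ q)) + |z ω| ^ q) +
            (D * |z ω| ^ q) * (if s = 0 then 0 else 1) := by
        intro s
        have n1 : 0 ≤ |s| ^ q := Real.rpow_nonneg (abs_nonneg _) _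
        have n2 : 0 ≤ |z ω| ^ q := Real.rpow_nonneg (abs_nonneg _) _
        by_cases hs : s = 0
        · subst hs
          simp only [zero_add, zero_sub, abs_neg, abs_zero, if_true, mul_zero, add_zero,
            Real.zero_rpow (by linarith : q ≠ 0)]
          linarith
        · by_cases hz : z ω = 0
          · simp [hz, Real.zero_rpow (by linarith : q ≠ 0)]
          · simp only [hs, hz, if_false, one_mul, mul_one]
            have := two_point_upper (by linarith : 1 ≤ q) s (z ω)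
            rw [← hD] at this
            nlinarith
      have h3 := hE_mono hw j h2 z
      rw [hE_add, hE_add, hE_add, hE_smul, hE_smul, hE_smul, hE_const hw1] at h3
      have h4 := nonzero_le hw hw1 j z
      have h5 : hE w j (fun t => if t = 0 then (0:ℝ) else 1) z ≤ N * π := by
        refine h4.trans ?_
        have : (j:ℝ) ≤ N := by exact_mod_cast hj
        have h6 : (j:ℝ) * ∑ ω, w ω * (if z ω = 0 then 0 else 1) ≤ j * π :=
          mul_le_mul_of_nonneg_left hπ (Nat.cast_nonneg j)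
        nlinarith
      have n2 : 0 ≤ |z ω| ^ q := Real.rpow_nonneg (abs_nonneg _) _
      have h6 : (D * |z ω| ^ q) * hE w j (fun t => if t = 0 then (0:ℝ) else 1) z ≤
          (D * |z ω| ^ q) * (N * π) := mul_le_mul_of_nonneg_left h5 (by positivity)
      have h7 := mul_le_mul_of_nonneg_left (h3.trans (add_le_add_right h6 _)) (hw ω)
      refine h7.trans (le_of_eq ?_)
      ring
    refine (Finset.sum_le_sum (fun ω _ => h1 ω)).trans ?_
    rw [Finset.sum_add_distrib, Finset.sum_add_distrib, ← Finset.sum_mul, ← Finset.sum_mul,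
      ← Finset.sum_mul, ← Finset.mul_sum, hw1, one_mul, ← hm]
    have h8 : D * (∑ ω, w ω * (if z ω = 0 then 0 else 1)) * hE w j (fun s => |s| ^ q) z ≤
        D * π * hE w j (fun s => |s| ^ q) z :=
      mul_le_mul_of_nonneg_right (mul_le_mul_of_nonneg_left hπ hD0.le) (hE0 j)
    linarith
  -- induction
  have hind : ∀ j : ℕ, j ≤ N → hE w j (fun t => |t| ^ q) z ≤
      j * m * (1 + D * π) ^ j * (1 + D * (N * π)) := by
    intro j
    induction j with
    | zero => intro _; rw [hE_zero]; simp [Real.zero_rpow (by linarith : q ≠ 0)]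
    | succ j ih =>
      intro hj
      have h1 := ih (by omega)
      have h2 := hrec j (by omega)
      have h3 : 1 ≤ (1 + D * π) ^ (j + 1) := one_le_pow₀ (by nlinarith)
      have h4 : 0 ≤ m * (1 + D * (N * π)) := by positivity
      have h5 : (1 + D * π) * hE w j (fun t => |t| ^ q) z ≤
          (1 + D * π) * (j * m * (1 + D * π) ^ j * (1 + D * (N * π))) :=
        mul_le_mul_of_nonneg_left h1 (by positivity)
      calc hE w (j + 1) (fun t => |t| ^ q) z
          ≤ (1 + D * π) * (j * m * (1 + D * π) ^ j * (1 + D * (N * π))) +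
            m * (1 + D * (N * π)) * 1 := by linarith
        _ ≤ (1 + D * π) * (j * m * (1 + D * π) ^ j * (1 + D * (N * π))) +
            m * (1 + D * (N * π)) * (1 + D * π) ^ (j + 1) := by
              have := mul_le_mul_of_nonneg_left h3 h4; linarith
        _ = _ := by push_cast; ring
  have hfin := hind N le_rfl
  set t := (N:ℝ) * π with ht
  have ht0 : 0 ≤ t := by positivity
  have h1 : (1 + D * π) ^ N ≤ Real.exp (D * t) := by
    have h2 : 1 + D * π ≤ Real.exp (D * π) := by linarith [Real.add_one_le_exp (D * π)]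
    calc (1 + D * π) ^ N ≤ (Real.exp (D * π)) ^ N := pow_le_pow_left₀ (by positivity) h2 N
      _ = Real.exp (D * t) := by rw [← Real.exp_nat_mul]; congr 1; rw [ht]; ring
  have h2 : Real.exp (D * t) ≤ 1 + D * t * Real.exp D := by
    have c3 := Real.add_one_le_exp (-(D * t))
    have c4 : Real.exp (-(D * t)) * Real.exp (D * t) = 1 := by rw [← Real.exp_add]; simp
    have c5 := Real.exp_pos (D * t)
    have c6 : Real.exp (D * t) ≤ Real.exp D := Real.exp_le_exp.2 (by nlinarith)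
    have c7 : Real.exp (D * t) ≤ 1 + D * t * Real.exp (D * t) := by nlinarith
    have c8 : D * t * Real.exp (D * t) ≤ D * t * Real.exp D :=
      mul_le_mul_of_nonneg_left c6 (by positivity)
    linarith
  have h3 : (1 + D * π) ^ N * (1 + D * t) ≤
      1 + (D * Real.exp D + D + D ^ 2 * Real.exp D) * t := by
    have h4 : (1 + D * π) ^ N * (1 + D * t) ≤ (1 + D * t * Real.exp D) * (1 + D * t) :=
      mul_le_mul_of_nonneg_right (h1.trans h2) (by positivity)
    have h5 : (1 + D * t * Real.exp D) * (1 + D * t) =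
        1 + (D * Real.exp D + D) * t + D ^ 2 * Real.exp D * t ^ 2 := by ring
    have h6 : t ^ 2 ≤ t := by nlinarith
    have h7 : D ^ 2 * Real.exp D * t ^ 2 ≤ D ^ 2 * Real.exp D * t :=
      mul_le_mul_of_nonneg_left h6 (by positivity)
    linarith
  calc hE w N (fun t => |t| ^ q) z ≤ N * m * (1 + D * π) ^ N * (1 + D * t) := hfin
    _ = (N * m) * ((1 + D * π) ^ N * (1 + D * t)) := by ring
    _ ≤ (N * m) * (1 + (D * Real.exp D + D + D ^ 2 * Real.exp D) * t) :=
        mul_le_mul_of_nonneg_left h3 (by positivity)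
    _ = _ := by ring

theorem hE_mono_N {q : ℝ} (hq : 1 ≤ q) {w : Ω → ℝ} (hw : ∀ ω, 0 ≤ w ω)
    (hw1 : ∑ ω, w ω = 1) (z : Ω → ℝ) (N : ℕ) :
    hE w N (fun t => |t| ^ q) z ≤ hE w (N + 1) (fun t => |t| ^ q) z := by
  rw [hE_succ]
  have h1 : ∀ ω, w ω * hE w N (fun s => |s| ^ q) z ≤
      w ω * ((hE w N (fun s => |s + z ω| ^ q) z + hE w N (fun s => |s - z ω| ^ q) z) / 2) := by
    intro ω
    refine mul_le_mul_of_nonneg_left ?_ (hw ω)
    rw [hE_average w N (fun s => |s| ^ q) z ω]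
    exact hE_mono hw N (fun s => two_point_mono hq s (z ω)) z
  refine le_trans (le_of_eq ?_) (Finset.sum_le_sum (fun ω _ => h1 ω))
  rw [← Finset.sum_mul, hw1, one_mul]

theorem hE_jensen {q : ℝ} (hq : 2 ≤ q) {w : Ω → ℝ} (hw : ∀ ω, 0 ≤ w ω)
    (hw1 : ∑ ω, w ω = 1) (z : Ω → ℝ) (N : ℕ) :
    hE w N (fun t => |t| ^ (q - 2)) z ≤ (hE w N (fun t => |t| ^ q) z) ^ ((q - 2) / q) := by
  have hq0 : 0 < q := by linarith
  have hc := (Real.concaveOn_rpow (by positivity : 0 ≤ (q - 2) / q)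
    (by rw [div_le_one hq0]; linarith)).le_map_sum (t := (Finset.univ : Finset (Fin N → Ω × Bool)))
    (w := hW w N) (p := fun θ => |hS z N θ| ^ q) (fun θ _ => hW_nonneg hw N θ) (mass hw1 N)
    (fun θ _ => Set.mem_Ici.2 (Real.rpow_nonneg (abs_nonneg _) _))
  simp only [smul_eq_mul] at hc
  refine le_trans (le_of_eq ?_) hc
  unfold hE
  refine Finset.sum_congr rfl (fun θ _ => ?_)
  rw [← Real.rpow_mul (abs_nonneg _)]
  congr 2
  field_simp

theorem rosenthal {q : ℝ} (hq : 2 ≤ q) : ∃ C : ℝ, 0 < C ∧ ∀ (Ω : Type) [Fintype Ω] (w : Ω → ℝ),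
    (∀ ω, 0 ≤ w ω) → ∑ ω, w ω = 1 → ∀ (N : ℕ) (z : Ω → ℝ),
      hE w N (fun t => |t| ^ q) z ≤
        C * (N * ∑ ω, w ω * |z ω| ^ q + (N * ∑ ω, w ω * (z ω) ^ 2) ^ (q / 2)) := by
  obtain ⟨D, hD1, hD⟩ := two_point_rosenthal hq
  have hD0 : 0 < D := by linarith
  refine ⟨2 * D + (2 * D) ^ (q / 2), by positivity, ?_⟩
  intro Ω _ w hw hw1 N z
  set mq := ∑ ω, w ω * |z ω| ^ q with hmq
  set m2 := ∑ ω, w ω * (z ω) ^ 2 with hm2
  have hmq0 : 0 ≤ mq := Finset.sum_nonneg (fun ω _ =>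
    mul_nonneg (hw ω) (Real.rpow_nonneg (abs_nonneg _) _))
  have hm20 : 0 ≤ m2 := Finset.sum_nonneg (fun ω _ => mul_nonneg (hw ω) (sq_nonneg _))
  have hE0 : ∀ N, 0 ≤ hE w N (fun t => |t| ^ q) z := fun N =>
    hE_nonneg hw N (fun t => Real.rpow_nonneg (abs_nonneg _) _) z
  set M := hE w N (fun t => |t| ^ q) z with hM
  have hM0 : 0 ≤ M := hE0 N
  have hmonoN : Monotone (fun j => hE w j (fun t => |t| ^ q) z) :=
    monotone_nat_of_le_succ (fun j => hE_mono_N (by linarith) hw hw1 z j)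
  have hα : 0 ≤ (q - 2) / q := div_nonneg (by linarith) (by linarith)
  have hrec : ∀ j : ℕ, j ≤ N → hE w (j + 1) (fun t => |t| ^ q) z ≤
      hE w j (fun t => |t| ^ q) z + D * (mq + m2 * M ^ ((q - 2) / q)) := by
    intro j hj
    rw [hE_succ]
    have h1 : ∀ ω, w ω * ((hE w j (fun s => |s + z ω| ^ q) z +
        hE w j (fun s => |s - z ω| ^ q) z) / 2) ≤
        w ω * (hE w j (fun s => |s| ^ q) z) +
        D * (w ω * |z ω| ^ q + w ω * (z ω) ^ 2 * M ^ ((q - 2) / q)) := by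
      intro ω
      rw [hE_average w j (fun s => |s| ^ q) z ω]
      have h2 : ∀ s : ℝ, (|s + z ω| ^ q + |s - z ω| ^ q) / 2 ≤
          (|s| ^ q + D * |z ω| ^ q) + (D * (z ω) ^ 2) * |s| ^ (q - 2) := by
        intro s
        have := hD s (z ω)
        linarith
      have h3 := hE_mono hw j h2 z
      rw [hE_add, hE_add, hE_const hw1, hE_smul w j (D * (z ω) ^ 2)] at h3
      have h4 := hE_jensen hq hw hw1 z j
      have h5 : (hE w j (fun t => |t| ^ q) z) ^ ((q - 2) / q) ≤ M ^ ((q - 2) / q) :=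
        Real.rpow_le_rpow (hE0 j) (hmonoN hj) hα
      have h6 : (D * (z ω) ^ 2) * hE w j (fun t => |t| ^ (q - 2)) z ≤
          (D * (z ω) ^ 2) * M ^ ((q - 2) / q) :=
        mul_le_mul_of_nonneg_left (h4.trans h5) (by positivity)
      have h7 := mul_le_mul_of_nonneg_left (h3.trans (add_le_add_right h6 _)) (hw ω)
      refine h7.trans (le_of_eq ?_)
      ring
    refine (Finset.sum_le_sum (fun ω _ => h1 ω)).trans (le_of_eq ?_)
    rw [Finset.sum_add_distrib, ← Finset.sum_mul, ← Finset.mul_sum, Finset.sum_add_distrib,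
      ← Finset.sum_mul, hw1, one_mul]
  have hind : ∀ j : ℕ, j ≤ N → hE w j (fun t => |t| ^ q) z ≤
      j * (D * (mq + m2 * M ^ ((q - 2) / q))) := by
    intro j
    induction j with
    | zero => intro _; rw [hE_zero]; simp [Real.zero_rpow (by linarith : q ≠ 0)]
    | succ j ih =>
      intro hj
      have h1 := ih (by omega)
      have h2 := hrec j (by omega)
      push_cast
      linarith
  have hfin : M ≤ D * (N * mq) + D * (N * m2) * M ^ ((q - 2) / q) := by
    refine (hind N le_rfl).trans (le_of_eq ?_)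
    ring
  have hNm2 : 0 ≤ (N:ℝ) * m2 := by positivity
  have hT : 0 ≤ ((N:ℝ) * m2) ^ (q / 2) := Real.rpow_nonneg hNm2 _
  have hNq : 0 ≤ (N:ℝ) * mq := by positivity
  have h2D : (0:ℝ) ≤ (2 * D) ^ (q / 2) := by positivity
  by_cases hcase : M ≤ 2 * D * (N * mq)
  · have h8 : 0 ≤ (2 * D) ^ (q / 2) * (N * mq) := by positivity
    have h9 : 0 ≤ (2 * D + (2 * D) ^ (q / 2)) * ((N:ℝ) * m2) ^ (q / 2) := by positivity
    nlinarith
  · push Not at hcase
    have hMpos : 0 < M := lt_of_le_of_lt (by positivity) hcase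
    have h1 : M ≤ 2 * D * (N * m2) * M ^ ((q - 2) / q) := by linarith
    have h2 : M ^ (2 / q) ≤ 2 * D * (N * m2) := by
      have h3 : M = M ^ (2 / q) * M ^ ((q - 2) / q) := by
        rw [← Real.rpow_add hMpos]
        have : 2 / q + (q - 2) / q = 1 := by field_simp; ring
        rw [this, Real.rpow_one]
      have h4 : 0 < M ^ ((q - 2) / q) := Real.rpow_pos_of_pos hMpos _
      have h5 : M ^ (2 / q) * M ^ ((q - 2) / q) ≤ 2 * D * (N * m2) * M ^ ((q - 2) / q) := by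
        rw [← h3]; exact h1
      exact le_of_mul_le_mul_right h5 h4
    have h3 : M ≤ (2 * D * (N * m2)) ^ (q / 2) := by
      have h4 : (M ^ (2 / q)) ^ (q / 2) ≤ (2 * D * (N * m2)) ^ (q / 2) :=
        Real.rpow_le_rpow (by positivity) h2 (by linarith)
      rwa [← Real.rpow_mul hMpos.le, (by field_simp : 2 / q * (q / 2) = 1), Real.rpow_one] at h4
    rw [Real.mul_rpow (by positivity) hNm2] at h3
    have h8 : 0 ≤ (2 * D + (2 * D) ^ (q / 2)) * (N * mq) := by positivity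
    have h9 : 0 ≤ 2 * D * ((N:ℝ) * m2) ^ (q / 2) := by positivity
    nlinarith

theorem mink {q : ℝ} (hq : 1 ≤ q) {w : Ω → ℝ} (hw : ∀ ω, 0 ≤ w ω) (N : ℕ) (y z : Ω → ℝ) :
    (hE w N (fun t => |t| ^ q) (fun ω => y ω + z ω)) ^ (1 / q) ≤
      (hE w N (fun t => |t| ^ q) y) ^ (1 / q) + (hE w N (fun t => |t| ^ q) z) ^ (1 / q) := by
  have hq0 : 0 < q := by linarith
  have key : ∀ u : Ω → ℝ, hE w N (fun t => |t| ^ q) u =
      ∑ θ : Fin N → Ω × Bool, |(hW w N θ) ^ (1 / q) * hS u N θ| ^ q := by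
    intro u
    unfold hE
    refine Finset.sum_congr rfl (fun θ _ => ?_)
    have h0 := hW_nonneg hw N θ
    rw [abs_mul, abs_of_nonneg (Real.rpow_nonneg h0 _),
      Real.mul_rpow (Real.rpow_nonneg h0 _) (abs_nonneg _), ← Real.rpow_mul h0,
      one_div_mul_cancel hq0.ne', Real.rpow_one]
  rw [key, key y, key z]
  have h := Real.Lp_add_le (Finset.univ : Finset (Fin N → Ω × Bool))
    (fun θ => (hW w N θ) ^ (1 / q) * hS y N θ) (fun θ => (hW w N θ) ^ (1 / q) * hS z N θ) hq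
  refine le_trans (le_of_eq ?_) h
  congr 1
  refine Finset.sum_congr rfl (fun θ _ => ?_)
  have : hS (fun ω => y ω + z ω) N θ = hS y N θ + hS z N θ := by
    unfold hS
    rw [← Finset.sum_add_distrib]
    exact Finset.sum_congr rfl (fun a _ => by ring)
  rw [this, mul_add]

theorem cosh_le_sq {t : ℝ} (ht : |t| ≤ 1) : Real.cosh t ≤ 1 + t ^ 2 := by
  have h1 := Real.cosh_le_exp_half_sq t
  set y := t ^ 2 / 2 with hy
  have ht2 : t ^ 2 ≤ 1 := by rw [← sq_abs]; nlinarith [abs_nonneg t]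
  have hy0 : 0 ≤ y := by positivity
  have hy1 : y ≤ 1 / 2 := by rw [hy]; linarith
  have h2 : Real.exp y ≤ 1 + 2 * y := by
    have c3 := Real.add_one_le_exp (-y)
    have c4 : Real.exp (-y) * Real.exp y = 1 := by rw [← Real.exp_add]; simp
    have c5 := Real.exp_pos y
    have c6 : (1 - y) * Real.exp y ≤ 1 := by nlinarith
    have c7 : Real.exp y ≤ 2 := by nlinarith
    nlinarith
  calc Real.cosh t ≤ Real.exp y := h1
    _ ≤ 1 + 2 * y := h2
    _ = 1 + t ^ 2 := by rw [hy]; ring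

theorem cosh_fact {w : Ω → ℝ} (hw : ∀ ω, 0 ≤ w ω) (hw1 : ∑ ω, w ω = 1) (N : ℕ)
    (z : Ω → ℝ) (hz : ∀ ω, |z ω| ≤ 1) :
    hE w N Real.cosh z ≤ Real.exp (N * ∑ ω, w ω * (z ω) ^ 2) := by
  have h1 : ∀ N : ℕ, hE w N Real.cosh z = (∑ ω, w ω * Real.cosh (z ω)) ^ N := by
    intro N
    induction N with
    | zero => rw [hE_zero]; simp
    | succ N ih =>
      rw [hE_succ, pow_succ, ← ih, Finset.mul_sum]
      refine Finset.sum_congr rfl (fun ω _ => ?_)
      rw [hE_average w N Real.cosh z ω]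
      have h2 : (fun s => (Real.cosh (s + z ω) + Real.cosh (s - z ω)) / 2) =
          fun s => Real.cosh (z ω) * Real.cosh s := by
        funext s
        rw [Real.cosh_add, Real.cosh_sub]
        ring
      rw [h2, hE_smul]
      ring
  rw [h1]
  have h2 : ∑ ω, w ω * Real.cosh (z ω) ≤ Real.exp (∑ ω, w ω * (z ω) ^ 2) := by
    calc ∑ ω, w ω * Real.cosh (z ω) ≤ ∑ ω, w ω * (1 + (z ω) ^ 2) :=
          Finset.sum_le_sum (fun ω _ => mul_le_mul_of_nonneg_left (cosh_le_sq (hz ω)) (hw ω))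
      _ = 1 + ∑ ω, w ω * (z ω) ^ 2 := by
          simp only [mul_add, mul_one]
          rw [Finset.sum_add_distrib, hw1]
      _ ≤ _ := by linarith [Real.add_one_le_exp (∑ ω, w ω * (z ω) ^ 2)]
  have h0 : 0 ≤ ∑ ω, w ω * Real.cosh (z ω) :=
    Finset.sum_nonneg (fun ω _ => mul_nonneg (hw ω) (Real.cosh_pos _).le)
  calc (∑ ω, w ω * Real.cosh (z ω)) ^ N ≤ (Real.exp (∑ ω, w ω * (z ω) ^ 2)) ^ N :=
        pow_le_pow_left₀ h0 h2 N
    _ = _ := by rw [← Real.exp_nat_mul]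

end T7

/-- (T7) -/
theorem hashFacts (q : ℝ) (hq : 1 < q) : HashFacts q where
  mass := fun _ _ _ hw1 N => T7.mass hw1 N
  contr := fun hq2 _ _ _ hw hw1 N z => T7.contr hq hq2 hw hw1 N z
  lower := fun _ _ _ hw hw1 N z π hπ hπ1 => T7.lower hq hw hw1 N z π hπ hπ1
  upper := fun hq2 => T7.upper hq2
  rosenthal := fun hq2 => T7.rosenthal hq2
  mink := fun hq1 _ _ _ hw N y z => T7.mink hq1 hw N y z
  cosh := fun _ _ _ hw hw1 N z hz => T7.cosh_fact hw hw1 N z hz

end Crest.Agent.H27
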