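import Mathlib
import Crest.Agent.H27.Defs

/-! Row 232 (T8): sampling of polynomially many coordinates. -/

set_option autoImplicit false

namespace Crest.Agent.H27

open scoped BigOperators
open Finset

namespace T8

variable {Θ : Type} [Fintype Θ] {W : Θ → ℝ}

theorem avg_prod (W : Θ → ℝ) {S : ℕ} (g : Fin S → Θ → ℝ) :
    ∑ θ : Fin S → Θ, ∏ s, (W (θ s) * g s (θ s)) = ∏ s, ∑ t, W t * g s t := by
  rw [Finset.prod_univ_sum, Fintype.piFinset_univ]

theorem avg_one (hW1 : ∑ t, W t = 1) (S : ℕ) : ∑ θ : Fin S → Θ, ∏ s, W (θ s) = 1 := by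
  have h := avg_prod W (S := S) (fun _ _ => 1)
  simp only [mul_one, hW1, Finset.prod_const_one] at h
  exact h

theorem avg_pow (W : Θ → ℝ) (S : ℕ) (g : Θ → ℝ) :
    ∑ θ : Fin S → Θ, (∏ s, W (θ s)) * ∏ s, g (θ s) = (∑ t, W t * g t) ^ S := by
  have h := avg_prod W (S := S) (fun _ => g)
  simp only [Finset.prod_mul_distrib, Finset.prod_const, Finset.card_univ, Fintype.card_fin] at h
  exact h

theorem avg_single (hW1 : ∑ t, W t = 1) (S : ℕ) (h : Θ → ℝ) (s : Fin S) :
    ∑ θ : Fin S → Θ, (∏ s, W (θ s)) * h (θ s) = ∑ t, W t * h t := by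
  have h1 := avg_prod W (S := S) (fun s' t => if s' = s then h t else 1)
  have h2 : ∀ θ : Fin S → Θ, ∏ s', (W (θ s') * if s' = s then h (θ s') else 1) =
      (∏ s', W (θ s')) * h (θ s) := by
    intro θ
    rw [Finset.prod_mul_distrib, Finset.prod_ite_eq' univ s, if_pos (Finset.mem_univ s)]
  simp only [h2] at h1
  rw [h1, ← Finset.mul_prod_erase univ _ (Finset.mem_univ s)]
  simp only [if_true]
  rw [Finset.prod_eq_one, mul_one]
  intro s' hs'
  simp only [if_neg (Finset.ne_of_mem_erase hs'), mul_one, hW1]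

theorem chernoff (hW : ∀ t, 0 ≤ W t) (hW1 : ∑ t, W t = 1) {z : Θ → ℝ} (hz : ∀ t, |z t| ≤ 1)
    (hz0 : ∑ t, W t * z t = 0) {l : ℝ} (hl : |l| ≤ 1) :
    ∑ t, W t * Real.exp (l * z t) ≤ Real.exp (l ^ 2) := by
  calc ∑ t, W t * Real.exp (l * z t) ≤ ∑ t, W t * (1 + l * z t + l ^ 2) := by
        apply Finset.sum_le_sum; intro t _
        apply mul_le_mul_of_nonneg_left _ (hW t)
        have h1 : |l * z t| ≤ 1 := by
          rw [abs_mul]; exact mul_le_one₀ hl (abs_nonneg _) (hz t)
        have h2 := Real.abs_exp_sub_one_sub_id_le h1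
        have h3 := (abs_le.1 h2).2
        have h4 : (l * z t) ^ 2 ≤ l ^ 2 := by
          rw [mul_pow]
          have : (z t) ^ 2 ≤ 1 := by
            rw [← sq_abs]; exact pow_le_one₀ (abs_nonneg _) (hz t)
          nlinarith [sq_nonneg l]
        linarith
    _ = 1 + l ^ 2 := by
        simp only [mul_add, mul_one, Finset.sum_add_distrib]
        have e1 : ∑ t, W t * (l * z t) = l * ∑ t, W t * z t := by
          rw [Finset.mul_sum]; apply Finset.sum_congr rfl; intro t _; ring
        rw [e1, hz0, hW1, ← Finset.sum_mul, hW1]; ring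
    _ ≤ Real.exp (l ^ 2) := by
        have := Real.add_one_le_exp (l ^ 2)
        linarith

theorem sample_exists (hW : ∀ t, 0 ≤ W t) (hW1 : ∑ t, W t = 1) {κ : Type} [Fintype κ]
    (Y b : κ → Θ → ℝ) (hY0 : ∀ e t, 0 ≤ Y e t) (hY1 : ∀ e t, Y e t ≤ 1) (hb : ∀ e t, 0 ≤ b e t)
    {S : ℕ} (hS : 0 < S) {η : ℝ} (hη : 0 < η) (hη2 : η ≤ 2)
    (hsmall : 2 * (Fintype.card κ : ℝ) * Real.exp (-(S * η ^ 2 / 4)) +
      S * ∑ e, ∑ t, W t * b e t < 1) :
    ∃ θ : Fin S → Θ, ∀ e, |(1 / S : ℝ) * ∑ s, Y e (θ s) - ∑ t, W t * Y e t| ≤ η ∧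
      ∀ s, b e (θ s) < 1 := by
  set m : κ → ℝ := fun e => ∑ t, W t * Y e t with hm
  set z : κ → Θ → ℝ := fun e t => Y e t - m e with hz
  set l : ℝ := η / 2 with hl
  have hl0 : 0 < l := by positivity
  have hl1 : |l| ≤ 1 := by rw [abs_of_pos hl0]; linarith
  have hl1' : |(-l)| ≤ 1 := by rw [abs_neg]; exact hl1
  have hm0 : ∀ e, 0 ≤ m e := fun e => Finset.sum_nonneg fun t _ => mul_nonneg (hW t) (hY0 e t)
  have hm1 : ∀ e, m e ≤ 1 := fun e => by
    calc m e ≤ ∑ t, W t * 1 := Finset.sum_le_sum fun t _ =>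
          mul_le_mul_of_nonneg_left (hY1 e t) (hW t)
      _ = 1 := by simp [hW1]
  have hz1 : ∀ e t, |z e t| ≤ 1 := by
    intro e t
    have := hY0 e t; have := hY1 e t; have := hm0 e; have := hm1 e
    simp only [hz]
    rw [abs_le]; constructor <;> linarith
  have hz0 : ∀ e, ∑ t, W t * z e t = 0 := by
    intro e
    simp only [hz, mul_sub, Finset.sum_sub_distrib]
    rw [← Finset.sum_mul, hW1, one_mul]
    simp [hm]
  -- the potential
  set Ψ : (Fin S → Θ) → ℝ := fun θ =>
    ∑ e, (Real.exp (-(l * η * S)) * ∏ s, Real.exp (l * z e (θ s)) +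
      Real.exp (-(l * η * S)) * ∏ s, Real.exp (-l * z e (θ s))) +
    ∑ e, ∑ s, b e (θ s) with hΨ
  have hE : ∑ θ : Fin S → Θ, (∏ s, W (θ s)) * Ψ θ < 1 := by
    have e1 : ∑ θ : Fin S → Θ, (∏ s, W (θ s)) * Ψ θ =
        ∑ e, (Real.exp (-(l * η * S)) * (∑ t, W t * Real.exp (l * z e t)) ^ S +
          Real.exp (-(l * η * S)) * (∑ t, W t * Real.exp (-l * z e t)) ^ S) +
        ∑ e, S * ∑ t, W t * b e t := by
      simp only [hΨ, mul_add, Finset.sum_add_distrib, Finset.mul_sum]
      congr 1
      · congr 1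
        · rw [Finset.sum_comm]
          apply Finset.sum_congr rfl; intro e _
          rw [← avg_pow, Finset.mul_sum]
          apply Finset.sum_congr rfl; intro θ _; ring
        · rw [Finset.sum_comm]
          apply Finset.sum_congr rfl; intro e _
          rw [← avg_pow, Finset.mul_sum]
          apply Finset.sum_congr rfl; intro θ _; ring
      · rw [Finset.sum_comm]
        apply Finset.sum_congr rfl; intro e _
        rw [Finset.sum_comm]
        have : ∀ s : Fin S, ∑ θ : Fin S → Θ, (∏ s, W (θ s)) * b e (θ s) = ∑ t, W t * b e t :=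
          fun s => avg_single hW1 S (b e) s
        simp only [this, Finset.sum_const, Finset.card_univ, Fintype.card_fin, nsmul_eq_mul]
        rw [Finset.mul_sum]
    rw [e1]
    have e2 : ∀ e, Real.exp (-(l * η * S)) * (∑ t, W t * Real.exp (l * z e t)) ^ S ≤
        Real.exp (-(S * η ^ 2 / 4)) := by
      intro e
      have h1 := chernoff hW hW1 (hz1 e) (hz0 e) hl1
      have h0 : 0 ≤ ∑ t, W t * Real.exp (l * z e t) :=
        Finset.sum_nonneg fun t _ => mul_nonneg (hW t) (Real.exp_pos _).le
      calc _ ≤ Real.exp (-(l * η * S)) * (Real.exp (l ^ 2)) ^ S :=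
            mul_le_mul_of_nonneg_left (pow_le_pow_left₀ h0 h1 S) (Real.exp_pos _).le
        _ = Real.exp (-(S * η ^ 2 / 4)) := by
            rw [← Real.exp_nat_mul, ← Real.exp_add]
            congr 1
            simp only [hl]; ring
    have e3 : ∀ e, Real.exp (-(l * η * S)) * (∑ t, W t * Real.exp (-l * z e t)) ^ S ≤
        Real.exp (-(S * η ^ 2 / 4)) := by
      intro e
      have h1 := chernoff hW hW1 (hz1 e) (hz0 e) hl1'
      have h0 : 0 ≤ ∑ t, W t * Real.exp (-l * z e t) :=
        Finset.sum_nonneg fun t _ => mul_nonneg (hW t) (Real.exp_pos _).le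
      calc _ ≤ Real.exp (-(l * η * S)) * (Real.exp ((-l) ^ 2)) ^ S :=
            mul_le_mul_of_nonneg_left (pow_le_pow_left₀ h0 h1 S) (Real.exp_pos _).le
        _ = Real.exp (-(S * η ^ 2 / 4)) := by
            rw [← Real.exp_nat_mul, ← Real.exp_add]
            congr 1
            simp only [hl]; ring
    have e4 : ∑ e, (Real.exp (-(l * η * S)) * (∑ t, W t * Real.exp (l * z e t)) ^ S +
          Real.exp (-(l * η * S)) * (∑ t, W t * Real.exp (-l * z e t)) ^ S) ≤
          2 * (Fintype.card κ : ℝ) * Real.exp (-(S * η ^ 2 / 4)) := by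
      calc _ ≤ ∑ e : κ, (Real.exp (-(S * η ^ 2 / 4)) + Real.exp (-(S * η ^ 2 / 4))) :=
            Finset.sum_le_sum fun e _ => add_le_add (e2 e) (e3 e)
        _ = _ := by
            rw [Finset.sum_const, Finset.card_univ, nsmul_eq_mul]; ring
    rw [← Finset.mul_sum]
    linarith
  obtain ⟨θ, hθ⟩ : ∃ θ, Ψ θ < 1 := by
    by_contra hcon
    push Not at hcon
    have h1 : (1:ℝ) ≤ ∑ θ : Fin S → Θ, (∏ s, W (θ s)) * Ψ θ := by
      rw [← avg_one (W := W) hW1 S]
      apply Finset.sum_le_sum; intro θ _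
      exact le_mul_of_one_le_right (Finset.prod_nonneg fun s _ => hW _) (hcon θ)
    linarith
  have hpos1 : ∀ e, 0 ≤ Real.exp (-(l * η * S)) * ∏ s, Real.exp (l * z e (θ s)) := fun e =>
    mul_nonneg (Real.exp_pos _).le (Finset.prod_nonneg fun s _ => (Real.exp_pos _).le)
  have hpos2 : ∀ e, 0 ≤ Real.exp (-(l * η * S)) * ∏ s, Real.exp (-l * z e (θ s)) := fun e =>
    mul_nonneg (Real.exp_pos _).le (Finset.prod_nonneg fun s _ => (Real.exp_pos _).le)
  have hpos3 : 0 ≤ ∑ e, ∑ s, b e (θ s) :=
    Finset.sum_nonneg fun e _ => Finset.sum_nonneg fun s _ => hb e _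
  have hpos4 : 0 ≤ ∑ e, (Real.exp (-(l * η * S)) * ∏ s, Real.exp (l * z e (θ s)) +
      Real.exp (-(l * η * S)) * ∏ s, Real.exp (-l * z e (θ s))) :=
    Finset.sum_nonneg fun e _ => add_nonneg (hpos1 e) (hpos2 e)
  refine ⟨θ, fun e => ⟨?_, fun s => ?_⟩⟩
  · have h1 : Real.exp (-(l * η * S)) * ∏ s, Real.exp (l * z e (θ s)) +
      Real.exp (-(l * η * S)) * ∏ s, Real.exp (-l * z e (θ s)) < 1 := by
      have h2 := Finset.single_le_sum (f := fun e => Real.exp (-(l * η * S)) *
        ∏ s, Real.exp (l * z e (θ s)) +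
        Real.exp (-(l * η * S)) * ∏ s, Real.exp (-l * z e (θ s)))
        (fun e _ => add_nonneg (hpos1 e) (hpos2 e)) (Finset.mem_univ e)
      simp only [hΨ] at hθ
      linarith
    have hSR : (0:ℝ) < S := by exact_mod_cast hS
    have hsum : ∑ s, z e (θ s) = ∑ s, Y e (θ s) - S * m e := by
      simp only [hz, Finset.sum_sub_distrib, Finset.sum_const, Finset.card_univ, Fintype.card_fin,
        nsmul_eq_mul]
    have h3 : Real.exp (-(l * η * S)) * ∏ s, Real.exp (l * z e (θ s)) < 1 := by
      have := hpos2 e; linarith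
    have h4 : Real.exp (-(l * η * S)) * ∏ s, Real.exp (-l * z e (θ s)) < 1 := by
      have := hpos1 e; linarith
    rw [← Real.exp_sum, ← Real.exp_add, ← Finset.mul_sum, Real.exp_lt_one_iff] at h3 h4
    rw [hsum] at h3 h4
    set Z := ∑ s, Y e (θ s) with hZ
    have h5 : Z - S * m e < η * S := by
      have : l * (Z - S * m e) < l * (η * S) := by linarith
      exact lt_of_mul_lt_mul_left this hl0.le
    have h6 : -(Z - S * m e) < η * S := by
      have : l * (-(Z - S * m e)) < l * (η * S) := by linarith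
      exact lt_of_mul_lt_mul_left this hl0.le
    have h7 : (1 / S : ℝ) * Z - m e = (Z - S * m e) / S := by field_simp
    rw [h7, abs_div, abs_of_pos hSR, div_le_iff₀ hSR, abs_le]
    constructor <;> linarith
  · have h2 : b e (θ s) ≤ ∑ e, ∑ s, b e (θ s) := by
      calc b e (θ s) ≤ ∑ s, b e (θ s) :=
            Finset.single_le_sum (f := fun s => b e (θ s)) (fun s _ => hb e _) (Finset.mem_univ s)
        _ ≤ _ := Finset.single_le_sum (f := fun e => ∑ s, b e (θ s))
            (fun e _ => Finset.sum_nonneg fun s _ => hb e _) (Finset.mem_univ e)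
    simp only [hΨ] at hθ
    linarith

/-- tail bounds from `cosh` -/
theorem exp_abs_le_cosh (x : ℝ) : Real.exp |x| ≤ 2 * Real.cosh x := by
  rw [Real.cosh_eq]
  rcases abs_cases x with ⟨h, _⟩ | ⟨h, _⟩ <;> rw [h]
  · have := Real.exp_pos (-x); linarith
  · have := Real.exp_pos x; linarith

/-- choice of the constant -/
theorem exists_const (A : ℝ) (hA : 1 ≤ A) (p : ℕ) (Cq : ℝ) (hCq : 0 < Cq) :
    ∃ c : ℝ, 3 ≤ c ∧ (∀ L : ℝ, 1 ≤ L →
      528 * A * c ^ (2 * p) * L ^ (4 * p + 3) * Real.exp (2 * L) ≤ Real.exp (c * L)) ∧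
      (∀ L : ℝ, 1 ≤ L → 4 * A * Cq * L ^ (p + 1) ≤ Real.exp (c * L / 2)) := by
  have h1 : Filter.Tendsto (fun c : ℝ => 528 * A * (4 * p + 3).factorial * Real.exp 3 *
      (c ^ (2 * p) * Real.exp (-c))) Filter.atTop (nhds (528 * A * (4 * p + 3).factorial *
        Real.exp 3 * 0)) :=
    (Real.tendsto_pow_mul_exp_neg_atTop_nhds_zero (2 * p)).const_mul _
  have h2 : Filter.Tendsto (fun c : ℝ => 4 * A * Cq * (p + 1).factorial * Real.exp 1 *
      Real.exp (-(c / 2))) Filter.atTop (nhds (4 * A * Cq * (p + 1).factorial * Real.exp 1 * 0)) := by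
    apply Filter.Tendsto.const_mul
    have : Filter.Tendsto (fun c : ℝ => c / 2) Filter.atTop Filter.atTop :=
      Filter.tendsto_id.atTop_div_const (by norm_num)
    exact Real.tendsto_exp_neg_atTop_nhds_zero.comp this
  rw [mul_zero] at h1 h2
  have e1 := h1.eventually (ge_mem_nhds (show (0:ℝ) < 1 by norm_num))
  have e2 := h2.eventually (ge_mem_nhds (show (0:ℝ) < 1 by norm_num))
  obtain ⟨c, ⟨hc1, hc2⟩, hc3⟩ := ((e1.and e2).and (Filter.eventually_ge_atTop 3)).exists
  have hfac : ∀ (k : ℕ) (L : ℝ), 0 ≤ L → L ^ k ≤ k.factorial * Real.exp L := by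
    intro k L hL
    have h := Real.pow_div_factorial_le_exp L hL k
    rw [div_le_iff₀ (by exact_mod_cast k.factorial_pos)] at h
    linarith
  refine ⟨c, hc3, fun L hL => ?_, fun L hL => ?_⟩
  · have hL0 : 0 ≤ L := by linarith
    have h3 : c ^ (2 * p) * Real.exp (-c) * (528 * A * (4 * p + 3).factorial * Real.exp 3) ≤ 1 := by
      linarith
    have hcp : 0 ≤ c ^ (2 * p) := by positivity
    calc 528 * A * c ^ (2 * p) * L ^ (4 * p + 3) * Real.exp (2 * L)
        ≤ 528 * A * c ^ (2 * p) * ((4 * p + 3).factorial * Real.exp L) * Real.exp (2 * L) := by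
          apply mul_le_mul_of_nonneg_right _ (Real.exp_pos _).le
          apply mul_le_mul_of_nonneg_left (hfac _ _ hL0) (by positivity)
      _ = (c ^ (2 * p) * Real.exp (-c) * (528 * A * (4 * p + 3).factorial * Real.exp 3)) *
          Real.exp (3 * L + c - 3) := by
          have : Real.exp (3 * L + c - 3) = Real.exp (2 * L) * Real.exp L * Real.exp c /
              Real.exp 3 := by
            rw [← Real.exp_add, ← Real.exp_add, ← Real.exp_sub]; congr 1; ring
          rw [this, Real.exp_neg]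
          have h5 := (Real.exp_pos c).ne'
          have h6 := (Real.exp_pos 3).ne'
          field_simp
      _ ≤ 1 * Real.exp (3 * L + c - 3) := mul_le_mul_of_nonneg_right h3 (Real.exp_pos _).le
      _ ≤ Real.exp (c * L) := by
          rw [one_mul]
          apply Real.exp_le_exp.2
          nlinarith
  · have hL0 : 0 ≤ L := by linarith
    calc 4 * A * Cq * L ^ (p + 1) ≤ 4 * A * Cq * ((p + 1).factorial * Real.exp L) :=
          mul_le_mul_of_nonneg_left (hfac _ _ hL0) (by positivity)
      _ = (4 * A * Cq * (p + 1).factorial * Real.exp 1 * Real.exp (-(c / 2))) *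
          Real.exp (L - 1 + c / 2) := by
          have : Real.exp (L - 1 + c / 2) = Real.exp L / Real.exp 1 * Real.exp (c / 2) := by
            rw [← Real.exp_sub, ← Real.exp_add]
          rw [this, Real.exp_neg]
          have h5 := (Real.exp_pos (c / 2)).ne'
          have h6 := (Real.exp_pos 1).ne'
          field_simp
      _ ≤ 1 * Real.exp (L - 1 + c / 2) := mul_le_mul_of_nonneg_right hc2 (Real.exp_pos _).le
      _ ≤ Real.exp (c * L / 2) := by
          rw [one_mul]
          apply Real.exp_le_exp.2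
          nlinarith

end T8

open T8 in
theorem sampling (q : ℝ) (hq : 1 ≤ q) : Sampling q := by
  intro A hA
  set p : ℕ := ⌈q⌉₊ with hp
  have hqp : q ≤ p := Nat.le_ceil q
  have hq0 : 0 ≤ q := by linarith
  set Cq : ℝ := 1 + 2 ^ p * p.factorial with hCq
  have hCq0 : 0 < Cq := by positivity
  obtain ⟨c, hc3, hcS, hcT⟩ := exists_const A hA p Cq hCq0
  set C : ℝ := 66 * c ^ (2 * p) + (4 * p + 3) with hC
  have hc0 : 0 < c := by linarith
  have hcp1 : 1 ≤ c ^ (2 * p) := one_le_pow₀ (by linarith)
  have hp0 : (0:ℝ) ≤ p := Nat.cast_nonneg p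
  have hC1 : 1 ≤ C := by rw [hC]; linarith
  refine ⟨C, hC1, ?_⟩
  intro Θ _ W hW hW1 n hn ℓ hℓ φ T δ hT hδ hδ1 hcosh
  set X : Fin n × Fin n → Θ → ℝ := fun e θ => grad ℓ (fun i => φ i θ) e with hX
  have hnR : (1:ℝ) ≤ n := by exact_mod_cast (by omega : 1 ≤ n)
  have hlogn : 0 ≤ Real.log n := Real.log_nonneg hnR
  have hδi : 1 ≤ 1 / δ := by rw [le_div_iff₀ hδ]; linarith
  set L : ℝ := T + Real.log n + 1 / δ with hL
  have hL2 : 2 ≤ L := by rw [hL]; linarith
  have hTL : T ≤ L := by rw [hL]; linarith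
  have hlL : Real.log n ≤ L := by rw [hL]; linarith
  have hδL : 1 / δ ≤ L := by rw [hL]; linarith
  set t : ℝ := c * L with ht
  have ht1 : 1 ≤ t := by rw [ht]; nlinarith
  set B : ℝ := t * T with hB
  have hB1 : 1 ≤ B := by rw [hB]; nlinarith
  have hB0 : 0 < B := by linarith
  have hBq : B ^ q ≤ B ^ (p:ℕ) := by
    rw [← Real.rpow_natCast]
    exact Real.rpow_le_rpow_of_exponent_le hB1 hqp
  have hBq1 : 1 ≤ B ^ q := Real.one_le_rpow hB1 hq0
  have hBq0 : 0 < B ^ q := by linarith
  set M : ℝ := (Fintype.card (Fin n × Fin n) : ℝ) with hM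
  have hMn : M = (n:ℝ) ^ 2 := by
    rw [hM, Fintype.card_prod, Fintype.card_fin]; push_cast; ring
  have hM1 : 1 ≤ M := by rw [hMn]; nlinarith
  have hMexp : M ≤ Real.exp (2 * L) := by
    rw [hMn]
    calc (n:ℝ) ^ 2 = Real.exp (2 * Real.log n) := by
          rw [two_mul, Real.exp_add, Real.exp_log (by linarith)]; ring
      _ ≤ _ := Real.exp_le_exp.2 (by linarith)
  have hlogM : Real.log (8 * M) ≤ 4 * L := by
    rw [Real.log_mul (by norm_num) (by linarith), hMn, Real.log_pow]
    have h8 : Real.log 8 ≤ 3 := by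
      have : (8:ℝ) = 2 ^ 3 := by norm_num
      rw [this, Real.log_pow]
      have := Real.log_two_lt_d9
      push_cast; linarith
    push_cast
    linarith
  have hlogM0 : 0 ≤ Real.log (8 * M) := Real.log_nonneg (by linarith)
  set η : ℝ := δ / (2 * B ^ q) with hη
  have hη0 : 0 < η := by positivity
  have hη2 : η ≤ 2 := by
    rw [hη, div_le_iff₀ (by positivity)]; linarith
  set S : ℕ := ⌈16 * B ^ (2 * p) * (1 / δ) ^ 2 * Real.log (8 * M)⌉₊ + 1 with hS
  have hSpos : 0 < S := by rw [hS]; omega
  have hSge : 16 * B ^ (2 * p) * (1 / δ) ^ 2 * Real.log (8 * M) ≤ S := by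
    rw [hS]; push_cast
    have := Nat.le_ceil (16 * B ^ (2 * p) * (1 / δ) ^ 2 * Real.log (8 * M))
    linarith
  have hSle : (S:ℝ) ≤ 66 * c ^ (2 * p) * L ^ (4 * p + 3) := by
    have h0 : 0 ≤ 16 * B ^ (2 * p) * (1 / δ) ^ 2 * Real.log (8 * M) := by positivity
    have h1 := (Nat.ceil_lt_add_one h0).le
    have h2 : 16 * B ^ (2 * p) * (1 / δ) ^ 2 * Real.log (8 * M) ≤
        64 * c ^ (2 * p) * L ^ (4 * p + 3) := by
      have hBL : B ≤ c * L ^ 2 := by
        rw [hB, ht]
        have : c * L * T ≤ c * L * L := mul_le_mul_of_nonneg_left hTL (by positivity)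
        nlinarith
      calc 16 * B ^ (2 * p) * (1 / δ) ^ 2 * Real.log (8 * M)
          ≤ 16 * (c * L ^ 2) ^ (2 * p) * L ^ 2 * (4 * L) := by
            apply mul_le_mul _ hlogM hlogM0 (by positivity)
            apply mul_le_mul _ (pow_le_pow_left₀ (by positivity) hδL 2) (by positivity)
              (by positivity)
            exact mul_le_mul_of_nonneg_left (pow_le_pow_left₀ hB0.le hBL _) (by norm_num)
        _ = 64 * c ^ (2 * p) * L ^ (4 * p + 3) := by
            rw [mul_pow, ← pow_mul, show 2 * (2 * p) = 4 * p by ring]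
            ring
    have h3 : 1 ≤ c ^ (2 * p) * L ^ (4 * p + 3) := by
      have := one_le_pow₀ (n := 4 * p + 3) (show 1 ≤ L by linarith)
      nlinarith
    rw [hS]; push_cast
    nlinarith
  -- tails
  have htail : ∀ e, ∑ θ, W θ * (if B < |X e θ| then 1 else 0) ≤ 2 * A * Real.exp (-t) := by
    intro e
    calc ∑ θ, W θ * (if B < |X e θ| then 1 else 0)
        ≤ ∑ θ, W θ * (2 * Real.exp (-t) * Real.cosh (X e θ / T)) := by
          apply Finset.sum_le_sum; intro θ _
          apply mul_le_mul_of_nonneg_left _ (hW θ)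
          have hcp : 0 < Real.cosh (X e θ / T) := Real.cosh_pos _
          split_ifs with h
          · have h1 : t ≤ |X e θ / T| := by
              rw [abs_div, abs_of_pos (by linarith : (0:ℝ) < T), le_div_iff₀ (by linarith)]
              exact h.le
            have h2 := exp_abs_le_cosh (X e θ / T)
            have h3 : Real.exp t ≤ 2 * Real.cosh (X e θ / T) :=
              (Real.exp_le_exp.2 h1).trans h2
            have h4 : Real.exp (-t) * Real.exp t = 1 := by rw [← Real.exp_add]; simp
            have h5 := mul_le_mul_of_nonneg_left h3 (Real.exp_pos (-t)).le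
            nlinarith
          · positivity
      _ = 2 * Real.exp (-t) * ∑ θ, W θ * Real.cosh (X e θ / T) := by
          rw [Finset.mul_sum]; apply Finset.sum_congr rfl; intro θ _; ring
      _ ≤ 2 * Real.exp (-t) * A := mul_le_mul_of_nonneg_left (hcosh e) (by positivity)
      _ = _ := by ring
  have htail2 : ∀ e, ∑ θ, W θ * (if B < |X e θ| then |X e θ| ^ q else 0) ≤ δ / 2 := by
    intro e
    have hTq : T ^ q ≤ L ^ (p:ℕ) := by
      calc T ^ q ≤ T ^ (p:ℝ) := Real.rpow_le_rpow_of_exponent_le hT hqp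
        _ = T ^ p := Real.rpow_natCast T p
        _ ≤ L ^ p := pow_le_pow_left₀ (by linarith) hTL p
    have hTq0 : 0 < T ^ q := Real.rpow_pos_of_pos (by linarith) q
    calc ∑ θ, W θ * (if B < |X e θ| then |X e θ| ^ q else 0)
        ≤ ∑ θ, W θ * (T ^ q * Cq * Real.exp (-(t / 2)) * 2 * Real.cosh (X e θ / T)) := by
          apply Finset.sum_le_sum; intro θ _
          apply mul_le_mul_of_nonneg_left _ (hW θ)
          have hcp : 0 < Real.cosh (X e θ / T) := Real.cosh_pos _
          split_ifs with h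
          · set x : ℝ := |X e θ / T| with hx
            have hTp : (0:ℝ) < T := by linarith
            have h1 : t ≤ x := by
              rw [hx, abs_div, abs_of_pos hTp, le_div_iff₀ hTp]
              exact h.le
            have hx1 : 1 ≤ x := by linarith
            have hXx : |X e θ| = T * x := by
              rw [hx, abs_div, abs_of_pos hTp]; field_simp
            have h2 : x ^ q ≤ Cq * Real.exp (x / 2) := by
              have a1 : x ^ q ≤ x ^ p := by
                rw [← Real.rpow_natCast]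
                exact Real.rpow_le_rpow_of_exponent_le hx1 hqp
              have a2 := Real.pow_div_factorial_le_exp (x / 2) (by linarith) p
              rw [div_le_iff₀ (by exact_mod_cast p.factorial_pos), div_pow, div_le_iff₀ (by positivity)] at a2
              have a3 := Real.exp_pos (x / 2)
              calc x ^ q ≤ x ^ p := a1
                _ ≤ Real.exp (x / 2) * p.factorial * 2 ^ p := a2
                _ ≤ Cq * Real.exp (x / 2) := by rw [hCq]; nlinarith
            have h3 : Real.exp (x / 2) ≤ Real.exp (-(t / 2)) * Real.exp x := by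
              rw [← Real.exp_add]; exact Real.exp_le_exp.2 (by linarith)
            have h4 : Real.exp x ≤ 2 * Real.cosh (X e θ / T) := exp_abs_le_cosh (X e θ / T)
            rw [hXx, Real.mul_rpow hTp.le (by linarith)]
            calc T ^ q * x ^ q ≤ T ^ q * (Cq * Real.exp (x / 2)) :=
                  mul_le_mul_of_nonneg_left h2 hTq0.le
              _ ≤ T ^ q * (Cq * (Real.exp (-(t / 2)) * (2 * Real.cosh (X e θ / T)))) := by
                  apply mul_le_mul_of_nonneg_left _ hTq0.le
                  apply mul_le_mul_of_nonneg_left _ hCq0.le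
                  exact h3.trans (mul_le_mul_of_nonneg_left h4 (Real.exp_pos _).le)
              _ = _ := by ring
          · positivity
      _ = T ^ q * Cq * Real.exp (-(t / 2)) * 2 * ∑ θ, W θ * Real.cosh (X e θ / T) := by
          rw [Finset.mul_sum]; apply Finset.sum_congr rfl; intro θ _; ring
      _ ≤ T ^ q * Cq * Real.exp (-(t / 2)) * 2 * A :=
          mul_le_mul_of_nonneg_left (hcosh e) (by positivity)
      _ ≤ δ / 2 := by
          have h1 := hcT L (by linarith)
          have h2 : Real.exp (c * L / 2) = Real.exp (t / 2) := by rw [ht]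
          rw [h2] at h1
          have h3 : 4 * A * Cq * T ^ q ≤ δ * Real.exp (t / 2) := by
            have h4 : 4 * A * Cq * T ^ q * (1 / δ) ≤ Real.exp (t / 2) := by
              calc 4 * A * Cq * T ^ q * (1 / δ) ≤ 4 * A * Cq * L ^ p * L := by
                    apply mul_le_mul _ hδL (by positivity) (by positivity)
                    exact mul_le_mul_of_nonneg_left hTq (by positivity)
                _ = 4 * A * Cq * L ^ (p + 1) := by rw [pow_succ]; ring
                _ ≤ _ := h1
            rw [mul_one_div, div_le_iff₀ hδ] at h4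
            linarith
          have h5 : Real.exp (-(t / 2)) * Real.exp (t / 2) = 1 := by rw [← Real.exp_add]; simp
          have h6 := mul_le_mul_of_nonneg_left h3 (Real.exp_pos (-(t / 2))).le
          have h7 : Real.exp (-(t / 2)) * (δ * Real.exp (t / 2)) = δ := by
            calc _ = δ * (Real.exp (-(t / 2)) * Real.exp (t / 2)) := by ring
              _ = δ := by rw [h5, mul_one]
          rw [h7] at h6
          linarith
  -- sampling
  obtain ⟨θ, hθ⟩ := sample_exists hW hW1
    (fun (e : Fin n × Fin n) θ => if B < |X e θ| then 0 else |X e θ| ^ q / B ^ q)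
    (fun (e : Fin n × Fin n) θ => if B < |X e θ| then 1 else 0)
    (fun e θ => by
      split_ifs
      · exact le_rfl
      · exact div_nonneg (Real.rpow_nonneg (abs_nonneg _) _) hBq0.le)
    (fun e θ => by
      split_ifs with h
      · exact zero_le_one
      · rw [div_le_one hBq0]
        exact Real.rpow_le_rpow (abs_nonneg _) (not_lt.1 h) hq0)
    (fun e θ => by split_ifs <;> norm_num)
    hSpos hη0 hη2 (by
      have h1 : 2 * M * Real.exp (-(S * η ^ 2 / 4)) ≤ 1 / 4 := by
        have h2 : Real.log (8 * M) ≤ S * η ^ 2 / 4 := by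
          have h3 : 16 * B ^ (2 * p) * (1 / δ) ^ 2 * Real.log (8 * M) * η ^ 2 / 4 ≤
              S * η ^ 2 / 4 := by
            have := mul_le_mul_of_nonneg_right hSge (sq_nonneg η)
            linarith
          have h4 : Real.log (8 * M) ≤
              16 * B ^ (2 * p) * (1 / δ) ^ 2 * Real.log (8 * M) * η ^ 2 / 4 := by
            have h5 : 16 * B ^ (2 * p) * (1 / δ) ^ 2 * Real.log (8 * M) * η ^ 2 / 4 =
                Real.log (8 * M) * ((B ^ p) ^ 2 / (B ^ q) ^ 2) := by
              rw [hη, ← pow_mul, mul_comm p 2]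
              field_simp
              ring
            rw [h5]
            apply le_mul_of_one_le_right hlogM0
            rw [le_div_iff₀ (by positivity), one_mul]
            exact pow_le_pow_left₀ hBq0.le hBq 2
          linarith
        calc 2 * M * Real.exp (-(S * η ^ 2 / 4)) ≤ 2 * M * Real.exp (-Real.log (8 * M)) :=
              mul_le_mul_of_nonneg_left (Real.exp_le_exp.2 (by linarith)) (by linarith)
          _ = 1 / 4 := by
              rw [Real.exp_neg, Real.exp_log (by linarith)]
              field_simp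
              norm_num
      have h2 : (S:ℝ) * ∑ e, ∑ θ, W θ * (if B < |X e θ| then 1 else 0) ≤ 1 / 4 := by
        calc (S:ℝ) * ∑ e, ∑ θ, W θ * (if B < |X e θ| then 1 else 0)
            ≤ S * ∑ e : Fin n × Fin n, 2 * A * Real.exp (-t) :=
              mul_le_mul_of_nonneg_left (Finset.sum_le_sum fun e _ => htail e) (Nat.cast_nonneg _)
          _ = S * M * (2 * A * Real.exp (-t)) := by
              rw [Finset.sum_const, Finset.card_univ, nsmul_eq_mul, ← hM]; ring
          _ ≤ (66 * c ^ (2 * p) * L ^ (4 * p + 3)) * Real.exp (2 * L) * (2 * A * Real.exp (-t)) := by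
              apply mul_le_mul_of_nonneg_right _ (by positivity)
              exact mul_le_mul hSle hMexp (by linarith) (by positivity)
          _ = (528 * A * c ^ (2 * p) * L ^ (4 * p + 3) * Real.exp (2 * L)) * Real.exp (-t) / 4 := by
              ring
          _ ≤ Real.exp (c * L) * Real.exp (-t) / 4 := by
              have := mul_le_mul_of_nonneg_right (hcS L (by linarith)) (Real.exp_pos (-t)).le
              linarith
          _ = 1 / 4 := by
              rw [← Real.exp_add, ht]; simp
      rw [← hM]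
      linarith)
  refine ⟨S, hSpos, ?_, θ, ?_⟩
  · -- bound on S
    have hCL : 1 ≤ C * L := by nlinarith
    have hL0 : (0:ℝ) ≤ L := by linarith
    calc (S:ℝ) ≤ 66 * c ^ (2 * p) * L ^ (4 * p + 3) := hSle
      _ ≤ C * L ^ (4 * p + 3) := by
          apply mul_le_mul_of_nonneg_right _ (by positivity)
          rw [hC]; linarith
      _ ≤ C ^ (4 * p + 3) * L ^ (4 * p + 3) := by
          apply mul_le_mul_of_nonneg_right _ (by positivity)
          exact le_self_pow₀ hC1 (by omega)
      _ = (C * L) ^ (4 * p + 3) := by rw [mul_pow]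
      _ = (C * L) ^ (((4 * p + 3 : ℕ)) : ℝ) := (Real.rpow_natCast _ _).symm
      _ ≤ (C * L) ^ C := by
          apply Real.rpow_le_rpow_of_exponent_le hCL
          rw [hC]; push_cast
          nlinarith
  · intro e
    obtain ⟨h1, h2⟩ := hθ e
    have hgood : ∀ s, ¬ B < |X e (θ s)| := by
      intro s h
      have := h2 s
      simp only [if_pos h] at this
      exact lt_irrefl _ this
    have e1 : ∑ s, (if B < |X e (θ s)| then 0 else |X e (θ s)| ^ q / B ^ q) =
        (∑ s, |X e (θ s)| ^ q) / B ^ q := by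
      rw [Finset.sum_div]
      apply Finset.sum_congr rfl; intro s _
      rw [if_neg (hgood s)]
    have e2 : ∑ θ, W θ * (if B < |X e θ| then 0 else |X e θ| ^ q / B ^ q) =
        (∑ θ, W θ * |X e θ| ^ q - ∑ θ, W θ * (if B < |X e θ| then |X e θ| ^ q else 0)) / B ^ q := by
      rw [← Finset.sum_sub_distrib, Finset.sum_div]
      apply Finset.sum_congr rfl; intro θ _
      split_ifs <;> ring
    simp only [e1, e2] at h1
    set a := (1 / (S:ℝ)) * ∑ s, |X e (θ s)| ^ q with ha
    set m := ∑ θ, W θ * |X e θ| ^ q with hm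
    set r := ∑ θ, W θ * (if B < |X e θ| then |X e θ| ^ q else 0) with hr
    have hr0 : 0 ≤ r := Finset.sum_nonneg fun θ _ => mul_nonneg (hW θ) (by
      split_ifs
      · exact Real.rpow_nonneg (abs_nonneg _) _
      · exact le_rfl)
    have hr1 : r ≤ δ / 2 := htail2 e
    have h3 : 1 / (S:ℝ) * ((∑ s, |X e (θ s)| ^ q) / B ^ q) - (m - r) / B ^ q = (a - (m - r)) / B ^ q := by
      rw [ha]; ring
    rw [h3, abs_div, abs_of_pos hBq0, div_le_iff₀ hBq0] at h1
    have h4 : η * B ^ q = δ / 2 := by rw [hη]; field_simp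
    rw [h4] at h1
    have h5 := abs_le.1 h1
    show |a - m| ≤ δ
    rw [abs_le]
    constructor <;> linarith

end Crest.Agent.H27
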