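import Crest.Agent.H27.Defs

set_option autoImplicit false
set_option linter.unusedVariables false

namespace Crest.Agent.H27

open scoped BigOperators
open Finset

/-! ### growth class -/

def SubExp (γ : ℝ) (F : ℕ → ℝ) : Prop :=
  ∃ C : ℝ, 0 ≤ C ∧ ∀ n : ℕ, 2 ≤ n → F n ≤ Real.exp (C * (Real.log n) ^ γ)

lemma log_nat_pos {n : ℕ} (hn : 2 ≤ n) : 0 < Real.log n :=
  Real.log_pos (by exact_mod_cast hn)

lemma u_lower {γ : ℝ} (hγ : 0 ≤ γ) {n : ℕ} (hn : 2 ≤ n) :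
    (Real.log 2) ^ γ ≤ (Real.log n) ^ γ :=
  Real.rpow_le_rpow (Real.log_nonneg (by norm_num))
    (Real.log_le_log (by norm_num) (by exact_mod_cast hn)) hγ

lemma SubExp.const {γ : ℝ} (hγ : 0 ≤ γ) (M : ℝ) : SubExp γ (fun _ => M) := by
  have h2 : 0 < (Real.log 2) ^ γ := Real.rpow_pos_of_pos (Real.log_pos (by norm_num)) _
  refine ⟨|M| / (Real.log 2) ^ γ, by positivity, fun n hn => ?_⟩
  have h1 : M ≤ |M| / (Real.log 2) ^ γ * (Real.log n) ^ γ := by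
    have := u_lower hγ hn
    calc M ≤ |M| := le_abs_self M
      _ = |M| / (Real.log 2) ^ γ * (Real.log 2) ^ γ := by field_simp
      _ ≤ |M| / (Real.log 2) ^ γ * (Real.log n) ^ γ := by gcongr
  linarith [Real.add_one_le_exp (|M| / (Real.log 2) ^ γ * (Real.log n) ^ γ)]

lemma SubExp.mul {γ : ℝ} {F G : ℕ → ℝ} (hF : SubExp γ F) (hG : SubExp γ G)
    (hG0 : ∀ n, 2 ≤ n → 0 ≤ G n) : SubExp γ (fun n => F n * G n) := by
  obtain ⟨C, hC, hF⟩ := hF
  obtain ⟨D, hD, hG⟩ := hG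
  refine ⟨C + D, by positivity, fun n hn => ?_⟩
  rw [add_mul, Real.exp_add]
  exact mul_le_mul (hF n hn) (hG n hn) (hG0 n hn) (Real.exp_pos _).le

lemma SubExp.mono {γ : ℝ} {F G : ℕ → ℝ} (hG : SubExp γ G)
    (h : ∀ n, 2 ≤ n → F n ≤ G n) : SubExp γ F := by
  obtain ⟨C, hC, hG⟩ := hG
  exact ⟨C, hC, fun n hn => (h n hn).trans (hG n hn)⟩

lemma SubExp.expu {γ : ℝ} (c : ℝ) (hc : 0 ≤ c) :
    SubExp γ (fun n => Real.exp (c * (Real.log n) ^ γ)) := ⟨c, hc, fun _ _ => le_rfl⟩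

lemma SubExp.add {γ : ℝ} (hγ : 0 ≤ γ) {F G : ℕ → ℝ} (hF : SubExp γ F) (hG : SubExp γ G) :
    SubExp γ (fun n => F n + G n) := by
  obtain ⟨C, hC, hF⟩ := hF
  obtain ⟨D, hD, hG⟩ := hG
  have h : SubExp γ (fun n => 2 * Real.exp ((C + D) * (Real.log n) ^ γ)) :=
    (SubExp.const hγ 2).mul (SubExp.expu (C + D) (by positivity)) (fun n _ => (Real.exp_pos _).le)
  refine h.mono fun n hn => ?_
  have hu : 0 ≤ (Real.log n) ^ γ := Real.rpow_nonneg (log_nat_pos hn).le _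
  have h1 : F n ≤ Real.exp ((C + D) * (Real.log n) ^ γ) :=
    (hF n hn).trans (Real.exp_le_exp.2 (by nlinarith))
  have h2 : G n ≤ Real.exp ((C + D) * (Real.log n) ^ γ) :=
    (hG n hn).trans (Real.exp_le_exp.2 (by nlinarith))
  show F n + G n ≤ 2 * Real.exp ((C + D) * (Real.log n) ^ γ)
  linarith

lemma SubExp.rpow {γ : ℝ} {F : ℕ → ℝ} (hF : SubExp γ F)
    (hF0 : ∀ n, 2 ≤ n → 0 ≤ F n) (a : ℝ) (ha : 0 ≤ a) : SubExp γ (fun n => F n ^ a) := by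
  obtain ⟨C, hC, hF⟩ := hF
  refine ⟨C * a, by positivity, fun n hn => ?_⟩
  calc F n ^ a ≤ (Real.exp (C * (Real.log n) ^ γ)) ^ a :=
        Real.rpow_le_rpow (hF0 n hn) (hF n hn) ha
    _ = Real.exp (C * a * (Real.log n) ^ γ) := by
        rw [← Real.exp_mul]; ring_nf

lemma SubExp.logn {γ : ℝ} (hγ : 0 < γ) : SubExp γ (fun n => Real.log n) := by
  refine ⟨1 / γ, by positivity, fun n hn => ?_⟩
  have hl := log_nat_pos hn
  have hu : 0 < (Real.log n) ^ γ := Real.rpow_pos_of_pos hl _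
  have h1 : Real.log (Real.log n) ≤ 1 / γ * (Real.log n) ^ γ := by
    have h2 := Real.log_le_sub_one_of_pos hu
    rw [Real.log_rpow hl] at h2
    rw [one_div, inv_mul_eq_div, le_div_iff₀ hγ]
    linarith
  calc Real.log n = Real.exp (Real.log (Real.log n)) := (Real.exp_log hl).symm
    _ ≤ _ := Real.exp_le_exp.2 h1

/-! ### hashing with one copy -/

lemma hE_one {Ω : Type} [Fintype Ω] (w : Ω → ℝ) (F : ℝ → ℝ) (hF : ∀ t, F (-t) = F t)
    (z : Ω → ℝ) : hE w 1 F z = ∑ ω, w ω * F (z ω) := by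
  unfold hE
  rw [Fintype.sum_equiv (Equiv.funUnique (Fin 1) (Ω × Bool))
    (fun θ => hW w 1 θ * F (hS z 1 θ))
    (fun s : Ω × Bool => (w s.1 / 2) * F (sg s.2 * z s.1))
    (fun θ => by simp [hW, hS])]
  rw [Fintype.sum_prod_type]
  refine sum_congr rfl fun ω _ => ?_
  simp [sg, hF]
  ring

lemma grad_hS {Ω : Type} {n : ℕ} (ℓ : Fin n × Fin n → ℝ) (x : Fin n → Ω → ℝ) (N : ℕ)
    (θ : Fin N → Ω × Bool) (e : Fin n × Fin n) :
    grad ℓ (fun i => hS (x i) N θ) e = hS (fun ω => grad ℓ (fun i => x i ω) e) N θ := by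
  unfold grad hS
  rw [← Finset.sum_sub_distrib, Finset.sum_div]
  refine sum_congr rfl fun a _ => ?_
  ring

lemma grad_smul {n : ℕ} (ℓ : Fin n × Fin n → ℝ) (x : Fin n → ℝ) (c : ℝ) (e : Fin n × Fin n) :
    grad ℓ (fun i => c * x i) e = c * grad ℓ x e := by
  unfold grad; ring

lemma hS_smul {Ω : Type} (z : Ω → ℝ) (c : ℝ) (N : ℕ) (θ : Fin N → Ω × Bool) :
    hS (fun ω => c * z ω) N θ = c * hS z N θ := by
  unfold hS
  rw [mul_sum]
  exact sum_congr rfl fun a _ => by ring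

lemma hE_nonneg {Ω : Type} [Fintype Ω] (w : Ω → ℝ) (hw : ∀ ω, 0 ≤ w ω) (N : ℕ) (F : ℝ → ℝ)
    (hF : ∀ t, 0 ≤ F t) (z : Ω → ℝ) : 0 ≤ hE w N F z := by
  unfold hE
  refine sum_nonneg fun θ _ => mul_nonneg ?_ (hF _)
  exact prod_nonneg fun a _ => by have := hw (θ a).1; positivity

lemma sparse_prob {Ω : Type} [Fintype Ω] (w : Ω → ℝ) (hw : ∀ ω, 0 ≤ w ω) (q : ℝ) (hq : 0 < q)
    (f a : Ω → ℝ) (B : ℝ) (hB : 1 ≤ B) (hf : ∑ ω, w ω * |f ω| ^ q ≤ 1)
    (ha : ∀ ω, a ω ≠ 0 → B < |f ω|) :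
    ∑ ω, w ω * (if a ω = 0 then 0 else 1) ≤ (B ^ q)⁻¹ := by
  have hBq : 0 < B ^ q := Real.rpow_pos_of_pos (by linarith) _
  have : B ^ q * ∑ ω, w ω * (if a ω = 0 then 0 else 1) ≤ 1 := by
    refine le_trans ?_ hf
    rw [mul_sum]
    refine sum_le_sum fun ω _ => ?_
    by_cases h : a ω = 0
    · have := hw ω
      simp [h]; positivity
    · simp only [h, if_false, mul_one]
      have h1 : B ^ q ≤ |f ω| ^ q := Real.rpow_le_rpow (by linarith) (ha ω h).le hq.le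
      have := hw ω
      nlinarith
  rw [inv_eq_one_div, le_div_iff₀ hBq]
  linarith [mul_comm (B ^ q) (∑ ω, w ω * (if a ω = 0 then (0:ℝ) else 1))]

/-! ### one level -/

section level

variable {Ω : Type} [Fintype Ω]

/-- the hashing dichotomy on one level. -/
lemma level_lower {q : ℝ} (hq : 1 < q) (H : HashFacts q) (w : Ω → ℝ) (hw : ∀ ω, 0 ≤ w ω)
    (hw1 : ∑ ω, w ω = 1) (f a : Ω → ℝ) (B ε : ℝ) (hB : 1 ≤ B) (hε : 0 ≤ ε)
    (hf : ∑ ω, w ω * |f ω| ^ q ≤ 1) (N : ℕ) (hN : 1 ≤ N)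
    (h : N = 1 ∨ ((∀ ω, a ω ≠ 0 → B < |f ω|) ∧ (N : ℝ) ≤ ε * B ^ q)) :
    (1 - ε) * ∑ ω, w ω * |a ω| ^ q ≤ (N : ℝ)⁻¹ * hE w N (fun t => |t| ^ q) a := by
  have h0 : 0 ≤ ∑ ω, w ω * |a ω| ^ q :=
    sum_nonneg fun ω _ => mul_nonneg (hw ω) (Real.rpow_nonneg (abs_nonneg _) _)
  rcases h with rfl | ⟨ha, hNB⟩
  · rw [hE_one w _ (fun t => by simp)]
    simp only [Nat.cast_one, inv_one, one_mul]
    nlinarith
  · have hBq : 0 < B ^ q := Real.rpow_pos_of_pos (by linarith) _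
    have hBq1 : 1 ≤ B ^ q := Real.one_le_rpow hB (by linarith)
    have hs := sparse_prob w hw q (by linarith) f a B hB hf ha
    have h1 := H.lower Ω w hw hw1 N a _ hs (inv_le_one_of_one_le₀ hBq1)
    have hN0 : (0:ℝ) < N := by exact_mod_cast hN
    have h2 : (N : ℝ) * (B ^ q)⁻¹ ≤ ε := by
      rw [← div_eq_mul_inv, div_le_iff₀ hBq]; exact hNB
    rw [inv_mul_eq_div, le_div_iff₀ hN0]
    refine le_trans ?_ h1
    have : (1 - ε) * (N:ℝ) ≤ N * (1 - N * (B ^ q)⁻¹) := by nlinarith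
    calc (1 - ε) * (∑ ω, w ω * |a ω| ^ q) * N = ((1 - ε) * (N:ℝ)) * ∑ ω, w ω * |a ω| ^ q := by ring
      _ ≤ _ := by gcongr

lemma level_upper {q : ℝ} (hq : 1 < q) (H : HashFacts q) :
    ∃ C : ℝ, 0 < C ∧ ∀ (Ω : Type) [Fintype Ω] (w : Ω → ℝ) (hw : ∀ ω, 0 ≤ w ω)
    (hw1 : ∑ ω, w ω = 1) (f a : Ω → ℝ) (B ε : ℝ) (hB : 1 ≤ B) (hε : 0 ≤ ε) (hε1 : ε ≤ 1)
    (hf : ∑ ω, w ω * |f ω| ^ q ≤ 1) (N : ℕ) (hN : 1 ≤ N)
    (h : N = 1 ∨ ((∀ ω, a ω ≠ 0 → B < |f ω|) ∧ (N : ℝ) ≤ ε * B ^ q)),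
    (N : ℝ)⁻¹ * hE w N (fun t => |t| ^ q) a ≤ (1 + C * ε) * ∑ ω, w ω * |a ω| ^ q := by
  rcases le_or_gt 2 q with h2 | h2
  · obtain ⟨C, hC, hU⟩ := H.upper h2
    refine ⟨C, hC, ?_⟩
    intro Ω _ w hw hw1 f a B ε hB hε hε1 hf N hN h
    have h0 : 0 ≤ ∑ ω, w ω * |a ω| ^ q :=
      sum_nonneg fun ω _ => mul_nonneg (hw ω) (Real.rpow_nonneg (abs_nonneg _) _)
    rcases h with rfl | ⟨ha, hNB⟩
    · rw [hE_one w _ (fun t => by simp)]
      simp only [Nat.cast_one, inv_one, one_mul]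
      have := mul_nonneg hC.le hε
      nlinarith
    · have hBq : 0 < B ^ q := Real.rpow_pos_of_pos (by linarith) _
      have hs := sparse_prob w hw q (by linarith) f a B hB hf ha
      have hN0 : (0:ℝ) < N := by exact_mod_cast hN
      have h2 : (N : ℝ) * (B ^ q)⁻¹ ≤ ε := by
        rw [← div_eq_mul_inv, div_le_iff₀ hBq]; exact hNB
      have h1 := hU Ω w hw hw1 N a _ hs (h2.trans hε1)
      rw [inv_mul_eq_div, div_le_iff₀ hN0]
      refine le_trans h1 ?_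
      have : (1 + C * (N * (B ^ q)⁻¹)) * N ≤ (1 + C * ε) * N := by gcongr
      calc _ ≤ ((1 + C * ε) * N) * ∑ ω, w ω * |a ω| ^ q := by gcongr
        _ = _ := by ring
  · refine ⟨1, one_pos, ?_⟩
    intro Ω _ w hw hw1 f a B ε hB hε hε1 hf N hN h
    have h0 : 0 ≤ ∑ ω, w ω * |a ω| ^ q :=
      sum_nonneg fun ω _ => mul_nonneg (hw ω) (Real.rpow_nonneg (abs_nonneg _) _)
    have h1 := H.contr h2.le Ω w hw hw1 N a
    have hN0 : (0:ℝ) < N := by exact_mod_cast hN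
    rw [inv_mul_eq_div, div_le_iff₀ hN0]
    refine le_trans h1 ?_
    have := mul_nonneg (mul_nonneg hε h0) hN0.le
    nlinarith

/-- the error on one level. -/
lemma level_err {q : ℝ} (hq : 1 < q) (H : HashFacts q) :
    ∃ C : ℝ, 0 < C ∧ ∀ (Ω : Type) [Fintype Ω] (w : Ω → ℝ) (hw : ∀ ω, 0 ≤ w ω)
    (hw1 : ∑ ω, w ω = 1) (c : Ω → ℝ) (B : ℝ) (hB : 1 ≤ B)
    (N : ℕ) (hN : 1 ≤ N) (hNB : (N : ℝ) ≤ B ^ q),
    (N : ℝ)⁻¹ * hE w N (fun t => |t| ^ q) c ≤ C * (∑ ω, w ω * |c ω| ^ q +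
      if 2 < q then B ^ ((q - 2) * q / 2) * (∑ ω, w ω * (c ω) ^ 2) ^ (q / 2) else 0) := by
  rcases lt_or_ge 2 q with h2 | h2
  · obtain ⟨C, hC, hR⟩ := H.rosenthal h2.le
    refine ⟨C, hC, ?_⟩
    intro Ω _ w hw hw1 c B hB N hN hNB
    have hN0 : (0:ℝ) < N := by exact_mod_cast hN
    have h0 : 0 ≤ ∑ ω, w ω * (c ω) ^ 2 :=
      sum_nonneg fun ω _ => mul_nonneg (hw ω) (by positivity)
    have h1 := hR Ω w hw hw1 N c
    simp only [h2, if_true]
    rw [inv_mul_eq_div, div_le_iff₀ hN0]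
    refine le_trans h1 ?_
    have hN1 : (N:ℝ) ^ (q / 2) ≤ B ^ ((q - 2) * q / 2) * N := by
      have e1 : (N:ℝ) ^ (q / 2) = (N:ℝ) ^ ((q - 2) / 2) * N := by
        rw [← Real.rpow_add_one hN0.ne']; ring_nf
      rw [e1]
      have e2 : (N:ℝ) ^ ((q - 2) / 2) ≤ (B ^ q) ^ ((q - 2) / 2) :=
        Real.rpow_le_rpow hN0.le hNB (by linarith)
      rw [← Real.rpow_mul (by linarith)] at e2
      have e3 : q * ((q - 2) / 2) = (q - 2) * q / 2 := by ring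
      rw [e3] at e2
      gcongr
    have h3 : ((N:ℝ) * ∑ ω, w ω * (c ω) ^ 2) ^ (q / 2) ≤
        B ^ ((q - 2) * q / 2) * N * (∑ ω, w ω * (c ω) ^ 2) ^ (q / 2) := by
      rw [Real.mul_rpow hN0.le h0]
      gcongr
    calc _ ≤ C * (N * ∑ ω, w ω * |c ω| ^ q +
          B ^ ((q - 2) * q / 2) * N * (∑ ω, w ω * (c ω) ^ 2) ^ (q / 2)) := by gcongr
      _ = _ := by ring
  · refine ⟨1, one_pos, ?_⟩
    intro Ω _ w hw hw1 c B hB N hN hNB
    have h1 := H.contr h2 Ω w hw hw1 N c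
    have hN0 : (0:ℝ) < N := by exact_mod_cast hN
    simp only [not_lt.2 h2, if_false, add_zero, one_mul]
    rw [inv_mul_eq_div, div_le_iff₀ hN0]
    linarith

lemma level_cosh {q : ℝ} (hq : 1 < q) (hq2 : q ≠ 2) (H : HashFacts q) {Ω : Type} [Fintype Ω]
    (w : Ω → ℝ) (hw : ∀ ω, 0 ≤ w ω) (hw1 : ∑ ω, w ω = 1) (f a c z : Ω → ℝ)
    (hz : ∀ ω, z ω = a ω + c ω) (B T : ℝ) (hB : 1 ≤ B) (hT : 1 ≤ T)
    (hf : ∑ ω, w ω * |f ω| ^ q ≤ 1) (haf : ∀ ω, |a ω| ≤ |f ω|)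
    (ha : B = 1 ∨ ∀ ω, a ω ≠ 0 → B < |f ω|)
    (hc : ∑ ω, w ω * |c ω| ^ q ≤ 1)
    (hc2 : 2 < q → B ^ ((q - 2) * q / 2) * (∑ ω, w ω * (c ω) ^ 2) ^ (q / 2) ≤ 1)
    (N : ℕ) (hN : 1 ≤ N) (hNB : (N : ℝ) ≤ B ^ q) (r : ℝ) (hr : r = (N : ℝ) ^ (-(1 / q)))
    (hzT : ∀ ω, r * |z ω| ≤ T) :
    hE w N Real.cosh (fun ω => r / T * z ω) ≤ Real.exp 8 := by
  have hN0 : (0:ℝ) < N := by exact_mod_cast hN
  have hr0 : 0 < r := by rw [hr]; exact Real.rpow_pos_of_pos hN0 _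
  have hT0 : 0 < T := by linarith
  have hz1 : ∀ ω, |r / T * z ω| ≤ 1 := by
    intro ω
    rw [abs_mul, abs_of_pos (div_pos hr0 hT0), div_mul_eq_mul_div, div_le_one hT0]
    exact hzT ω
  have hrT : r / T ≤ r := div_le_self hr0.le hT
  refine (H.cosh Ω w hw hw1 N _ hz1).trans (Real.exp_le_exp.2 ?_)
  rcases lt_or_gt_of_ne hq2 with h2 | h2
  · -- q < 2
    have hrq : r ^ q = (N : ℝ)⁻¹ := by
      rw [hr, ← Real.rpow_mul hN0.le, ← Real.rpow_neg_one]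
      congr 1
      field_simp
    have h24 : (2:ℝ) ^ q ≤ 4 := by
      calc (2:ℝ) ^ q ≤ (2:ℝ) ^ (2:ℝ) := Real.rpow_le_rpow_of_exponent_le (by norm_num) h2.le
        _ = 4 := by norm_num
    have h1 : ∀ ω, (N:ℝ) * (w ω * (r / T * z ω) ^ 2) ≤
        4 * (w ω * |f ω| ^ q) + 4 * (w ω * |c ω| ^ q) := by
      intro ω
      have e1 : (r / T * z ω) ^ 2 ≤ |r / T * z ω| ^ q := by
        rcases eq_or_lt_of_le (abs_nonneg (r / T * z ω)) with h0 | h0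
        · have : r / T * z ω = 0 := abs_eq_zero.1 h0.symm
          rw [this]; simp [Real.zero_rpow (by linarith : q ≠ 0)]
        · rw [← sq_abs, ← Real.rpow_natCast]
          exact Real.rpow_le_rpow_of_exponent_ge h0 (hz1 ω) (by push_cast; exact h2.le)
      have e2 : |r / T * z ω| ^ q ≤ (N : ℝ)⁻¹ * |z ω| ^ q := by
        rw [abs_mul, abs_of_pos (div_pos hr0 hT0), Real.mul_rpow (div_pos hr0 hT0).le (abs_nonneg _),
          ← hrq]
        gcongr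
      have e3 : |z ω| ^ q ≤ 4 * (|f ω| ^ q + |c ω| ^ q) := by
        have h3 : |z ω| ≤ 2 * max |f ω| |c ω| := by
          rw [hz]
          have := abs_add_le (a ω) (c ω)
          have := haf ω
          have := le_max_left |f ω| |c ω|
          have := le_max_right |f ω| |c ω|
          linarith
        have h4 : (max |f ω| |c ω|) ^ q ≤ |f ω| ^ q + |c ω| ^ q := by
          have := Real.rpow_nonneg (abs_nonneg (f ω)) q
          have := Real.rpow_nonneg (abs_nonneg (c ω)) q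
          rcases max_choice |f ω| |c ω| with h | h <;> rw [h] <;> linarith
        calc |z ω| ^ q ≤ (2 * max |f ω| |c ω|) ^ q :=
              Real.rpow_le_rpow (abs_nonneg _) h3 (by linarith)
          _ = 2 ^ q * (max |f ω| |c ω|) ^ q :=
              Real.mul_rpow (by norm_num) ((abs_nonneg _).trans (le_max_left _ _))
          _ ≤ 4 * (|f ω| ^ q + |c ω| ^ q) := by
              gcongr
      have e4 : (N:ℝ) * (w ω * (r / T * z ω) ^ 2) ≤ w ω * |z ω| ^ q := by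
        calc (N:ℝ) * (w ω * (r / T * z ω) ^ 2) ≤ (N:ℝ) * (w ω * ((N : ℝ)⁻¹ * |z ω| ^ q)) := by
              gcongr
              · exact hw ω
              · exact e1.trans e2
          _ = w ω * |z ω| ^ q := by field_simp
      have e5 : w ω * |z ω| ^ q ≤ w ω * (4 * (|f ω| ^ q + |c ω| ^ q)) :=
        mul_le_mul_of_nonneg_left e3 (hw ω)
      linarith
    rw [mul_sum]
    calc ∑ ω, (N:ℝ) * (w ω * (r / T * z ω) ^ 2)
        ≤ ∑ ω, (4 * (w ω * |f ω| ^ q) + 4 * (w ω * |c ω| ^ q)) := sum_le_sum fun ω _ => h1 ω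
      _ = 4 * ∑ ω, w ω * |f ω| ^ q + 4 * ∑ ω, w ω * |c ω| ^ q := by
          rw [sum_add_distrib, mul_sum, mul_sum]
      _ ≤ 8 := by linarith
  · have hB0 : 0 < B := by linarith
    set D := B ^ (q - 2) with hD
    have hD0 : 0 < D := Real.rpow_pos_of_pos hB0 _
    have hNr : (N:ℝ) * r ^ 2 ≤ D := by
      have e1 : (N:ℝ) * r ^ 2 = (N:ℝ) ^ ((q - 2) / q) := by
        rw [hr, ← Real.rpow_natCast, ← Real.rpow_mul hN0.le]
        nth_rewrite 1 [← Real.rpow_one (N:ℝ)]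
        rw [← Real.rpow_add hN0]
        congr 1
        field_simp
        push_cast
        ring
      rw [e1]
      calc (N:ℝ) ^ ((q - 2) / q) ≤ (B ^ q) ^ ((q - 2) / q) :=
            Real.rpow_le_rpow hN0.le hNB (div_nonneg (by linarith) (by linarith))
        _ = D := by
            rw [← Real.rpow_mul hB0.le, hD]
            congr 1
            field_simp
    have hc3 : D * ∑ ω, w ω * (c ω) ^ 2 ≤ 1 := by
      by_contra hcon
      push Not at hcon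
      have h0 : 0 ≤ ∑ ω, w ω * (c ω) ^ 2 :=
        sum_nonneg fun ω _ => mul_nonneg (hw ω) (by positivity)
      have e1 := Real.one_lt_rpow hcon (by linarith : 0 < q / 2)
      rw [Real.mul_rpow hD0.le h0, hD, ← Real.rpow_mul hB0.le] at e1
      have e2 : (q - 2) * (q / 2) = (q - 2) * q / 2 := by ring
      rw [e2] at e1
      linarith [hc2 h2]
    have h1 : ∀ ω, (N:ℝ) * (w ω * (r / T * z ω) ^ 2) ≤
        2 * w ω + 2 * (w ω * |f ω| ^ q) + 2 * (D * (w ω * (c ω) ^ 2)) := by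
      intro ω
      have e1 : D * (a ω) ^ 2 ≤ 1 + |f ω| ^ q := by
        have hf0 := Real.rpow_nonneg (abs_nonneg (f ω)) q
        rcases ha with hb | ha
        · have : D = 1 := by rw [hD, hb, Real.one_rpow]
          rw [this, one_mul]
          rcases le_or_gt |f ω| 1 with h | h
          · have : (a ω) ^ 2 ≤ 1 := by
              rw [← sq_abs]; have := haf ω; have := abs_nonneg (a ω); nlinarith
            linarith
          · have : (a ω) ^ 2 ≤ |f ω| ^ q := by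
              calc (a ω) ^ 2 = |a ω| ^ 2 := (sq_abs _).symm
                _ ≤ |f ω| ^ 2 := by have := haf ω; gcongr
                _ = |f ω| ^ ((2:ℕ):ℝ) := (Real.rpow_natCast _ _).symm
                _ ≤ |f ω| ^ q := Real.rpow_le_rpow_of_exponent_le h.le (by push_cast; exact h2.le)
            linarith
        · by_cases h : a ω = 0
          · rw [h]; nlinarith
          · have h3 := ha ω h
            have h4 : 0 < |f ω| := by linarith
            calc D * (a ω) ^ 2 = D * |a ω| ^ 2 := by rw [sq_abs]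
              _ ≤ |f ω| ^ (q - 2) * |f ω| ^ 2 := by
                  have := haf ω
                  have : D ≤ |f ω| ^ (q - 2) := Real.rpow_le_rpow hB0.le h3.le (by linarith)
                  gcongr
              _ = |f ω| ^ q := by
                  rw [← Real.rpow_natCast |f ω| 2, ← Real.rpow_add h4]
                  congr 1
                  push_cast; ring
              _ ≤ 1 + |f ω| ^ q := by linarith
      have e2 : (r / T * z ω) ^ 2 ≤ r ^ 2 * (2 * ((a ω) ^ 2 + (c ω) ^ 2)) := by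
        rw [mul_pow, hz]
        have : (r / T) ^ 2 ≤ r ^ 2 := by gcongr
        have : (a ω + c ω) ^ 2 ≤ 2 * ((a ω) ^ 2 + (c ω) ^ 2) := by nlinarith [sq_nonneg (a ω - c ω)]
        gcongr
      have hwω := hw ω
      calc (N:ℝ) * (w ω * (r / T * z ω) ^ 2)
          ≤ (N:ℝ) * (w ω * (r ^ 2 * (2 * ((a ω) ^ 2 + (c ω) ^ 2)))) := by gcongr
        _ = ((N:ℝ) * r ^ 2) * (w ω * (2 * ((a ω) ^ 2 + (c ω) ^ 2))) := by ring
        _ ≤ D * (w ω * (2 * ((a ω) ^ 2 + (c ω) ^ 2))) := by gcongr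
        _ = 2 * (w ω * (D * (a ω) ^ 2)) + 2 * (D * (w ω * (c ω) ^ 2)) := by ring
        _ ≤ 2 * (w ω * (1 + |f ω| ^ q)) + 2 * (D * (w ω * (c ω) ^ 2)) := by gcongr
        _ = _ := by ring
    rw [mul_sum]
    calc ∑ ω, (N:ℝ) * (w ω * (r / T * z ω) ^ 2)
        ≤ ∑ ω, (2 * w ω + 2 * (w ω * |f ω| ^ q) + 2 * (D * (w ω * (c ω) ^ 2))) :=
          sum_le_sum fun ω _ => h1 ω
      _ = 2 * ∑ ω, w ω + 2 * ∑ ω, w ω * |f ω| ^ q + 2 * (D * ∑ ω, w ω * (c ω) ^ 2) := by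
          simp only [sum_add_distrib, mul_sum]
      _ ≤ 8 := by linarith

lemma mink_levels {q : ℝ} (hq : 1 ≤ q) (H : HashFacts q) {Ω : Type} [Fintype Ω]
    (w : Ω → ℝ) (hw : ∀ ω, 0 ≤ w ω) (M : ℕ) (N : ℕ → ℕ) (y z : ℕ → Ω → ℝ) :
    (∑ l ∈ range M, (N l : ℝ)⁻¹ * hE w (N l) (fun t => |t| ^ q) (fun ω => y l ω + z l ω)) ^ (1 / q)
      ≤ (∑ l ∈ range M, (N l : ℝ)⁻¹ * hE w (N l) (fun t => |t| ^ q) (y l)) ^ (1 / q) +
        (∑ l ∈ range M, (N l : ℝ)⁻¹ * hE w (N l) (fun t => |t| ^ q) (z l)) ^ (1 / q) := by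
  have hq0 : 0 < q := by linarith
  have hnn : ∀ (l : ℕ) (y : Ω → ℝ), 0 ≤ (N l : ℝ)⁻¹ * hE w (N l) (fun t => |t| ^ q) y :=
    fun l y => mul_nonneg (by positivity)
      (hE_nonneg w hw _ _ (fun t => Real.rpow_nonneg (abs_nonneg _) _) _)
  have hpow : ∀ (l : ℕ) (y : Ω → ℝ), (((N l : ℝ)⁻¹ * hE w (N l) (fun t => |t| ^ q) y) ^ (1 / q)) ^ q
      = (N l : ℝ)⁻¹ * hE w (N l) (fun t => |t| ^ q) y := by
    intro l y
    rw [← Real.rpow_mul (hnn l y), one_div_mul_cancel hq0.ne', Real.rpow_one]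
  have h1 := Real.Lp_add_le_of_nonneg (range M) hq
    (f := fun l => ((N l : ℝ)⁻¹ * hE w (N l) (fun t => |t| ^ q) (y l)) ^ (1 / q))
    (g := fun l => ((N l : ℝ)⁻¹ * hE w (N l) (fun t => |t| ^ q) (z l)) ^ (1 / q))
    (fun l _ => Real.rpow_nonneg (hnn _ _) _) (fun l _ => Real.rpow_nonneg (hnn _ _) _)
  simp only [hpow] at h1
  refine le_trans ?_ h1
  refine Real.rpow_le_rpow (sum_nonneg fun l _ => hnn _ _) ?_ (by positivity)
  refine sum_le_sum fun l _ => ?_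
  rw [← hpow l]
  refine Real.rpow_le_rpow (Real.rpow_nonneg (hnn _ _) _) ?_ hq0.le
  have hNN : (0:ℝ) ≤ (N l : ℝ)⁻¹ := by positivity
  have hE0 : ∀ y : Ω → ℝ, 0 ≤ hE w (N l) (fun t => |t| ^ q) y := fun y =>
    hE_nonneg w hw _ _ (fun t => Real.rpow_nonneg (abs_nonneg _) _) _
  rw [Real.mul_rpow hNN (hE0 _), Real.mul_rpow hNN (hE0 _), Real.mul_rpow hNN (hE0 _), ← mul_add]
  exact mul_le_mul_of_nonneg_left (H.mink hq Ω w hw (N l) (y l) (z l))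
    (Real.rpow_nonneg hNN _)

lemma hE_neg {q : ℝ} {Ω : Type} [Fintype Ω] (w : Ω → ℝ) (N : ℕ) (z : Ω → ℝ) :
    hE w N (fun t => |t| ^ q) (fun ω => - z ω) = hE w N (fun t => |t| ^ q) z := by
  unfold hE
  refine sum_congr rfl fun θ _ => ?_
  have : hS (fun ω => - z ω) N θ = - hS z N θ := by
    unfold hS; rw [← Finset.sum_neg_distrib]
    exact sum_congr rfl fun a _ => by ring
  simp [this]

lemma main_est {q : ℝ} (hq : 1 < q) (H : HashFacts q) (ε : ℝ) (hε : 0 < ε) :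
    ∃ ε₁ ε₂ : ℝ, 0 < ε₁ ∧ ε₁ ≤ 1 ∧ 0 < ε₂ ∧ ε₂ ≤ 1 ∧
    ∀ (Ω : Type) [Fintype Ω] (w : Ω → ℝ) (hw : ∀ ω, 0 ≤ w ω) (hw1 : ∑ ω, w ω = 1)
    (f : Ω → ℝ) (hf : ∑ ω, w ω * |f ω| ^ q = 1) (M : ℕ) (a c : ℕ → Ω → ℝ) (B : ℕ → ℝ)
    (hB : ∀ l, 1 ≤ B l)
    (haf : ∀ ω, ∑ l ∈ range M, |a l ω| ^ q = |f ω| ^ q)
    (hc : ∑ l ∈ range M, ∑ ω, w ω * |c l ω| ^ q ≤ ε₁)
    (hc2 : 2 < q → ∑ l ∈ range M,
      (B l) ^ ((q - 2) * q / 2) * (∑ ω, w ω * (c l ω) ^ 2) ^ (q / 2) ≤ ε₁)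
    (N : ℕ → ℕ) (hN : ∀ l, 1 ≤ N l) (hNB : ∀ l, (N l : ℝ) ≤ (B l) ^ q)
    (hNa : ∀ l, N l = 1 ∨ ((∀ ω, a l ω ≠ 0 → B l < |f ω|) ∧ (N l : ℝ) ≤ ε₂ * (B l) ^ q)),
    |∑ l ∈ range M, (N l : ℝ)⁻¹ * hE w (N l) (fun t => |t| ^ q) (fun ω => a l ω + c l ω) - 1|
      ≤ ε := by
  have hq0 : 0 < q := by linarith
  obtain ⟨CU, hCU, hU⟩ := level_upper hq H
  obtain ⟨CE, hCE, hE'⟩ := level_err hq H
  obtain ⟨η₁, hη₁, hη₁'⟩ := Metric.continuousAt_iff.1
    (Real.continuousAt_rpow_const 1 q (Or.inl one_ne_zero)) ε hε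
  obtain ⟨η₂, hη₂, hη₂'⟩ := Metric.continuousAt_iff.1
    (Real.continuousAt_rpow_const 1 (1 / q) (Or.inl one_ne_zero)) (η₁ / 2) (by positivity)
  simp only [Real.one_rpow, Real.dist_eq] at hη₁' hη₂'
  have hη₁q : 0 < (η₁ / 2) ^ q := Real.rpow_pos_of_pos (by positivity) _
  refine ⟨min 1 ((η₁ / 2) ^ q / (4 * CE)), min 1 (η₂ / (2 * (1 + CU))), by positivity,
    min_le_left _ _, by positivity, min_le_left _ _, ?_⟩
  set ε₁ := min 1 ((η₁ / 2) ^ q / (4 * CE)) with hε₁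
  set ε₂ := min 1 (η₂ / (2 * (1 + CU))) with hε₂
  have hε₁0 : 0 < ε₁ := by positivity
  have hε₂0 : 0 < ε₂ := by positivity
  have hε₂1 : ε₂ ≤ 1 := min_le_left _ _
  intro Ω _ w hw hw1 f hf M a c B hB haf hc hc2 N hN hNB hNa
  set Mx := ∑ l ∈ range M, (N l : ℝ)⁻¹ *
    hE w (N l) (fun t => |t| ^ q) (fun ω => a l ω + c l ω) with hMx
  set A := ∑ l ∈ range M, (N l : ℝ)⁻¹ * hE w (N l) (fun t => |t| ^ q) (a l) with hA
  set R := ∑ l ∈ range M, (N l : ℝ)⁻¹ * hE w (N l) (fun t => |t| ^ q) (c l) with hR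
  have hEnn : ∀ (l : ℕ) (y : Ω → ℝ), 0 ≤ (N l : ℝ)⁻¹ * hE w (N l) (fun t => |t| ^ q) y :=
    fun l y => mul_nonneg (by positivity)
      (hE_nonneg w hw _ _ (fun t => Real.rpow_nonneg (abs_nonneg _) _) _)
  have hMx0 : 0 ≤ Mx := sum_nonneg fun l _ => hEnn _ _
  have hA0 : 0 ≤ A := sum_nonneg fun l _ => hEnn _ _
  have hR0 : 0 ≤ R := sum_nonneg fun l _ => hEnn _ _
  have htot : ∑ l ∈ range M, ∑ ω, w ω * |a l ω| ^ q = 1 := by
    rw [sum_comm, ← hf]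
    refine sum_congr rfl fun ω _ => ?_
    rw [← mul_sum, haf]
  have hAl : 1 - ε₂ ≤ A := by
    calc 1 - ε₂ = (1 - ε₂) * ∑ l ∈ range M, ∑ ω, w ω * |a l ω| ^ q := by rw [htot, mul_one]
      _ = ∑ l ∈ range M, (1 - ε₂) * ∑ ω, w ω * |a l ω| ^ q := by rw [mul_sum]
      _ ≤ A := sum_le_sum fun l _ =>
          level_lower hq H w hw hw1 f (a l) (B l) ε₂ (hB l) hε₂0.le hf.le (N l) (hN l) (hNa l)
  have hAu : A ≤ 1 + CU * ε₂ := by
    calc A ≤ ∑ l ∈ range M, (1 + CU * ε₂) * ∑ ω, w ω * |a l ω| ^ q :=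
          sum_le_sum fun l _ => hU Ω w hw hw1 f (a l) (B l) ε₂ (hB l) hε₂0.le hε₂1 hf.le
            (N l) (hN l) (hNa l)
      _ = 1 + CU * ε₂ := by rw [← mul_sum, htot, mul_one]
  have hA1 : |A - 1| < η₂ := by
    have h1 : ε₂ ≤ η₂ / (2 * (1 + CU)) := min_le_right _ _
    rw [le_div_iff₀ (by positivity)] at h1
    rw [abs_lt]
    constructor <;> nlinarith
  have hA2 := hη₂' hA1
  have hRu : R ≤ 2 * CE * ε₁ := by
    calc R ≤ ∑ l ∈ range M, CE * (∑ ω, w ω * |c l ω| ^ q +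
          if 2 < q then (B l) ^ ((q - 2) * q / 2) * (∑ ω, w ω * (c l ω) ^ 2) ^ (q / 2) else 0) :=
          sum_le_sum fun l _ => hE' Ω w hw hw1 (c l) (B l) (hB l) (N l) (hN l) (hNB l)
      _ = CE * (∑ l ∈ range M, ∑ ω, w ω * |c l ω| ^ q + ∑ l ∈ range M,
          if 2 < q then (B l) ^ ((q - 2) * q / 2) * (∑ ω, w ω * (c l ω) ^ 2) ^ (q / 2) else 0) := by
          rw [← mul_sum, sum_add_distrib]
      _ ≤ CE * (ε₁ + ε₁) := by
          gcongr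
          by_cases h2 : 2 < q
          · simp only [h2, if_true]; exact hc2 h2
          · simp only [h2, if_false, sum_const_zero]; exact hε₁0.le
      _ = 2 * CE * ε₁ := by ring
  have hR1 : R ^ (1 / q) < η₁ / 2 := by
    have h1 : R < (η₁ / 2) ^ q := by
      have h2 : ε₁ ≤ (η₁ / 2) ^ q / (4 * CE) := min_le_right _ _
      rw [le_div_iff₀ (by positivity)] at h2
      nlinarith
    calc R ^ (1 / q) < ((η₁ / 2) ^ q) ^ (1 / q) := Real.rpow_lt_rpow hR0 h1 (by positivity)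
      _ = η₁ / 2 := by
          rw [← Real.rpow_mul (by positivity), mul_one_div_cancel hq0.ne', Real.rpow_one]
  have hm1 : Mx ^ (1 / q) ≤ A ^ (1 / q) + R ^ (1 / q) := mink_levels hq.le H w hw M N a c
  have hm2 : A ^ (1 / q) ≤ Mx ^ (1 / q) + R ^ (1 / q) := by
    have := mink_levels hq.le H w hw M N (fun l ω => a l ω + c l ω) (fun l ω => - c l ω)
    simp only [add_neg_cancel_right, hE_neg] at this
    exact this
  have hfin : |Mx ^ (1 / q) - 1| < η₁ := by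
    rw [abs_lt] at hA2 ⊢
    constructor <;> linarith [hA2.1, hA2.2]
  have := hη₁' hfin
  rw [← Real.rpow_mul hMx0, one_div_mul_cancel hq0.ne', Real.rpow_one] at this
  exact this.le

end level

/-! ### the number of copies -/

noncomputable def NN (q ε₂ : ℝ) (J l : ℕ) : ℕ := max 1 ⌊ε₂ * ((2:ℝ) ^ ((l - 1) * J)) ^ q⌋₊

lemma one_le_NN (q ε₂ : ℝ) (J l : ℕ) : 1 ≤ NN q ε₂ J l := le_max_left _ _

lemma one_le_BB (J l : ℕ) : (1:ℝ) ≤ (2:ℝ) ^ ((l - 1) * J) := one_le_pow₀ (by norm_num)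

lemma NN_dich {q ε₂ : ℝ} (h0 : 0 < ε₂) (h1 : ε₂ ≤ 1) (J l : ℕ) :
    NN q ε₂ J l = 1 ∨ (1 ≤ l ∧ (NN q ε₂ J l : ℝ) ≤ ε₂ * ((2:ℝ) ^ ((l - 1) * J)) ^ q) := by
  unfold NN
  have hnn : 0 ≤ ε₂ * ((2:ℝ) ^ ((l - 1) * J)) ^ q := by positivity
  rcases Nat.eq_zero_or_pos l with rfl | hl
  · left
    simp only [zero_tsub, zero_mul, pow_zero, Real.one_rpow, mul_one]
    have : ⌊ε₂⌋₊ ≤ 1 := by
      have := Nat.floor_le_floor h1
      simpa using this
    exact max_eq_left this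
  · rcases le_or_gt ⌊ε₂ * ((2:ℝ) ^ ((l - 1) * J)) ^ q⌋₊ 1 with h | h
    · left; exact max_eq_left h
    · right
      refine ⟨hl, ?_⟩
      rw [max_eq_right h.le]
      exact Nat.floor_le hnn

lemma NN_le {q ε₂ : ℝ} (hq : 0 < q) (h0 : 0 < ε₂) (h1 : ε₂ ≤ 1) (J l : ℕ) :
    (NN q ε₂ J l : ℝ) ≤ ((2:ℝ) ^ ((l - 1) * J)) ^ q := by
  have hB : 1 ≤ ((2:ℝ) ^ ((l - 1) * J)) ^ q := Real.one_le_rpow (one_le_BB J l) hq.le
  rcases NN_dich (q := q) h0 h1 J l with h | ⟨_, h⟩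
  · rw [h]; simpa using hB
  · nlinarith

lemma NN_ge {q ε₂ : ℝ} (h0 : 0 < ε₂) (J l : ℕ) :
    ε₂ / 2 * ((2:ℝ) ^ ((l - 1) * J)) ^ q ≤ (NN q ε₂ J l : ℝ) := by
  unfold NN
  set Y := ε₂ * ((2:ℝ) ^ ((l - 1) * J)) ^ q with hY
  have h2 : ε₂ / 2 * ((2:ℝ) ^ ((l - 1) * J)) ^ q = Y / 2 := by rw [hY]; ring
  rw [h2]
  have h3 := Nat.lt_floor_add_one Y
  push_cast
  rcases le_or_gt Y 2 with h | h
  · exact le_trans (by linarith) (le_max_left _ _)
  · exact le_trans (by linarith) (le_max_right _ _)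

lemma NN_T {q ε₂ : ℝ} (hq : 0 < q) (h0 : 0 < ε₂) (J l : ℕ) (β : ℝ) (hβ : 0 ≤ β) :
    (NN q ε₂ J l : ℝ) ^ (-(1 / q)) * (β * 2 ^ ((l + 1) * J)) ≤
      (2 / ε₂) ^ (1 / q) * β * 2 ^ (2 * J) := by
  have hB0 : (0:ℝ) < (2:ℝ) ^ ((l - 1) * J) := by positivity
  have hN0 : (0:ℝ) < NN q ε₂ J l := by exact_mod_cast one_le_NN q ε₂ J l
  have h1 : (NN q ε₂ J l : ℝ) ^ (-(1 / q)) ≤ (2 / ε₂) ^ (1 / q) * ((2:ℝ) ^ ((l - 1) * J))⁻¹ := by
    calc (NN q ε₂ J l : ℝ) ^ (-(1 / q)) ≤ (ε₂ / 2 * ((2:ℝ) ^ ((l - 1) * J)) ^ q) ^ (-(1 / q)) := by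
          exact Real.rpow_le_rpow_of_nonpos (by positivity) (NN_ge h0 J l)
            (by simp only [Left.neg_nonpos_iff]; positivity)
      _ = _ := by
          rw [Real.mul_rpow (by positivity) (by positivity), ← Real.rpow_mul hB0.le]
          have e1 : q * -(1 / q) = -1 := by field_simp
          rw [e1, Real.rpow_neg_one, Real.rpow_neg (by positivity), ← Real.inv_rpow (by positivity)]
          congr 2
          field_simp
  have h2 : (2:ℝ) ^ ((l + 1) * J) ≤ (2:ℝ) ^ ((l - 1) * J) * 2 ^ (2 * J) := by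
    rw [← pow_add]
    refine pow_le_pow_right₀ (by norm_num) ?_
    rcases Nat.eq_zero_or_pos l with rfl | hl
    · simp; omega
    · obtain ⟨m, rfl⟩ : ∃ m, l = m + 1 := ⟨l - 1, by omega⟩
      simp; nlinarith
  calc (NN q ε₂ J l : ℝ) ^ (-(1 / q)) * (β * 2 ^ ((l + 1) * J))
      ≤ ((2 / ε₂) ^ (1 / q) * ((2:ℝ) ^ ((l - 1) * J))⁻¹) *
        (β * ((2:ℝ) ^ ((l - 1) * J) * 2 ^ (2 * J))) := by gcongr
    _ = _ := by field_simp

/-! ### the functions of `n` -/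

noncomputable def Jn (CW γ : ℝ) (n : ℕ) : ℕ := ⌈CW * (Real.log n) ^ γ⌉₊ + 1
def Kn (n : ℕ) : ℕ := 2 * Nat.clog 2 n
def Ln (n : ℕ) : ℕ := Kn n + 1
noncomputable def Tn (q ε₂ CW γ : ℝ) (n : ℕ) : ℝ :=
  (2 / ε₂) ^ (1 / q) * (3 * (4 * Real.log n + 1)) * 2 ^ (2 * Jn CW γ n)
noncomputable def δn (ε : ℝ) (n : ℕ) : ℝ := ε / (2 * (Ln n + 1 + ε))

lemma sub_L {γ : ℝ} (hγ : 0 < γ) : SubExp γ (fun n => (Ln n : ℝ)) := by
  have h : SubExp γ (fun n => (2 * (1 / Real.log 2)) * Real.log n + 3) :=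
    ((SubExp.const hγ.le (2 * (1 / Real.log 2))).mul (SubExp.logn hγ)
      (fun n hn => (log_nat_pos hn).le)).add hγ.le (SubExp.const hγ.le 3)
  refine h.mono fun n hn => ?_
  have h2 : 0 < Real.log 2 := Real.log_pos (by norm_num)
  have hl := log_nat_pos hn
  have h1 : (Nat.clog 2 n : ℝ) ≤ Real.log n / Real.log 2 + 1 := by
    rw [← Real.natCeil_logb_natCast]
    have : 0 ≤ Real.logb (2:ℕ) n := by
      rw [Real.logb]; push_cast; positivity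
    have := Nat.ceil_lt_add_one this
    rw [Real.logb] at this ⊢
    push_cast at this ⊢
    exact this.le
  unfold Ln Kn
  push_cast
  calc 2 * (Nat.clog 2 n : ℝ) + 1 ≤ 2 * (Real.log n / Real.log 2 + 1) + 1 := by gcongr
    _ = _ := by ring

lemma sub_pow {γ CW : ℝ} (hγ : 0 < γ) (hCW : 0 < CW) :
    SubExp γ (fun n => (2:ℝ) ^ (2 * Jn CW γ n)) := by
  have h : SubExp γ (fun n => Real.exp (4 * Real.log 2) *
      Real.exp ((2 * Real.log 2 * CW) * (Real.log n) ^ γ)) :=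
    (SubExp.const hγ.le _).mul (SubExp.expu _ (by have := Real.log_pos (by norm_num : (1:ℝ) < 2); positivity))
      (fun n hn => (Real.exp_pos _).le)
  refine h.mono fun n hn => ?_
  have hu : 0 ≤ (Real.log n) ^ γ := Real.rpow_nonneg (log_nat_pos hn).le _
  have h2 : 0 < Real.log 2 := Real.log_pos (by norm_num)
  have hJ : (Jn CW γ n : ℝ) ≤ CW * (Real.log n) ^ γ + 2 := by
    unfold Jn
    push_cast
    have := Nat.ceil_lt_add_one (mul_nonneg hCW.le hu)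
    linarith
  have h1 : (2:ℝ) ^ (2 * Jn CW γ n) = Real.exp (Real.log 2 * (2 * Jn CW γ n)) := by
    rw [Real.exp_mul, Real.exp_log (by norm_num)]
    rw [← Real.rpow_natCast]; push_cast; rfl
  show (2:ℝ) ^ (2 * Jn CW γ n) ≤ _
  rw [h1, ← Real.exp_add]
  refine Real.exp_le_exp.2 ?_
  nlinarith

lemma sub_T {q ε₂ γ CW : ℝ} (hε₂ : 0 < ε₂) (hγ : 0 < γ) (hCW : 0 < CW) :
    SubExp γ (fun n => Tn q ε₂ CW γ n) := by
  unfold Tn
  refine SubExp.mul (SubExp.mul (SubExp.const hγ.le _) ?_ ?_) (sub_pow hγ hCW) ?_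
  · refine SubExp.mul (SubExp.const hγ.le _) ?_ ?_
    · refine SubExp.add hγ.le (SubExp.mul (SubExp.const hγ.le _) (SubExp.logn hγ) ?_)
        (SubExp.const hγ.le _)
      exact fun n hn => (log_nat_pos hn).le
    · intro n hn; have := (log_nat_pos hn).le; positivity
  · intro n hn; have := (log_nat_pos hn).le; positivity
  · intro n hn; positivity

lemma sub_δ {ε γ : ℝ} (hε : 0 < ε) (hγ : 0 < γ) : SubExp γ (fun n => 1 / δn ε n) := by
  have h : SubExp γ (fun n => (2 / ε) * ((Ln n : ℝ) + (1 + ε))) := by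
    refine SubExp.mul (SubExp.const hγ.le _) (SubExp.add hγ.le (sub_L hγ) (SubExp.const hγ.le _)) ?_
    intro n hn; positivity
  refine h.mono fun n hn => ?_
  unfold δn
  rw [one_div_div]
  apply le_of_eq
  field_simp
  ring

lemma sub_dim {q ε₂ γ CW CS ε : ℝ} (hε₂ : 0 < ε₂) (hγ : 0 < γ) (hCW : 0 < CW) (hCS : 1 ≤ CS)
    (hε : 0 < ε) :
    SubExp γ (fun n => ((Ln n : ℝ) + 1) *
      (CS * (Tn q ε₂ CW γ n + Real.log n + 1 / δn ε n)) ^ CS) := by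
  have hT : ∀ n, 2 ≤ n → 0 ≤ Tn q ε₂ CW γ n := by
    intro n hn; unfold Tn; have := (log_nat_pos hn).le; positivity
  have hδ : ∀ n, 2 ≤ n → 0 ≤ 1 / δn ε n := by
    intro n hn; unfold δn; positivity
  have h0 : ∀ n, 2 ≤ n → 0 ≤ CS * (Tn q ε₂ CW γ n + Real.log n + 1 / δn ε n) := by
    intro n hn
    have := hT n hn; have := hδ n hn; have := (log_nat_pos hn).le
    positivity
  refine SubExp.mul (SubExp.add hγ.le (sub_L hγ) (SubExp.const hγ.le _)) ?_ ?_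
  · refine SubExp.rpow ?_ h0 _ (by linarith)
    refine SubExp.mul (SubExp.const hγ.le _) ?_ ?_
    · exact ((sub_T hε₂ hγ hCW).add hγ.le (SubExp.logn hγ)).add hγ.le (sub_δ hε hγ)
    · intro n hn
      have := hT n hn; have := hδ n hn; have := (log_nat_pos hn).le
      positivity
  · intro n hn
    exact Real.rpow_nonneg (h0 n hn) _

/-! ### concatenation of the samples -/

lemma concat {q : ℝ} (hq : 0 < q) {n M : ℕ} (ℓ : Fin n × Fin n → ℝ) (S : Fin M → ℕ)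
    (hS : ∀ l, 0 < S l) (ψ : (l : Fin M) → Fin (S l) → Fin n → ℝ) :
    ∃ y : Fin n → Fin (∑ l, S l) → ℝ, ∀ e,
      ∑ k, |grad ℓ (fun i => y i k) e| ^ q =
        ∑ l, (1 / (S l : ℝ)) * ∑ s, |grad ℓ (fun i => ψ l s i) e| ^ q := by
  refine ⟨fun i k => ((S (finSigmaFinEquiv.symm k).1 : ℝ)) ^ (-(1 / q)) *
    ψ (finSigmaFinEquiv.symm k).1 (finSigmaFinEquiv.symm k).2 i, fun e => ?_⟩
  have key := Equiv.sum_comp (finSigmaFinEquiv (n := S)).symm
    (fun p : (l : Fin M) × Fin (S l) =>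
      |grad ℓ (fun i => ((S p.1 : ℝ)) ^ (-(1 / q)) * ψ p.1 p.2 i) e| ^ q)
  rw [key, Fintype.sum_sigma]
  refine sum_congr rfl fun l _ => ?_
  rw [mul_sum]
  refine sum_congr rfl fun s _ => ?_
  rw [grad_smul, abs_mul, Real.mul_rpow (abs_nonneg _) (abs_nonneg _)]
  have h0 : (0:ℝ) < S l := by exact_mod_cast hS l
  congr 1
  rw [abs_of_pos (Real.rpow_pos_of_pos h0 _), ← Real.rpow_mul h0.le]
  have : -(1 / q) * q = -1 := by field_simp
  rw [this, Real.rpow_neg_one, one_div]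

theorem finiteEmbedding_of (q : ℝ) (hq : 1 < q) (hq2 : q ≠ 2) (HW : Windows q)
    (H : HashFacts q) (HS : Sampling q) : FiniteEmbedding q := by
  have hq0 : 0 < q := by linarith
  intro ε hε
  obtain ⟨ε₁, ε₂, hε₁, hε₁1, hε₂, hε₂1, hmain⟩ := main_est hq H (ε / 2) (by positivity)
  obtain ⟨CW, hCW, hWin⟩ := HW ε₁ hε₁
  obtain ⟨CS, hCS, hSamp⟩ := HS (Real.exp 8) (Real.one_le_exp (by norm_num))
  set γ := |1 - 2 / q| with hγ
  have hγ0 : 0 < γ := by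
    rw [hγ, abs_pos, sub_ne_zero, ne_comm, Ne, div_eq_one_iff_eq hq0.ne']
    exact fun h => hq2 h.symm
  obtain ⟨C, hC, hdim⟩ := sub_dim (q := q) hε₂ hγ0 hCW hCS hε
  refine ⟨C + 1, by positivity, ?_⟩
  intro n hn Ω _ w hw hw1 X ℓ hℓ hX hXn
  have hlog := log_nat_pos hn
  have hu : 0 ≤ (Real.log n) ^ γ := Real.rpow_nonneg hlog.le _
  set J := Jn CW γ n with hJ
  set K := Kn n with hK
  set L := Ln n with hL
  set T := Tn q ε₂ CW γ n with hT
  set δ := δn ε n with hδ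
  set β := 3 * (4 * Real.log n + 1) with hβ
  have hβ1 : 1 ≤ β := by rw [hβ]; linarith
  have hJ0 : 0 < J := by rw [hJ]; unfold Jn; omega
  have hKL : K < L * J := by
    have : L = K + 1 := rfl
    rw [this]; nlinarith
  have hXq : ∀ e, ∑ ω, w ω * |grad ℓ (fun i => X i ω) e| ^ q ≤ 1 := by
    intro e
    by_cases he : e.1 = e.2
    · have : ∀ ω, grad ℓ (fun i => X i ω) e = 0 := by
        intro ω; unfold grad; rw [he]; simp
      simp only [this, abs_zero, Real.zero_rpow hq0.ne', mul_zero, sum_const_zero]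
      norm_num
    · exact (hX e.1 e.2 he).le
  have hXK : ∀ e ω, |grad ℓ (fun i => X i ω) e| ≤ 2 ^ K := by
    intro e ω
    refine (hXn e ω).trans ?_
    have h1 : (n:ℝ) ≤ 2 ^ Nat.clog 2 n := by exact_mod_cast Nat.le_pow_clog (by norm_num) n
    calc (n:ℝ) ^ 2 ≤ ((2:ℝ) ^ Nat.clog 2 n) ^ 2 := by gcongr
      _ = 2 ^ K := by rw [hK]; unfold Kn; rw [← pow_mul, mul_comm]
  have hJC : CW * (Real.log n) ^ γ ≤ J := by
    rw [hJ]; unfold Jn; push_cast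
    have := Nat.le_ceil (CW * (Real.log n) ^ γ)
    linarith
  obtain ⟨x, a, c, hxac, hxb, haf, hasp, hcq, hc2⟩ :=
    hWin n hn Ω w hw X ℓ hℓ hXq K J L hXK hJ0 hKL hJC
  -- the number of copies
  set N : ℕ → ℕ := fun l => NN q ε₂ J l with hN
  set B : ℕ → ℝ := fun l => (2:ℝ) ^ ((l - 1) * J) with hB
  have hB1 : ∀ l, 1 ≤ B l := fun l => one_le_BB J l
  have hN1 : ∀ l, 1 ≤ N l := fun l => one_le_NN q ε₂ J l
  have hNB : ∀ l, (N l : ℝ) ≤ (B l) ^ q := fun l => NN_le hq0 hε₂ hε₂1 J l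
  have hT1 : 1 ≤ T := by
    rw [hT]; unfold Tn
    have e1 : 1 ≤ (2 / ε₂) ^ (1 / q) := by
      refine Real.one_le_rpow ?_ (by positivity)
      rw [le_div_iff₀ hε₂]; linarith
    have e2 : (1:ℝ) ≤ 2 ^ (2 * Jn CW γ n) := one_le_pow₀ (by norm_num)
    have e3 : 1 ≤ (2 / ε₂) ^ (1 / q) * (3 * (4 * Real.log n + 1)) := by
      exact one_le_mul_of_one_le_of_one_le e1 hβ1
    exact one_le_mul_of_one_le_of_one_le e3 e2
  have hδ0 : 0 < δ := by rw [hδ]; unfold δn; positivity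
  have hδ1 : δ ≤ 1 := by
    rw [hδ]; unfold δn
    rw [div_le_one (by positivity)]
    have : (0:ℝ) ≤ (Ln n : ℝ) := Nat.cast_nonneg _
    linarith
  -- the hashed functions
  set r : ℕ → ℝ := fun l => (N l : ℝ) ^ (-(1 / q)) with hr
  set φ : (l : ℕ) → Fin n → (Fin (N l) → Ω × Bool) → ℝ :=
    fun l i θ => r l * hS (x l i) (N l) θ with hφ
  have hφg : ∀ l e θ, grad ℓ (fun i => φ l i θ) e =
      r l * hS (fun ω => grad ℓ (fun i => x l i ω) e) (N l) θ := by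
    intro l e θ
    simp only [hφ]
    rw [grad_smul, grad_hS]
  have hterm : ∀ e, ∀ l ∈ range (L + 1), ∑ ω, w ω * |c l e ω| ^ q ≤ ε₁ := by
    intro e l hl
    refine le_trans ?_ (hcq e)
    exact single_le_sum (f := fun l => ∑ ω, w ω * |c l e ω| ^ q) (fun l _ => sum_nonneg fun ω _ =>
      mul_nonneg (hw ω) (Real.rpow_nonneg (abs_nonneg _) _)) hl
  have hBpow : ∀ l, (2 : ℝ) ^ ((((l - 1) * J : ℕ) : ℝ) * ((q - 2) * q / 2)) =
      (B l) ^ ((q - 2) * q / 2) := by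
    intro l
    simp only [hB]
    rw [← Real.rpow_natCast, ← Real.rpow_mul (by norm_num)]
  have hterm2 : 2 < q → ∀ e, ∀ l ∈ range (L + 1), (B l) ^ ((q - 2) * q / 2) *
      (∑ ω, w ω * (c l e ω) ^ 2) ^ (q / 2) ≤ ε₁ := by
    intro h2 e l hl
    have h3 := hc2 h2 e
    simp only [hBpow] at h3
    refine le_trans ?_ h3
    refine single_le_sum (f := fun l => (B l) ^ ((q - 2) * q / 2) *
      (∑ ω, w ω * (c l e ω) ^ 2) ^ (q / 2)) (fun l _ => ?_) hl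
    refine mul_nonneg (Real.rpow_nonneg (by linarith [hB1 l]) _) (Real.rpow_nonneg ?_ _)
    exact sum_nonneg fun ω _ => mul_nonneg (hw ω) (by positivity)
  have hafl : ∀ e ω, ∀ l ∈ range (L + 1), |a l e ω| ≤ |grad ℓ (fun i => X i ω) e| := by
    intro e ω l hl
    have h1 : |a l e ω| ^ q ≤ |grad ℓ (fun i => X i ω) e| ^ q := by
      rw [← haf e ω]
      exact single_le_sum (f := fun l => |a l e ω| ^ q)
        (fun l _ => Real.rpow_nonneg (abs_nonneg _) _) hl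
    exact (Real.rpow_le_rpow_iff (abs_nonneg _) (abs_nonneg _) hq0).1 h1
  have hcosh : ∀ l ∈ range (L + 1), ∀ e, ∑ θ, hW w (N l) θ *
      Real.cosh (grad ℓ (fun i => φ l i θ) e / T) ≤ Real.exp 8 := by
    intro l hl e
    have h1 : ∑ θ, hW w (N l) θ * Real.cosh (grad ℓ (fun i => φ l i θ) e / T) =
        hE w (N l) Real.cosh (fun ω => r l / T * grad ℓ (fun i => x l i ω) e) := by
      unfold hE
      refine sum_congr rfl fun θ _ => ?_
      rw [hφg, hS_smul]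
      congr 2
      ring
    rw [h1]
    refine level_cosh hq hq2 H w hw hw1 (fun ω => grad ℓ (fun i => X i ω) e) (a l e) (c l e)
      (fun ω => grad ℓ (fun i => x l i ω) e) (fun ω => hxac l e ω) (B l) T (hB1 l) hT1 (hXq e)
      (fun ω => hafl e ω l hl) ?_ ((hterm e l hl).trans hε₁1)
      (fun h2 => (hterm2 h2 e l hl).trans hε₁1) (N l) (hN1 l) (hNB l) (r l) rfl ?_
    · rcases Nat.eq_zero_or_pos l with h | h
      · left; rw [h]; simp [hB]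
      · right; intro ω hω
        exact hasp l e ω hω h
    · intro ω
      have h2 := hxb l e ω
      have h3 := NN_T hq0 hε₂ J l β (by linarith)
      have hr0 : 0 ≤ r l := Real.rpow_nonneg (Nat.cast_nonneg _) _
      calc r l * |grad ℓ (fun i => x l i ω) e| ≤ r l * (β * 2 ^ ((l + 1) * J)) := by gcongr
        _ ≤ (2 / ε₂) ^ (1 / q) * β * 2 ^ (2 * J) := h3
        _ = T := rfl
  have hex : ∀ l : Fin (L + 1), ∃ S : ℕ, 0 < S ∧
      (S : ℝ) ≤ (CS * (T + Real.log n + 1 / δ)) ^ CS ∧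
        ∃ θ : Fin S → (Fin (N l) → Ω × Bool), ∀ e,
          |(1 / S : ℝ) * ∑ s, |grad ℓ (fun i => φ l i (θ s)) e| ^ q
            - ∑ θ, hW w (N l) θ * |grad ℓ (fun i => φ l i θ) e| ^ q| ≤ δ := by
    intro l
    refine hSamp (Fin (N l) → Ω × Bool) (hW w (N l)) ?_ (H.mass Ω w hw1 (N l)) n hn ℓ hℓ (φ l)
      T δ hT1 hδ0 hδ1 (hcosh l (mem_range.2 l.2))
    intro θ
    exact prod_nonneg fun a _ => by have := hw (θ a).1; positivity
  choose S hS0 hSb θ hθ using hex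
  obtain ⟨y, hy⟩ := concat hq0 ℓ S hS0 (fun l s i => φ l i (θ l s))
  refine ⟨∑ l, S l, ?_, y, ?_⟩
  · push_cast
    calc ∑ l, (S l : ℝ) ≤ ∑ l : Fin (L + 1), (CS * (T + Real.log n + 1 / δ)) ^ CS :=
          sum_le_sum fun l _ => hSb l
      _ = ((L:ℝ) + 1) * (CS * (T + Real.log n + 1 / δ)) ^ CS := by
          rw [sum_const, card_univ, Fintype.card_fin, nsmul_eq_mul]; push_cast; rfl
      _ ≤ Real.exp (C * (Real.log n) ^ γ) := hdim n hn
      _ ≤ Real.exp ((C + 1) * (Real.log n) ^ γ) := Real.exp_le_exp.2 (by nlinarith)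
  · intro i j hij
    rw [hy]
    have hE1 : ∀ l : ℕ, ∑ θ, hW w (N l) θ * |grad ℓ (fun i => φ l i θ) (i, j)| ^ q =
        (N l : ℝ)⁻¹ * hE w (N l) (fun t => |t| ^ q) (fun ω => a l (i, j) ω + c l (i, j) ω) := by
      intro l
      unfold hE
      rw [mul_sum]
      refine sum_congr rfl fun θ _ => ?_
      rw [hφg]
      have hN0 : (0:ℝ) < N l := by exact_mod_cast hN1 l
      have hr0 : 0 < r l := Real.rpow_pos_of_pos hN0 _
      rw [abs_mul, Real.mul_rpow (abs_nonneg _) (abs_nonneg _), abs_of_pos hr0]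
      have hrq : r l ^ q = (N l : ℝ)⁻¹ := by
        simp only [hr]
        rw [← Real.rpow_mul hN0.le, ← Real.rpow_neg_one]
        congr 1
        field_simp
      rw [hrq]
      simp only [hxac]
      ring
    have hM := hmain Ω w hw hw1 (fun ω => grad ℓ (fun i => X i ω) (i, j)) (hX i j hij) (L + 1)
      (fun l => a l (i, j)) (fun l => c l (i, j)) B hB1 (haf (i, j)) (hcq (i, j))
      (fun h2 => by have := hc2 h2 (i, j); simpa only [hBpow] using this) N hN1 hNB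
      (fun l => by
        rcases NN_dich (q := q) hε₂ hε₂1 J l with h | ⟨h, h'⟩
        · exact Or.inl h
        · exact Or.inr ⟨fun ω hω => hasp l (i, j) ω hω h, h'⟩)
    rw [← Fin.sum_univ_eq_sum_range (fun l => (N l : ℝ)⁻¹ * hE w (N l) (fun t => |t| ^ q)
      (fun ω => a l (i, j) ω + c l (i, j) ω)) (L + 1)] at hM
    have hD : |∑ l, (1 / (S l : ℝ)) * ∑ s, |grad ℓ (fun i => φ l i (θ l s)) (i, j)| ^ q -
        ∑ l : Fin (L + 1), (N l : ℝ)⁻¹ * hE w (N l) (fun t => |t| ^ q)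
      (fun ω => a l (i, j) ω + c l (i, j) ω)| ≤ ε / 2 := by
      rw [← sum_sub_distrib]
      calc _ ≤ ∑ l : Fin (L + 1), |(1 / (S l : ℝ)) *
            ∑ s, |grad ℓ (fun i => φ l i (θ l s)) (i, j)| ^ q - (N l : ℝ)⁻¹ *
            hE w (N l) (fun t => |t| ^ q) (fun ω => a l (i, j) ω + c l (i, j) ω)| :=
            abs_sum_le_sum_abs _ _
        _ ≤ ∑ l : Fin (L + 1), δ := by
            refine sum_le_sum fun l _ => ?_
            rw [← hE1]
            exact hθ l (i, j)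
        _ = ((L:ℝ) + 1) * δ := by
            rw [sum_const, card_univ, Fintype.card_fin, nsmul_eq_mul]; push_cast; rfl
        _ ≤ ε / 2 := by
            rw [hδ]; unfold δn
            rw [mul_div_assoc', div_le_div_iff₀ (by positivity) (by norm_num)]
            nlinarith
    have := abs_sub_le (∑ l, (1 / (S l : ℝ)) * ∑ s, |grad ℓ (fun i => φ l i (θ l s)) (i, j)| ^ q)
      (∑ l : Fin (L + 1), (N l : ℝ)⁻¹ * hE w (N l) (fun t => |t| ^ q)
      (fun ω => a l (i, j) ω + c l (i, j) ω)) 1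
    linarith

end Crest.Agent.H27
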